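import Vale.Agent.P163.Gap.Defs

/-!
A uniform unit vector as a sign, an axial component and an angle.
-/

open MeasureTheory Real Matrix Finset
open scoped BigOperators

namespace Vale.Agent.P163.Gap

variable {L₁ L₂ : ℕ} [NeZero L₁] [NeZero L₂]

lemma measurable_axial : Measurable fun v : Sph 3 => |(v : Vec 3).ofLp 0| :=
  (by fun_prop : Continuous fun v : Sph 3 => |(v : Vec 3).ofLp 0|).measurable

instance : IsProbabilityMeasure axisLaw := by
  have := omega_isProbability (n := 3)
  exact Measure.isProbabilityMeasure_map measurable_axial.aemeasurable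

lemma abs_first_le (v : Sph 3) : |(v : Vec 3).ofLp 0| ≤ 1 := by
  simpa using PiLp.norm_apply_le (v : Vec 3) 0

theorem axisLaw_mem : ∀ᵐ a ∂axisLaw, a ∈ Set.Icc (0 : ℝ) 1 := by
  rw [axisLaw]
  exact (ae_map_iff measurable_axial.aemeasurable measurableSet_Icc).2
    (Filter.Eventually.of_forall fun v => ⟨abs_nonneg _, abs_first_le v⟩)

lemma cossq_add (φ : Ang) : acos' φ ^ 2 + asin' φ ^ 2 = 1 := Real.Angle.cos_sq_add_sin_sq φ

lemma acos_add (ψ φ : Ang) : acos' (ψ + φ) = acos' ψ * acos' φ - asin' ψ * asin' φ :=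
  Real.Angle.cos_add ψ φ

lemma asin_add (ψ φ : Ang) : asin' (ψ + φ) = asin' ψ * acos' φ + acos' ψ * asin' φ :=
  Real.Angle.sin_add ψ φ

lemma acos_sub (ψ φ : Ang) : acos' (ψ - φ) = acos' ψ * acos' φ + asin' ψ * asin' φ := by
  have h1 : acos' (-φ) = acos' φ := Real.Angle.cos_neg φ
  have h2 : asin' (-φ) = -asin' φ := Real.Angle.sin_neg φ
  rw [sub_eq_add_neg, acos_add, h1, h2]
  ring

lemma acos_coe (x : ℝ) : acos' ((x : ℝ) : Ang) = Real.cos x := Real.Angle.cos_coe x

lemma asin_coe (x : ℝ) : asin' ((x : ℝ) : Ang) = Real.sin x := Real.Angle.sin_coe x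

lemma sv_sq_one (s : Bool) : sv s * sv s = 1 := by cases s <;> simp [sv]

/-- A rotation about the first axis, with a possible flip of that axis. -/
noncomputable def rotLin (s : Bool) (φ : Ang) : Vec 3 →ₗᵢ[ℝ] Vec 3 where
  toFun v := WithLp.toLp 2 ![sv s * v.ofLp 0, v.ofLp 1 * acos' φ - v.ofLp 2 * asin' φ,
    v.ofLp 1 * asin' φ + v.ofLp 2 * acos' φ]
  map_add' u v := by
    ext i
    fin_cases i <;> simp <;> ring
  map_smul' c v := by
    ext i
    fin_cases i <;> simp <;> ring
  norm_map' v := by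
    have h := cossq_add φ
    have e := sv_sq_one s
    rw [EuclideanSpace.norm_eq, EuclideanSpace.norm_eq]
    congr 1
    simp [Fin.sum_univ_three, mul_pow]
    linear_combination (v.ofLp 1 ^ 2 + v.ofLp 2 ^ 2) * h + v.ofLp 0 ^ 2 * e

/-- The same as an isometric equivalence. -/
noncomputable def rotIso (s : Bool) (φ : Ang) : Vec 3 ≃ₗᵢ[ℝ] Vec 3 :=
  (rotLin s φ).toLinearIsometryEquiv rfl

lemma rotIso_apply (s : Bool) (φ : Ang) (v : Vec 3) :
    rotIso s φ v = WithLp.toLp 2 ![sv s * v.ofLp 0, v.ofLp 1 * acos' φ - v.ofLp 2 * asin' φ,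
      v.ofLp 1 * asin' φ + v.ofLp 2 * acos' φ] := rfl

lemma exists_axial (v : Sph 3) : ∃ (ψ : Ang) (t : Bool), ∀ (s : Bool) (φ : Ang),
    rotIso s φ (v : Vec 3) = spinVec (if t then s else !s) |(v : Vec 3).ofLp 0| (ψ + φ) := by
  set a := (v : Vec 3).ofLp 0 with ha
  set z : ℂ := ⟨(v : Vec 3).ofLp 1, (v : Vec 3).ofLp 2⟩ with hz
  refine ⟨((z.arg : ℝ) : Ang), decide (0 ≤ a), fun s φ => ?_⟩
  have hn : ‖(v : Vec 3)‖ ^ 2 = 1 := by simp
  rw [EuclideanSpace.norm_sq_eq] at hn
  simp only [Fin.sum_univ_three, Real.norm_eq_abs, sq_abs] at hn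
  have hc : clip |a| = |a| := by
    rw [clip, max_eq_right (abs_nonneg _), min_eq_right (abs_first_le v)]
  have hp : perp |a| = ‖z‖ := by
    rw [perp, hc, sq_abs, Complex.norm_def, Complex.normSq_apply]
    congr 1
    simp only [hz]
    rw [ha]
    linarith [hn]
  have h1 : ‖z‖ * acos' ((z.arg : ℝ) : Ang) = (v : Vec 3).ofLp 1 := by
    rw [acos_coe]
    exact Complex.norm_mul_cos_arg z
  have h2 : ‖z‖ * asin' ((z.arg : ℝ) : Ang) = (v : Vec 3).ofLp 2 := by
    rw [asin_coe]
    exact Complex.norm_mul_sin_arg z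
  have h0 : sv (if decide (0 ≤ a) then s else !s) * |a| = sv s * a := by
    rcases le_or_gt 0 a with h | h
    · simp [h, abs_of_nonneg h]
    · cases s <;> simp [not_le.2 h, abs_of_neg h, sv]
  rw [rotIso_apply, spinVec, hc, hp, h0, acos_add, asin_add, mul_sub, mul_add, ← mul_assoc,
    ← mul_assoc, ← mul_assoc, ← mul_assoc, h1, h2]
  congr 1
  ext i
  fin_cases i <;> simp [ha]
  ring

/-- The spins of signs, axial components and angles. -/
noncomputable def spins (s : Site L₁ L₂ → Bool) (a : Site L₁ L₂ → ℝ) (θ : Site L₁ L₂ → Ang)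
    (x : Site L₁ L₂) : Vec 3 := spinVec (s x) (a x) (θ x)

lemma continuous_acos : Continuous acos' := Real.Angle.continuous_cos

lemma continuous_asin : Continuous asin' := Real.Angle.continuous_sin

lemma continuous_spinVec (s : Bool) : Continuous fun p : ℝ × Ang => spinVec s p.1 p.2 := by
  have h1 := continuous_acos
  have h2 := continuous_asin
  unfold spinVec
  refine (PiLp.continuous_toLp 2 _).comp (continuous_pi fun i => ?_)
  fin_cases i <;> simp [clip, perp] <;> fun_prop

omit [NeZero L₁] [NeZero L₂] in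
lemma continuous_spins (s : Site L₁ L₂ → Bool) :
    Continuous fun p : (Site L₁ L₂ → ℝ) × (Site L₁ L₂ → Ang) => spins s p.1 p.2 :=
  continuous_pi fun x => (continuous_spinVec (s x)).comp
    (f := fun p : (Site L₁ L₂ → ℝ) × (Site L₁ L₂ → Ang) => (p.1 x, p.2 x)) (by fun_prop)

lemma continuous_rotIso (s : Bool) :
    Continuous fun p : Ang × Sph 3 => rotIso s p.1 (p.2 : Vec 3) := by
  have h1 := continuous_acos
  have h2 := continuous_asin
  simp only [rotIso_apply]
  refine (PiLp.continuous_toLp 2 _).comp (continuous_pi fun i => ?_)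
  fin_cases i <;> simp <;> fun_prop

omit [NeZero L₁] [NeZero L₂] in
/-- A continuous function on a compact space is integrable. -/
lemma integrable_compact {α : Type*} [TopologicalSpace α] [CompactSpace α] [MeasurableSpace α]
    [OpensMeasurableSpace α] {μ : Measure α} [IsFiniteMeasure μ] {f : α → ℝ} (hf : Continuous f) :
    Integrable f μ := by
  obtain ⟨C, hC⟩ := isCompact_univ.exists_bound_of_continuousOn hf.continuousOn
  exact Integrable.of_bound hf.stronglyMeasurable.aestronglyMeasurable C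
    (Filter.Eventually.of_forall fun a => hC a (Set.mem_univ a))

instance : IsProbabilityMeasure (angles L₁ L₂) := by unfold angles; infer_instance

lemma angles_shift (ψ : Site L₁ L₂ → Ang) :
    MeasurePreserving (fun φ : Site L₁ L₂ → Ang => ψ + φ) (angles L₁ L₂) (angles L₁ L₂) := by
  unfold angles
  exact measurePreserving_pi _ _ fun x => measurePreserving_add_left _ (ψ x)

/-- Integration over configurations in axial coordinates. -/
theorem integral_axes {g : (Site L₁ L₂ → Vec 3) → ℝ} (hg : Continuous g) :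
    ∫ σ, g (fun x => (σ x : Vec 3)) ∂freeMeasure 3 (Site L₁ L₂) =
      ∫ a, ∫ θ, (∑ s, g (spins s a θ)) / Fintype.card (Site L₁ L₂ → Bool) ∂angles L₁ L₂
        ∂axes L₁ L₂ := by
  have := omega_isProbability (n := 3)
  have := freeMeasure_isProbability (n := 3) (V := Site L₁ L₂)
  set μ := freeMeasure 3 (Site L₁ L₂) with hμ
  set N : ℝ := (Fintype.card (Site L₁ L₂ → Bool) : ℝ) with hN
  have hN0 : N ≠ 0 := by rw [hN]; exact_mod_cast Fintype.card_ne_zero
  set G : (Site L₁ L₂ → ℝ) → ℝ := fun a => ∫ θ, (∑ s, g (spins s a θ)) / N ∂angles L₁ L₂ with hG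
  set H : (Site L₁ L₂ → Ang) → Conf L₁ L₂ → ℝ := fun φ σ =>
    (∑ s : Site L₁ L₂ → Bool, g fun x => rotIso (s x) (φ x) (σ x : Vec 3)) / N with hH
  have cH : Continuous fun p : (Site L₁ L₂ → Ang) × Conf L₁ L₂ =>
      (∑ s : Site L₁ L₂ → Bool, g fun x => rotIso (s x) (p.1 x) (p.2 x : Vec 3)) / N := by
    refine (continuous_finsetSum _ fun s _ => hg.comp (continuous_pi fun x => ?_)).div_const N
    exact (continuous_rotIso (s x)).comp
      (f := fun p : (Site L₁ L₂ → Ang) × Conf L₁ L₂ => (p.1 x, p.2 x)) (by fun_prop)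
  have c0 : Continuous fun σ : Conf L₁ L₂ => g fun x => (σ x : Vec 3) :=
    hg.comp (continuous_pi fun x => continuous_subtype_val.comp (continuous_apply x))
  have cs : ∀ (s : Site L₁ L₂ → Bool) (φ : Site L₁ L₂ → Ang),
      Continuous fun σ : Conf L₁ L₂ => g fun x => rotIso (s x) (φ x) (σ x : Vec 3) := fun s φ =>
    hg.comp (continuous_pi fun x => (rotIso (s x) (φ x)).continuous.comp
      (continuous_subtype_val.comp (continuous_apply x)))
  have hs : ∀ (s : Site L₁ L₂ → Bool) (φ : Site L₁ L₂ → Ang),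
      ∫ σ, g (fun x => rotIso (s x) (φ x) (σ x : Vec 3)) ∂μ = ∫ σ, g (fun x => (σ x : Vec 3)) ∂μ := by
    intro s φ
    have hm : MeasurePreserving (fun σ : Conf L₁ L₂ => fun x => sphMap (rotIso (s x) (φ x)) (σ x))
        μ μ := measurePreserving_pi _ _ fun x => omega_invariant _
    conv_rhs => rw [← hm.map_eq]
    rw [integral_map hm.measurable.aemeasurable (c0.stronglyMeasurable.aestronglyMeasurable)]
    rfl
  have hav : ∀ φ, ∫ σ, H φ σ ∂μ = ∫ σ, g (fun x => (σ x : Vec 3)) ∂μ := by
    intro φ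
    simp only [hH]
    rw [integral_div, integral_finsetSum _ fun s _ => integrable_compact (cs s φ)]
    simp only [hs, Finset.sum_const, Finset.card_univ, nsmul_eq_mul, ← hN]
    field_simp
  have hpt : ∀ σ : Conf L₁ L₂,
      ∫ φ, H φ σ ∂angles L₁ L₂ = G fun x => |(σ x : Vec 3).ofLp 0| := by
    intro σ
    choose ψ t hψ using fun x => exists_axial (σ x)
    set a : Site L₁ L₂ → ℝ := fun x => |(σ x : Vec 3).ofLp 0| with ha
    have e : ∀ φ, H φ σ = (∑ s, g (spins s a (ψ + φ))) / N := by
      intro φ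
      simp only [hH]
      congr 1
      refine Fintype.sum_equiv (Equiv.piCongrRight fun x =>
        Function.Involutive.toPerm (fun b : Bool => if t x then b else !b)
          (fun b => by cases t x <;> simp)) _ _ fun s => ?_
      congr 1
      funext x
      exact hψ x (s x) (φ x)
    have cF : Continuous fun θ => (∑ s, g (spins s a θ)) / N :=
      (continuous_finsetSum _ fun s _ => hg.comp
        ((continuous_spins s).comp (continuous_const.prodMk continuous_id))).div_const N
    simp only [e, hG]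
    conv_rhs => rw [← (angles_shift ψ).map_eq]
    rw [integral_map (angles_shift ψ).measurable.aemeasurable
      cF.stronglyMeasurable.aestronglyMeasurable]
  have hGm : StronglyMeasurable G := by
    refine StronglyMeasurable.integral_prod_right'
      (f := fun p : (Site L₁ L₂ → ℝ) × (Site L₁ L₂ → Ang) => (∑ s, g (spins s p.1 p.2)) / N) ?_
    exact ((continuous_finsetSum _ fun s _ => hg.comp (continuous_spins s)).div_const
      N).stronglyMeasurable
  have hmap : μ.map (fun σ x => |(σ x : Vec 3).ofLp 0|) = axes L₁ L₂ := by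
    rw [hμ, freeMeasure, axes, axisLaw]
    exact Measure.pi_map_pi fun _ => measurable_axial.aemeasurable
  calc ∫ σ, g (fun x => (σ x : Vec 3)) ∂μ
      = ∫ φ, ∫ σ, H φ σ ∂μ ∂angles L₁ L₂ := by simp [hav]
    _ = ∫ σ, ∫ φ, H φ σ ∂angles L₁ L₂ ∂μ := integral_integral_swap (integrable_compact (μ := (angles L₁ L₂).prod μ) cH)
    _ = ∫ σ, G (fun x => |(σ x : Vec 3).ofLp 0|) ∂μ := by simp only [hpt]
    _ = ∫ a, G a ∂axes L₁ L₂ := by
      have hmm : Measurable fun σ : Conf L₁ L₂ => fun x => |(σ x : Vec 3).ofLp 0| :=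
        measurable_pi_lambda _ fun x => measurable_axial.comp (measurable_pi_apply x)
      rw [← hmap, integral_map hmm.aemeasurable hGm.aestronglyMeasurable]

/-- The weight in axial coordinates. -/
theorem integral_weight_spins (J : Bond L₁ L₂ → ℝ) (a : Site L₁ L₂ → ℝ)
    (s : Site L₁ L₂ → Bool) :
    ∫ θ, Real.exp (∑ b, J b * ∑ p, (spins s a θ (tip b)).ofLp p * (spins s a θ b.1).ofLp p)
        ∂angles L₁ L₂ = isW (kIsing J a) 0 s * xyZ (kPlane J a) := by
  rw [xyZ, isW, ← integral_const_mul]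
  refine integral_congr_ae (Filter.Eventually.of_forall fun θ => ?_)
  simp only [Pi.zero_apply, zero_mul, Finset.sum_const_zero, add_zero]
  rw [← Real.exp_add, ← Finset.sum_add_distrib]
  congr 1
  refine Finset.sum_congr rfl fun b _ => ?_
  rw [acos_sub]
  simp [spins, spinVec, Fin.sum_univ_three, kIsing, kPlane]
  ring

lemma wt_eq (J : Bond L₁ L₂ → ℝ) (σ : Conf L₁ L₂) :
    wt J σ =
      Real.exp (∑ b, J b * ∑ p, (σ (tip b) : Vec 3).ofLp p * (σ b.1 : Vec 3).ofLp p) := by
  simp [wt, energy3, lin, bil, Matrix.one_apply, ite_mul]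

/-- The correlation of the first components as an average over the axial components. -/
theorem corr3_eq (J : Bond L₁ L₂ → ℝ) (x y : Site L₁ L₂) :
    corr3 J x y = (∫ a, clip (a x) * clip (a y) *
        isE (kIsing J a) 0 (fun s => sv (s x) * sv (s y)) * axisW J a ∂axes L₁ L₂) /
      ∫ a, axisW J a ∂axes L₁ L₂ := by
  set w : (Site L₁ L₂ → Vec 3) → ℝ := fun v =>
    Real.exp (∑ b, J b * ∑ p, (v (tip b)).ofLp p * (v b.1).ofLp p) with hw
  set f : (Site L₁ L₂ → Vec 3) → ℝ := fun v => (v x).ofLp 0 * (v y).ofLp 0 with hf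
  have cw : Continuous w := by simp only [hw]; fun_prop
  have cf : Continuous f := by simp only [hf]; fun_prop
  have hσ : ∀ σ : Conf L₁ L₂, wt J σ = w fun z => (σ z : Vec 3) := fun σ => wt_eq J σ
  have hcs : ∀ (s : Site L₁ L₂ → Bool) (a : Site L₁ L₂ → ℝ),
      Continuous fun θ => spins s a θ := fun s a =>
    (continuous_spins s).comp (continuous_const.prodMk continuous_id)
  have hval : ∀ (s : Site L₁ L₂ → Bool) a θ (z : Site L₁ L₂),
      (spins s a θ z).ofLp 0 = sv (s z) * clip (a z) := fun s a θ z => by simp [spins, spinVec]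
  have hnum : ∫ σ, wt J σ * ((σ x : Vec 3).ofLp 0 * (σ y : Vec 3).ofLp 0)
      ∂freeMeasure 3 (Site L₁ L₂) = ∫ a, clip (a x) * clip (a y) *
        isE (kIsing J a) 0 (fun s => sv (s x) * sv (s y)) * axisW J a ∂axes L₁ L₂ := by
    simp only [hσ]
    refine (integral_axes (g := fun v => w v * f v) (cw.mul cf)).trans
      (integral_congr_ae (Filter.Eventually.of_forall fun a => ?_))
    dsimp only
    have hc : ∀ s, Integrable (fun θ => w (spins s a θ) * f (spins s a θ)) (angles L₁ L₂) :=
      fun s => integrable_compact ((cw.mul cf).comp (hcs s a))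
    rw [integral_div, integral_finsetSum _ fun s _ => hc s]
    simp only [hw, hf, hval, integral_mul_const, integral_weight_spins]
    have hpos : (0 : ℝ) < ∑ s, isW (kIsing J a) 0 s :=
      Finset.sum_pos (fun s _ => Real.exp_pos _) Finset.univ_nonempty
    rw [isE, axisW, isZ]
    field_simp
    rw [Finset.mul_sum]
    refine Finset.sum_congr rfl fun s _ => ?_
    ring
  have hden : ∫ σ, wt J σ ∂freeMeasure 3 (Site L₁ L₂) = ∫ a, axisW J a ∂axes L₁ L₂ := by
    simp only [hσ]
    refine (integral_axes (g := w) cw).trans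
      (integral_congr_ae (Filter.Eventually.of_forall fun a => ?_))
    dsimp only
    have hc : ∀ s, Integrable (fun θ => w (spins s a θ)) (angles L₁ L₂) :=
      fun s => integrable_compact (cw.comp (hcs s a))
    rw [integral_div, integral_finsetSum _ fun s _ => hc s]
    simp only [hw, integral_weight_spins]
    rw [axisW, isZ, ← Finset.sum_mul, div_mul_eq_mul_div]
  rw [corr3, hnum, hden]

end Vale.Agent.P163.Gap
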