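import Vale.Agent.P163.Gap.Defs

/-!
Duplication: positivity of exponentials of positive families, and the inequalities it gives for the
Ising and planar partition functions.
-/

open MeasureTheory Real Matrix Finset
open scoped BigOperators

namespace Vale.Agent.P163.Gap

variable {L₁ L₂ : ℕ} [NeZero L₁] [NeZero L₂]

/-- Exponentials of a family whose products have nonnegative integrals are monotone in the
absolute values of the coefficients. -/
theorem abs_integral_mul_exp_le {Ω α : Type*} [MeasurableSpace Ω] [Fintype α] {μ : Measure Ω}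
    [IsFiniteMeasure μ] {m : α → Ω → ℝ} {m₀ : Ω → ℝ} (hm : ∀ a, Nice (m a)) (hm₀ : Nice m₀)
    (hpos : ∀ (k : ℕ) (p : Fin k → α), 0 ≤ ∫ ω, m₀ ω * ∏ j, m (p j) ω ∂μ) {θ θ' : α → ℝ}
    (hθ : ∀ a, |θ' a| ≤ θ a) :
    |∫ ω, m₀ ω * Real.exp (∑ a, θ' a * m a ω) ∂μ| ≤
      ∫ ω, m₀ ω * Real.exp (∑ a, θ a * m a ω) ∂μ := by
  obtain ⟨C₀, hC₀⟩ := hm₀.2
  choose C hC using fun a => (hm a).2
  simp only [Real.norm_eq_abs] at hC₀ hC
  set T : (α → ℝ) → Ω → ℝ := fun t ω => ∑ a, t a * m a ω with hT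
  have hTm : ∀ t, Measurable (T t) := fun t =>
    Finset.measurable_sum _ fun a _ => (hm a).1.const_mul (t a)
  have hTb : ∀ t ω, |T t ω| ≤ ∑ a, |t a| * |C a| := fun t ω =>
    (abs_sum_le_sum_abs _ _).trans (sum_le_sum fun a _ => by
      rw [abs_mul]
      exact mul_le_mul_of_nonneg_left ((hC a ω).trans (le_abs_self _)) (abs_nonneg _))
  -- the expansion of one exponential
  set F : (α → ℝ) → ℕ → Ω → ℝ := fun t k ω => m₀ ω * (T t ω ^ k / k.factorial) with hF
  have hbound : ∀ t k ω, |F t k ω| ≤ |C₀| * ((∑ a, |t a| * |C a|) ^ k / k.factorial) := by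
    intro t k ω
    simp only [hF, abs_mul, abs_div, abs_pow, Nat.abs_cast]
    exact mul_le_mul ((hC₀ ω).trans (le_abs_self _))
      (div_le_div_of_nonneg_right (pow_le_pow_left₀ (abs_nonneg _) (hTb t ω) k) (by positivity))
      (by positivity) (abs_nonneg _)
  have hFm : ∀ t k, Measurable (F t k) := fun t k =>
    hm₀.1.mul (((hTm t).pow_const k).div_const _)
  have hint : ∀ t k, Integrable (F t k) μ := fun t k =>
    Integrable.of_bound (hFm t k).aestronglyMeasurable _
      (Filter.Eventually.of_forall fun ω => by rw [Real.norm_eq_abs]; exact hbound t k ω)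
  have hsum : ∀ t, Summable fun k => ∫ ω, ‖F t k ω‖ ∂μ := fun t =>
    Summable.of_nonneg_of_le (fun k => integral_nonneg fun ω => norm_nonneg _)
      (fun k => (integral_mono_of_nonneg (Filter.Eventually.of_forall fun ω => norm_nonneg _)
        (integrable_const (|C₀| * ((∑ a, |t a| * |C a|) ^ k / k.factorial)))
        (Filter.Eventually.of_forall fun ω =>
          (Real.norm_eq_abs _).trans_le (hbound t k ω))).trans_eq (by rw [integral_const, smul_eq_mul]))
      (((Real.summable_pow_div_factorial (∑ a, |t a| * |C a|)).mul_left |C₀|).mul_left (μ.real Set.univ))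
  have hexp : ∀ t, HasSum (fun k => ∫ ω, F t k ω ∂μ) (∫ ω, m₀ ω * Real.exp (T t ω) ∂μ) := by
    intro t
    have h := hasSum_integral_of_summable_integral_norm (hint t) (hsum t)
    rw [show (∫ ω, m₀ ω * Real.exp (T t ω) ∂μ) = ∫ ω, ∑' k, F t k ω ∂μ from ?_]
    · exact h
    refine integral_congr_ae (Filter.Eventually.of_forall fun ω => ?_)
    have he : HasSum (fun k => T t ω ^ k / k.factorial) (Real.exp (T t ω)) := by
      rw [Real.exp_eq_exp_ℝ]
      exact NormedSpace.expSeries_div_hasSum_exp _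
    exact ((he.mul_left (m₀ ω)).tsum_eq).symm
  have hterm : ∀ t k, ∫ ω, F t k ω ∂μ =
      (∑ q : Fin k → α, (∏ j, t (q j)) * ∫ ω, m₀ ω * ∏ j, m (q j) ω ∂μ) / k.factorial := by
    intro t k
    have hi : ∀ q : Fin k → α, Integrable (fun ω => m₀ ω * ∏ j, m (q j) ω) μ := fun q =>
      Integrable.of_bound (hm₀.1.mul (Finset.measurable_prod _ fun j _ => (hm (q j)).1)).aestronglyMeasurable
        (|C₀| * ∏ j, |C (q j)|) (Filter.Eventually.of_forall fun ω => by
          rw [Real.norm_eq_abs, abs_mul, abs_prod]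
          exact mul_le_mul ((hC₀ ω).trans (le_abs_self _))
            (prod_le_prod (fun j _ => abs_nonneg _) fun j _ => (hC _ ω).trans (le_abs_self _))
            (prod_nonneg fun j _ => abs_nonneg _) (abs_nonneg _))
    simp_rw [← integral_const_mul]
    rw [← integral_finsetSum _ fun q _ => (hi q).const_mul _, ← integral_div]
    refine integral_congr_ae (Filter.Eventually.of_forall fun ω => ?_)
    simp only [hF, hT, Fintype.sum_pow, prod_mul_distrib]
    rw [mul_div, mul_sum]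
    exact congrArg (· / _) (sum_congr rfl fun q _ => by ring)
  have hab : ∀ k, |∫ ω, F θ' k ω ∂μ| ≤ ∫ ω, F θ k ω ∂μ := by
    intro k
    rw [hterm, hterm, abs_div, Nat.abs_cast]
    refine div_le_div_of_nonneg_right ((abs_sum_le_sum_abs _ _).trans (sum_le_sum fun q _ => ?_))
      (by positivity)
    rw [abs_mul, abs_of_nonneg (hpos k q), abs_prod]
    exact mul_le_mul_of_nonneg_right
      (prod_le_prod (fun j _ => abs_nonneg _) fun j _ => hθ (q j)) (hpos k q)
  refine abs_le.2 ⟨?_, hasSum_le (fun k => (le_abs_self _).trans (hab k)) (hexp θ') (hexp θ)⟩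
  exact hasSum_le (fun k => neg_le.1 ((neg_le_abs _).trans (hab k))) (hexp θ).neg (hexp θ')

/-! ### Duplicated signs -/

lemma sv_beq (s t : Bool) : sv (s == t) = sv s * sv t := by
  cases s <;> cases t <;> simp [sv]

lemma sv_mul_self (s : Bool) : sv s * sv s = 1 := by cases s <;> simp [sv]

lemma abs_sv (s : Bool) : |sv s| = 1 := by cases s <;> simp [sv]

lemma one_add_sv_mul_nonneg (s t : Bool) : 0 ≤ 1 + sv s * sv t := by
  cases s <;> cases t <;> simp [sv]

lemma one_sub_sv_mul_nonneg (s t : Bool) : 0 ≤ 1 - sv s * sv t := by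
  cases s <;> cases t <;> simp [sv]

/-- The pointwise product of sign configurations. -/
def mulS {V : Type*} (s t : V → Bool) : V → Bool := fun x => s x == t x

lemma mulS_mulS {V : Type*} (s t : V → Bool) : mulS s (mulS s t) = t := by
  funext x; simp only [mulS]; cases s x <;> cases t x <;> rfl

/-- Multiplication by a sign configuration. -/
def mulSEquiv {V : Type*} (s : V → Bool) : (V → Bool) ≃ (V → Bool) where
  toFun := mulS s
  invFun := mulS s
  left_inv := mulS_mulS s
  right_inv := mulS_mulS s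

lemma mulS_comm {V : Type*} (s t : V → Bool) : mulS s t = mulS t s := by
  funext x; simp only [mulS]; cases s x <;> cases t x <;> rfl

/-- Product in the first component of a character and a nonnegative function of the second. -/
def Dup {V : Type*} (f : (V → Bool) × (V → Bool) → ℝ) : Prop :=
  ∃ χ g : (V → Bool) → ℝ, (∀ s t, χ (mulS s t) = χ s * χ t) ∧ (∀ u, 0 ≤ g u) ∧
    ∀ p, f p = χ p.1 * g p.2

lemma Dup.mul {V : Type*} {f g : (V → Bool) × (V → Bool) → ℝ} (hf : Dup f) (hg : Dup g) :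
    Dup fun p => f p * g p := by
  obtain ⟨χ, a, h1, h2, h3⟩ := hf
  obtain ⟨χ', a', h1', h2', h3'⟩ := hg
  exact ⟨fun s => χ s * χ' s, fun u => a u * a' u,
    fun s t => by simp only [h1, h1']; ring, fun u => mul_nonneg (h2 u) (h2' u),
    fun p => by simp only [h3, h3']; ring⟩

lemma Dup.const {V : Type*} {c : ℝ} (hc : 0 ≤ c) :
    Dup (fun _ : (V → Bool) × (V → Bool) => c) :=
  ⟨fun _ => 1, fun _ => c, fun _ _ => (one_mul 1).symm, fun _ => hc, fun _ => (one_mul c).symm⟩

lemma Dup.prod {V ι : Type*} (s : Finset ι) {f : ι → (V → Bool) × (V → Bool) → ℝ}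
    (hf : ∀ i ∈ s, Dup (f i)) : Dup fun p => ∏ i ∈ s, f i p := by
  classical
  induction s using Finset.induction_on with
  | empty => simpa using Dup.const (V := V) zero_le_one
  | insert i s hi ih =>
    simp only [prod_insert hi]
    exact (hf i (mem_insert_self _ _)).mul (ih fun j hj => hf j (mem_insert_of_mem hj))

lemma Dup.sum_nonneg {V : Type*} [Fintype V] [DecidableEq V]
    {f : (V → Bool) × (V → Bool) → ℝ} (hf : Dup f) : 0 ≤ ∑ p, f p := by
  obtain ⟨χ, g, h1, h2, h3⟩ := hf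
  simp only [h3]
  rw [Fintype.sum_prod_type, ← sum_mul_sum]
  refine mul_nonneg ?_ (Finset.sum_nonneg fun u _ => h2 u)
  by_cases hone : ∀ s, χ s = 1
  · exact Finset.sum_nonneg fun s _ => by rw [hone s]; exact zero_le_one
  · push Not at hone
    obtain ⟨t, ht⟩ := hone
    have h : χ t * ∑ s, χ s = ∑ s, χ s := by
      rw [mul_sum]
      refine Fintype.sum_equiv (mulSEquiv t) _ _ fun s => ?_
      exact (h1 t s).symm
    have h' : (χ t - 1) * ∑ s, χ s = 0 := by rw [sub_mul, h, one_mul, sub_self]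
    rcases mul_eq_zero.1 h' with h'' | h''
    · exact absurd (sub_eq_zero.1 h'') ht
    · exact h''.ge

/-- Index of the duplicated Ising family. -/
abbrev IsIx (L₁ L₂ : ℕ) := (Bond L₁ L₂ ⊕ Bond L₁ L₂) ⊕ (Site L₁ L₂ ⊕ Site L₁ L₂)

/-- The duplicated Ising family. -/
noncomputable def isM : IsIx L₁ L₂ → (Site L₁ L₂ → Bool) × (Site L₁ L₂ → Bool) → ℝ
  | .inl (.inl b) => fun p =>
      sv (p.1 b.1) * sv (p.1 (tip b)) * ((1 + sv (p.2 b.1) * sv (p.2 (tip b))) / 2)
  | .inl (.inr b) => fun p =>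
      sv (p.1 b.1) * sv (p.1 (tip b)) * ((1 - sv (p.2 b.1) * sv (p.2 (tip b))) / 2)
  | .inr (.inl x) => fun p => sv (p.1 x) * ((1 + sv (p.2 x)) / 2)
  | .inr (.inr x) => fun p => sv (p.1 x) * ((1 - sv (p.2 x)) / 2)

/-- The coefficients of two Ising systems in the duplicated family. -/
def isTheta (K K' : Bond L₁ L₂ → ℝ) (h h' : Site L₁ L₂ → ℝ) : IsIx L₁ L₂ → ℝ
  | .inl (.inl b) => K b + K' b
  | .inl (.inr b) => K b - K' b
  | .inr (.inl x) => h x + h' x
  | .inr (.inr x) => h x - h' x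

omit [NeZero L₁] [NeZero L₂] in
lemma abs_isTheta_le {K K' P Q : Bond L₁ L₂ → ℝ} {h h' p q : Site L₁ L₂ → ℝ}
    (h1 : ∀ b, |K b + K' b| ≤ P b + Q b) (h2 : ∀ b, |K b - K' b| ≤ P b - Q b)
    (h3 : ∀ x, |h x + h' x| ≤ p x + q x) (h4 : ∀ x, |h x - h' x| ≤ p x - q x)
    (a : IsIx L₁ L₂) : |isTheta K K' h h' a| ≤ isTheta P Q p q a := by
  rcases a with (b | b) | (x | x)
  · exact h1 b
  · exact h2 b
  · exact h3 x
  · exact h4 x

omit [NeZero L₁] [NeZero L₂] in
lemma dup_isM (a : IsIx L₁ L₂) : Dup (isM a) := by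
  rcases a with (b | b) | (x | x)
  · exact ⟨fun s => sv (s b.1) * sv (s (tip b)),
      fun u => (1 + sv (u b.1) * sv (u (tip b))) / 2,
      fun s t => by simp only [mulS, sv_beq]; ring,
      fun u => div_nonneg (one_add_sv_mul_nonneg _ _) zero_le_two, fun _ => rfl⟩
  · exact ⟨fun s => sv (s b.1) * sv (s (tip b)),
      fun u => (1 - sv (u b.1) * sv (u (tip b))) / 2,
      fun s t => by simp only [mulS, sv_beq]; ring,
      fun u => div_nonneg (one_sub_sv_mul_nonneg _ _) zero_le_two, fun _ => rfl⟩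
  · exact ⟨fun s => sv (s x), fun u => (1 + sv (u x)) / 2,
      fun s t => by simp only [mulS, sv_beq], fun u => by dsimp only; cases u x <;> simp [sv], fun _ => rfl⟩
  · exact ⟨fun s => sv (s x), fun u => (1 - sv (u x)) / 2,
      fun s t => by simp only [mulS, sv_beq], fun u => by dsimp only; cases u x <;> simp [sv], fun _ => rfl⟩

lemma isW_mul (K K' : Bond L₁ L₂ → ℝ) (h h' : Site L₁ L₂ → ℝ)
    (s u : Site L₁ L₂ → Bool) :
    isW K h s * isW K' h' (mulS s u) =
      Real.exp (∑ a, isTheta K K' h h' a * isM a (s, u)) := by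
  rw [isW, isW, ← Real.exp_add]
  congr 1
  simp only [Fintype.sum_sum_type, isTheta, isM, mulS, sv_beq, ← sum_add_distrib]
  rw [add_add_add_comm, ← sum_add_distrib, ← sum_add_distrib]
  refine congrArg₂ (· + ·) (sum_congr rfl fun b _ => ?_) (sum_congr rfl fun x _ => ?_) <;> ring

lemma sum_isW_mul (K K' : Bond L₁ L₂ → ℝ) (h h' : Site L₁ L₂ → ℝ)
    (F : (Site L₁ L₂ → Bool) → (Site L₁ L₂ → Bool) → ℝ) :
    ∑ s, ∑ t, isW K h s * isW K' h' t * F s t =
      ∑ p : (Site L₁ L₂ → Bool) × (Site L₁ L₂ → Bool),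
        F p.1 (mulS p.1 p.2) * Real.exp (∑ a, isTheta K K' h h' a * isM a p) := by
  rw [Fintype.sum_prod_type]
  refine sum_congr rfl fun s _ => ?_
  refine Fintype.sum_equiv (mulSEquiv s) _ _ fun t => ?_
  simp only [mulSEquiv, Equiv.coe_fn_mk]
  rw [← isW_mul, mulS_mulS]
  ring

lemma nice_finite {Ω : Type*} [Finite Ω] [MeasurableSpace Ω] [MeasurableSingletonClass Ω]
    (f : Ω → ℝ) : Nice f := by
  cases nonempty_fintype Ω
  exact ⟨measurable_of_finite f, ∑ a, ‖f a‖,
    fun a => single_le_sum (f := fun a => ‖f a‖) (fun _ _ => norm_nonneg _) (mem_univ a)⟩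

lemma abs_sum_exp_le {f : (Site L₁ L₂ → Bool) × (Site L₁ L₂ → Bool) → ℝ} (hf : Dup f)
    {θ θ' : IsIx L₁ L₂ → ℝ} (hθ : ∀ a, |θ' a| ≤ θ a) :
    |∑ p, f p * Real.exp (∑ a, θ' a * isM a p)| ≤
      ∑ p, f p * Real.exp (∑ a, θ a * isM a p) := by
  have key : ∀ g : (Site L₁ L₂ → Bool) × (Site L₁ L₂ → Bool) → ℝ,
      ∫ p, g p ∂Measure.count = ∑ p, g p := fun g => integral_count g
  have h := abs_integral_mul_exp_le (μ := Measure.count) (fun a => nice_finite (isM a))
    (nice_finite f) (fun k q => by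
      rw [key]
      exact (hf.mul (Dup.prod univ fun j _ => dup_isM (q j))).sum_nonneg) hθ
  rwa [key, key] at h

theorem isZ_pos (K : Bond L₁ L₂ → ℝ) (h : Site L₁ L₂ → ℝ) : 0 < isZ K h :=
  div_pos (Finset.sum_pos (fun _ _ => Real.exp_pos _) univ_nonempty)
    (Nat.cast_pos.2 Fintype.card_pos)

/-- The product of two Ising partition functions. -/
theorem isZ_mul_le {K K' P Q : Bond L₁ L₂ → ℝ} {h h' p q : Site L₁ L₂ → ℝ}
    (h1 : ∀ b, |K b + K' b| ≤ P b + Q b) (h2 : ∀ b, |K b - K' b| ≤ P b - Q b)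
    (h3 : ∀ x, |h x + h' x| ≤ p x + q x) (h4 : ∀ x, |h x - h' x| ≤ p x - q x) :
    isZ K h * isZ K' h' ≤ isZ P p * isZ Q q := by
  simp only [isZ, div_mul_div_comm]
  refine div_le_div_of_nonneg_right ?_ (by positivity)
  have e := fun (A B : Bond L₁ L₂ → ℝ) (a b : Site L₁ L₂ → ℝ) =>
    sum_isW_mul A B a b fun _ _ => 1
  simp only [mul_one, one_mul, ← sum_mul_sum] at e
  rw [e, e]
  have := abs_sum_exp_le (Dup.const (V := Site L₁ L₂) zero_le_one)
    (abs_isTheta_le h1 h2 h3 h4)
  simp only [one_mul] at this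
  exact (le_abs_self _).trans this

/-- The difference of two magnetisations. -/
lemma isE_le {K K' : Bond L₁ L₂ → ℝ} {h h' : Site L₁ L₂ → ℝ} (hK : ∀ b, 0 ≤ K b)
    (hh : ∀ x, 0 ≤ h x) (hK' : ∀ b, K b ≤ K' b) (hh' : ∀ x, h x ≤ h' x) (x : Site L₁ L₂) :
    isE K h (fun s => sv (s x)) ≤ isE K' h' fun s => sv (s x) := by
  have hZ : ∀ (A : Bond L₁ L₂ → ℝ) (a : Site L₁ L₂ → ℝ), 0 < ∑ s, isW A a s :=
    fun A a => Finset.sum_pos (fun _ _ => Real.exp_pos _) univ_nonempty
  simp only [isE]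
  rw [div_le_div_iff₀ (hZ _ _) (hZ _ _), ← sub_nonneg]
  have hf : Dup fun p : (Site L₁ L₂ → Bool) × (Site L₁ L₂ → Bool) =>
      sv (p.1 x) - sv (mulS p.1 p.2 x) :=
    ⟨fun s => sv (s x), fun u => 1 - sv (u x), fun s t => by simp only [mulS, sv_beq],
      fun u => by dsimp only; cases u x <;> simp [sv], fun p => by simp only [mulS, sv_beq]; ring⟩
  have hθ : ∀ a : IsIx L₁ L₂, |(0 : ℝ)| ≤ isTheta K' K h' h a := by
    intro a
    rw [abs_zero]
    rcases a with (b | b) | (y | y)
    · exact add_nonneg ((hK b).trans (hK' b)) (hK b)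
    · exact sub_nonneg.2 (hK' b)
    · exact add_nonneg ((hh y).trans (hh' y)) (hh y)
    · exact sub_nonneg.2 (hh' y)
  have key := (abs_nonneg _).trans (abs_sum_exp_le hf hθ)
  rw [← sum_isW_mul K' K h' h fun s t => sv (s x) - sv (t x)] at key
  refine key.trans_eq ?_
  simp only [mul_sub, sum_sub_distrib]
  congr 1
  · rw [sum_mul_sum]
    exact sum_congr rfl fun s _ => sum_congr rfl fun t _ => by ring
  · rw [sum_mul_sum, sum_comm]
    exact sum_congr rfl fun s _ => sum_congr rfl fun t _ => by ring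

/-- The magnetisation increases with the couplings and the field. -/
theorem isE_mono {K K' : Bond L₁ L₂ → ℝ} {h h' : Site L₁ L₂ → ℝ} (hK : ∀ b, 0 ≤ K b)
    (hh : ∀ x, 0 ≤ h x) (hK' : ∀ b, K b ≤ K' b) (hh' : ∀ x, h x ≤ h' x) (x : Site L₁ L₂) :
    0 ≤ isE K h (fun s => sv (s x)) ∧
      isE K h (fun s => sv (s x)) ≤ isE K' h' fun s => sv (s x) := by
  refine ⟨?_, isE_le hK hh hK' hh' x⟩
  refine le_trans (le_of_eq ?_)
    (isE_le (K := fun _ => 0) (h := fun _ => 0) (fun _ => le_rfl) (fun _ => le_rfl) hK hh x)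
  have hs : ∑ s : Site L₁ L₂ → Bool, sv (s x) = 0 := by
    have e : ∑ s : Site L₁ L₂ → Bool, sv (s x) = ∑ s : Site L₁ L₂ → Bool, -sv (s x) := by
      refine Fintype.sum_equiv (mulSEquiv fun _ => false) _ _
        fun s => ?_
      simp only [mulSEquiv, Equiv.coe_fn_mk, mulS, sv_beq]
      cases s x <;> simp [sv]
    rw [sum_neg_distrib] at e
    linarith
  simp [isE, isW, hs]

/-! ### Duplicated angles -/

lemma measurePreserving_neg_angles :
    MeasurePreserving (fun a : Site L₁ L₂ → Ang => -a) (angles L₁ L₂) (angles L₁ L₂) := by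
  have : Measure.IsAddHaarMeasure (angles L₁ L₂) := by unfold angles; infer_instance
  exact AddMonoidHom.measurePreserving (f := -AddMonoidHom.id (Site L₁ L₂ → Ang)) continuous_neg
    neg_surjective rfl

/-- The factor of an angle configuration in the duplicated planar family. -/
noncomputable def xyF : Bond L₁ L₂ ⊕ Bond L₁ L₂ → (Site L₁ L₂ → Ang) → ℝ
  | .inl b => fun a => acos' (a b.1 - a (tip b))
  | .inr b => fun a => asin' (a b.1 - a (tip b))

/-- The coefficients of two planar systems in the duplicated family. -/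
def xyTheta (K K' : Bond L₁ L₂ → ℝ) : Bond L₁ L₂ ⊕ Bond L₁ L₂ → ℝ
  | .inl b => K b + K' b
  | .inr b => K b - K' b

omit [NeZero L₁] [NeZero L₂] in
lemma continuous_xyF (c : Bond L₁ L₂ ⊕ Bond L₁ L₂) : Continuous (xyF c) := by
  rcases c with b | b
  · exact Real.Angle.continuous_cos.comp ((continuous_apply _).sub (continuous_apply _))
  · exact Real.Angle.continuous_sin.comp ((continuous_apply _).sub (continuous_apply _))

theorem xyZ_pos (K : Bond L₁ L₂ → ℝ) : 0 < xyZ K := by
  have : IsProbabilityMeasure (angles L₁ L₂) := by unfold angles; infer_instance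
  refine integral_exp_pos (Continuous.integrable_of_hasCompactSupport ?_ ?_)
  · exact Real.continuous_exp.comp (continuous_finsetSum _ fun b _ =>
      continuous_const.mul (continuous_xyF (Sum.inl b)))
  · exact HasCompactSupport.of_compactSpace _

lemma abs_angle_cos_le (θ : Real.Angle) : |Real.Angle.cos θ| ≤ 1 := by
  induction θ using Real.Angle.induction_on with
  | h x => simpa using Real.abs_cos_le_one x

lemma abs_angle_sin_le (θ : Real.Angle) : |Real.Angle.sin θ| ≤ 1 := by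
  induction θ using Real.Angle.induction_on with
  | h x => simpa using Real.abs_sin_le_one x

lemma angle_half (θ : Ang) : ∃ a : Ang, a + a = θ := by
  obtain ⟨r, rfl⟩ := QuotientAddGroup.mk_surjective θ
  exact ⟨((r / 2 : ℝ) : Ang), by rw [← AddCircle.coe_add]; congr 1; ring⟩

/-- Sum and difference of angle configurations. -/
noncomputable def sumDiff (L₁ L₂ : ℕ) :
    (Site L₁ L₂ → Ang) × (Site L₁ L₂ → Ang) →+ (Site L₁ L₂ → Ang) × (Site L₁ L₂ → Ang) where
  toFun p := (p.1 + p.2, p.1 - p.2)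
  map_zero' := by simp
  map_add' p q := by
    simp only [Prod.fst_add, Prod.snd_add, Prod.mk_add_mk, Prod.mk.injEq]
    constructor <;> abel

lemma measurePreserving_sumDiff :
    MeasurePreserving (fun p : (Site L₁ L₂ → Ang) × (Site L₁ L₂ → Ang) =>
        (p.1 + p.2, p.1 - p.2))
      ((angles L₁ L₂).prod (angles L₁ L₂)) ((angles L₁ L₂).prod (angles L₁ L₂)) := by
  have : IsProbabilityMeasure (angles L₁ L₂) := by unfold angles; infer_instance
  have : Measure.IsAddHaarMeasure (angles L₁ L₂) := by unfold angles; infer_instance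
  have : BorelSpace ((Site L₁ L₂ → Ang) × (Site L₁ L₂ → Ang)) :=
    have : SecondCountableTopology (Site L₁ L₂ → Ang) := inferInstance
    Prod.borelSpace
  have : ((angles L₁ L₂).prod (angles L₁ L₂)).IsAddHaarMeasure :=
    Measure.prod.instIsAddHaarMeasure _ _
  refine AddMonoidHom.measurePreserving (f := sumDiff L₁ L₂) ?_ ?_ rfl
  · show Continuous fun p : (Site L₁ L₂ → Ang) × (Site L₁ L₂ → Ang) => (p.1 + p.2, p.1 - p.2)
    fun_prop
  · rintro ⟨x, y⟩
    choose a ha using fun v => angle_half (x v + y v)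
    refine ⟨(a, fun v => x v - a v), ?_⟩
    show (a + fun v => x v - a v, a - fun v => x v - a v) = (x, y)
    refine Prod.ext (funext fun v => ?_) (funext fun v => ?_)
    · simp
    · simp only [Pi.sub_apply]
      rw [sub_sub_eq_add_sub, ha]
      abel

lemma xy_exp_eq (K K' : Bond L₁ L₂ → ℝ) (p : (Site L₁ L₂ → Ang) × (Site L₁ L₂ → Ang)) :
    Real.exp (∑ b, K b * acos' ((p.1 + p.2) b.1 - (p.1 + p.2) (tip b))) *
        Real.exp (∑ b, K' b * acos' ((p.1 - p.2) b.1 - (p.1 - p.2) (tip b))) =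
      Real.exp (∑ c, xyTheta K K' c * (xyF c (-p.1) * xyF c p.2)) := by
  rw [← Real.exp_add]
  congr 1
  simp only [Fintype.sum_sum_type, xyTheta, xyF, ← sum_add_distrib]
  refine sum_congr rfl fun b => fun _ => ?_
  simp only [Pi.add_apply, Pi.sub_apply, Pi.neg_apply]
  set α : Real.Angle := p.1 b.1 - p.1 (tip b) with hα
  set γ : Real.Angle := p.2 b.1 - p.2 (tip b) with hγ
  have e1 : p.1 b.1 + p.2 b.1 - (p.1 (tip b) + p.2 (tip b)) = α + γ := by rw [hα, hγ]; abel
  have e2 : p.1 b.1 - p.2 b.1 - (p.1 (tip b) - p.2 (tip b)) = α + -γ := by rw [hα, hγ]; abel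
  have e3 : -p.1 b.1 - -p.1 (tip b) = -α := by rw [hα]; abel
  rw [e1, e2, e3]
  show K b * Real.Angle.cos (α + γ) + K' b * Real.Angle.cos (α + -γ) =
    (K b + K' b) * (Real.Angle.cos (-α) * Real.Angle.cos γ) +
      (K b - K' b) * (Real.Angle.sin (-α) * Real.Angle.sin γ)
  simp only [Real.Angle.cos_add, Real.Angle.cos_neg, Real.Angle.sin_neg]
  ring

/-- The product of two planar partition functions. -/
theorem xyZ_mul_le {K K' P Q : Bond L₁ L₂ → ℝ} (h1 : ∀ b, |K b + K' b| ≤ P b + Q b)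
    (h2 : ∀ b, |K b - K' b| ≤ P b - Q b) : xyZ K * xyZ K' ≤ xyZ P * xyZ Q := by
  have : IsProbabilityMeasure (angles L₁ L₂) := by unfold angles; infer_instance
  have : Measure.IsAddHaarMeasure (angles L₁ L₂) := by unfold angles; infer_instance
  have e : ∀ A B : Bond L₁ L₂ → ℝ, xyZ A * xyZ B =
      ∫ p, Real.exp (∑ c, xyTheta A B c * (xyF c (-p.1) * xyF c p.2))
        ∂(angles L₁ L₂).prod (angles L₁ L₂) := by
    intro A B
    rw [xyZ, xyZ, ← integral_prod_mul]
    have hA : ∀ A : Bond L₁ L₂ → ℝ, Continuous fun θ : Site L₁ L₂ → Ang =>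
        Real.exp (∑ b, A b * acos' (θ b.1 - θ (tip b))) := fun A =>
      Real.continuous_exp.comp (continuous_finsetSum _ fun b _ =>
        continuous_const.mul (continuous_xyF (Sum.inl b)))
    have hc : Continuous fun p : (Site L₁ L₂ → Ang) × (Site L₁ L₂ → Ang) =>
        Real.exp (∑ b, A b * acos' (p.1 b.1 - p.1 (tip b))) *
          Real.exp (∑ b, B b * acos' (p.2 b.1 - p.2 (tip b))) :=
      ((hA A).comp continuous_fst).mul ((hA B).comp continuous_snd)
    have hmp := measurePreserving_sumDiff (L₁ := L₁) (L₂ := L₂)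
    conv_lhs => rw [← hmp.map_eq,
      integral_map hmp.measurable.aemeasurable hc.aestronglyMeasurable]
    exact integral_congr_ae (Filter.Eventually.of_forall fun p => xy_exp_eq A B p)
  have hb : ∀ (c : Bond L₁ L₂ ⊕ Bond L₁ L₂) a, |xyF c a| ≤ 1 := by
    rintro (b | b) a
    · exact abs_angle_cos_le _
    · exact abs_angle_sin_le _
  have hm : ∀ c : Bond L₁ L₂ ⊕ Bond L₁ L₂, Nice fun p : (Site L₁ L₂ → Ang) × (Site L₁ L₂ → Ang) =>
      xyF c (-p.1) * xyF c p.2 := fun c =>
    ⟨(((continuous_xyF c).comp continuous_fst.neg).mul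
      ((continuous_xyF c).comp continuous_snd)).measurable, 1, fun p => by
      rw [Real.norm_eq_abs, abs_mul]
      exact mul_le_one₀ (hb c _) (abs_nonneg _) (hb c _)⟩
  have hpos : ∀ (k : ℕ) (q : Fin k → Bond L₁ L₂ ⊕ Bond L₁ L₂),
      0 ≤ ∫ p, (1 : ℝ) * ∏ j, (xyF (q j) (-p.1) * xyF (q j) p.2)
        ∂(angles L₁ L₂).prod (angles L₁ L₂) := by
    intro k q
    simp only [one_mul, prod_mul_distrib]
    have hn := measurePreserving_neg_angles (L₁ := L₁) (L₂ := L₂)
    have hflip : ∫ a, ∏ j, xyF (q j) (-a) ∂angles L₁ L₂ = ∫ a, ∏ j, xyF (q j) a ∂angles L₁ L₂ := by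
      conv_rhs => rw [← hn.map_eq, integral_map hn.measurable.aemeasurable
        (continuous_finsetProd _ fun j _ => continuous_xyF (q j)).aestronglyMeasurable]
    rw [integral_prod_mul (fun a => ∏ j, xyF (q j) (-a)) fun a => ∏ j, xyF (q j) a, hflip]
    exact mul_self_nonneg _
  have h := abs_integral_mul_exp_le hm ⟨measurable_const, 1, fun _ => by simp⟩ hpos
    (θ := xyTheta P Q) (θ' := xyTheta K K') (by rintro (b | b); exacts [h1 b, h2 b])
  simp only [one_mul] at h
  rw [e, e]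
  exact (le_abs_self _).trans h

end Vale.Agent.P163.Gap
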