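import Vale.Agent.P163.Gap.Defs
import Mathlib.Data.ZMod.ValMinAbs

/-!
Geometry of the torus: distance, balls, windows and the annulus profile.
-/

open MeasureTheory Real Matrix Finset
open scoped BigOperators

namespace Vale.Agent.P163.Gap

namespace Window

variable {L : ℕ}

/-- The absolute residue in an abbreviation. -/
abbrev res (a : ZMod L) : ℕ := a.valMinAbs.natAbs

lemma res_add_le (a b : ZMod L) : res (a + b) ≤ res a + res b :=
  (ZMod.natAbs_valMinAbs_add_le a b).trans (Int.natAbs_add_le _ _)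

lemma res_intCast_le [NeZero L] (k : ℤ) : res (k : ZMod L) ≤ k.natAbs :=
  ZMod.natAbs_min_of_le_div_two L _ _ (ZMod.coe_valMinAbs _) (ZMod.natAbs_valMinAbs_le _)

lemma res_one_le [NeZero L] : res (1 : ZMod L) ≤ 1 := by
  simpa using res_intCast_le (L := L) 1

lemma valMinAbs_intCast [NeZero L] {k : ℤ} (h₁ : -(L : ℤ) < k * 2) (h₂ : k * 2 ≤ L) :
    (k : ZMod L).valMinAbs = k :=
  (ZMod.valMinAbs_spec _ _).2 ⟨rfl, h₁, h₂⟩

/-- The tent on the line. -/
noncomputable def lineTent (ℓ : ℕ) (k : ℤ) : ℝ := max 0 (1 - (k.natAbs : ℝ) / ℓ)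

lemma tent_mem (ℓ : ℕ) (a : ZMod L) : 0 ≤ tent ℓ a ∧ tent ℓ a ≤ 1 :=
  ⟨le_max_left _ _, max_le zero_le_one (sub_le_self _ (by positivity))⟩

lemma res_lt_of_tent_ne_zero {ℓ : ℕ} (hℓ : 1 ≤ ℓ) {a : ZMod L} (h : tent ℓ a ≠ 0) : res a < ℓ := by
  by_contra hh
  refine h (max_eq_left (sub_nonpos.2 ?_))
  rw [one_le_div₀ (by exact_mod_cast hℓ)]
  exact_mod_cast not_lt.1 hh

lemma abs_tent_sub (ℓ : ℕ) (a e : ZMod L) : |tent ℓ (a + e) - tent ℓ a| ≤ (res e : ℝ) / ℓ := by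
  unfold tent
  refine (abs_max_sub_max_le_max _ _ _ _).trans (max_le (by simp; positivity) ?_)
  rw [sub_sub_sub_cancel_left, ← sub_div, abs_div, Nat.abs_cast]
  refine div_le_div_of_nonneg_right ?_ (Nat.cast_nonneg _)
  have h1 := res_add_le a e
  have h2 := res_add_le (a + e) (-e)
  rw [add_neg_cancel_right] at h2
  unfold res at h1 h2
  rw [ZMod.natAbs_valMinAbs_neg] at h2
  rw [abs_le]
  have h1' : ((a + e).valMinAbs.natAbs : ℝ) ≤ a.valMinAbs.natAbs + e.valMinAbs.natAbs := by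
    exact_mod_cast h1
  have h2' : (a.valMinAbs.natAbs : ℝ) ≤ (a + e).valMinAbs.natAbs + e.valMinAbs.natAbs := by
    exact_mod_cast h2
  constructor <;> linarith

/-- A sum over the circle of two tents is a sum over the line. -/
lemma sum_tent [NeZero L] {ℓ : ℕ} (hℓ : 1 ≤ ℓ) (hL : 2 * ℓ + 2 < L) {j : ℕ} (hj : j ≤ 1) :
    ∑ a : ZMod L, tent ℓ a * tent ℓ (a + (j : ZMod L)) =
      ∑ k ∈ Icc (-(ℓ : ℤ)) ℓ, lineTent ℓ k * lineTent ℓ (k + j) := by
  classical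
  have hv : ∀ k ∈ Icc (-(ℓ : ℤ)) ℓ, (k : ZMod L).valMinAbs = k ∧
      ((k + j : ℤ) : ZMod L).valMinAbs = k + j := by
    intro k hk
    rw [mem_Icc] at hk
    exact ⟨valMinAbs_intCast (by omega) (by omega), valMinAbs_intCast (by omega) (by omega)⟩
  have hinj : Set.InjOn (fun k : ℤ => (k : ZMod L)) ↑(Icc (-(ℓ : ℤ)) ℓ) := fun k hk k' hk' h => by
    rw [← (hv k hk).1, ← (hv k' hk').1]
    exact congrArg ZMod.valMinAbs h
  symm
  calc ∑ k ∈ Icc (-(ℓ : ℤ)) ℓ, lineTent ℓ k * lineTent ℓ (k + j)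
      = ∑ k ∈ Icc (-(ℓ : ℤ)) ℓ,
          tent ℓ (k : ZMod L) * tent ℓ ((k : ZMod L) + (j : ZMod L)) := by
        refine sum_congr rfl fun k hk => ?_
        rw [show ((k : ZMod L) + (j : ZMod L)) = ((k + j : ℤ) : ZMod L) by push_cast; rfl]
        unfold tent lineTent
        rw [(hv k hk).1, (hv k hk).2]
    _ = ∑ a ∈ (Icc (-(ℓ : ℤ)) ℓ).image (fun k : ℤ => (k : ZMod L)),
          tent ℓ a * tent ℓ (a + (j : ZMod L)) := (sum_image (f := fun a : ZMod L =>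
            tent ℓ a * tent ℓ (a + (j : ZMod L))) hinj).symm
    _ = _ := by
        refine sum_subset (subset_univ _) fun a _ ha => ?_
        rw [mul_eq_zero]
        left
        by_contra hne
        have := res_lt_of_tent_ne_zero hℓ hne
        unfold res at this
        exact ha (mem_image.2 ⟨a.valMinAbs, mem_Icc.2 ⟨by omega, by omega⟩, ZMod.coe_valMinAbs a⟩)

lemma le_sum_lineTent {ℓ : ℕ} (hℓ : 4 ≤ ℓ) {j : ℕ} (hj : j ≤ 1) :
    (ℓ : ℝ) / 16 ≤ ∑ k ∈ Icc (-(ℓ : ℤ)) ℓ, lineTent ℓ k * lineTent ℓ (k + j) := by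
  have hhalf : ∀ k : ℤ, 0 ≤ k → k * 2 ≤ ℓ → 1 / 2 ≤ lineTent ℓ k := by
    intro k h0 hk
    refine le_max_of_le_right ?_
    have : (k.natAbs : ℝ) * 2 ≤ ℓ := by exact_mod_cast (show k.natAbs * 2 ≤ ℓ by omega)
    rw [le_sub_iff_add_le, ← le_sub_iff_add_le', div_le_iff₀ (by norm_cast; omega)]
    linarith
  have hsub : Ico (0 : ℤ) ((ℓ / 2 : ℕ) : ℤ) ⊆ Icc (-(ℓ : ℤ)) ℓ := fun k hk => by
    rw [mem_Ico] at hk; rw [mem_Icc]; omega
  refine le_trans ?_ (sum_le_sum_of_subset_of_nonneg hsub fun k _ _ =>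
    mul_nonneg (le_max_left _ _) (le_max_left _ _))
  refine le_trans ?_ (card_nsmul_le_sum _ _ (1 / 4 : ℝ) fun k hk => ?_)
  · have h4 : (ℓ : ℝ) ≤ 4 * ((ℓ / 2 : ℕ) : ℝ) := by
      exact_mod_cast (show ℓ ≤ 4 * (ℓ / 2) by omega)
    rw [Int.card_Ico, sub_zero, Int.toNat_natCast, nsmul_eq_mul]
    linarith
  · rw [mem_Ico] at hk
    have h1 := hhalf k hk.1 (by omega)
    have h2 := hhalf (k + j) (by omega) (by omega)
    nlinarith

lemma sum_shift [NeZero L] (ℓ : ℕ) (x e : ZMod L) :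
    ∑ z, tent ℓ (x - z) * tent ℓ (x + e - z) = ∑ a : ZMod L, tent ℓ a * tent ℓ (a + e) :=
  Fintype.sum_equiv (Equiv.subLeft x) _ _ fun z => by
    rw [Equiv.subLeft_apply, sub_add_eq_add_sub]

end Window

open Window

variable {L₁ L₂ : ℕ} [NeZero L₁] [NeZero L₂]

omit [NeZero L₁] [NeZero L₂] in
theorem td_comm (x y : Site L₁ L₂) : td x y = td y x := by
  unfold td
  rw [← ZMod.natAbs_valMinAbs_neg, neg_sub, ← ZMod.natAbs_valMinAbs_neg (y.2 - x.2), neg_sub]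

omit [NeZero L₁] [NeZero L₂] in
theorem td_self (x : Site L₁ L₂) : td x x = 0 := by simp [td]

omit [NeZero L₁] [NeZero L₂] in
theorem td_triangle (x y z : Site L₁ L₂) : td x z ≤ td x y + td y z := by
  unfold td
  have h1 := res_add_le (y.1 - x.1) (z.1 - y.1)
  have h2 := res_add_le (y.2 - x.2) (z.2 - y.2)
  rw [sub_add_sub_cancel'] at h1 h2
  unfold res at h1 h2
  omega

lemma res_unitVec (d : Fin 2) :
    res ((unitVec d : Site L₁ L₂).1) ≤ 1 ∧ res ((unitVec d : Site L₁ L₂).2) ≤ 1 := by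
  fin_cases d <;> simp [unitVec, res, res_one_le]

theorem td_tip (b : Bond L₁ L₂) : td b.1 (tip b) ≤ 1 := by
  have h := res_unitVec (L₁ := L₁) (L₂ := L₂) b.2
  simp only [td, tip, Prod.fst_add, Prod.snd_add, add_sub_cancel_left]
  exact max_le h.1 h.2

theorem card_ball_le (c : Site L₁ L₂) (r : ℕ) : (ball c r).card ≤ (2 * r + 1) ^ 2 := by
  have h : (ball c r).card ≤ (Icc (-(r : ℤ)) r ×ˢ Icc (-(r : ℤ)) r).card := by
    refine card_le_card_of_injOn (fun x => ((x.1 - c.1).valMinAbs, (x.2 - c.2).valMinAbs))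
      (fun x hx => ?_) fun x _ y _ hxy => ?_
    · simp only [ball, coe_filter, mem_univ, true_and, Set.mem_ofPred_eq, td, max_le_iff] at hx
      simp only [coe_product, coe_Icc, Set.mem_prod, Set.mem_Icc]
      omega
    · simp only [Prod.mk.injEq, ZMod.valMinAbs_inj, sub_left_inj] at hxy
      exact Prod.ext hxy.1 hxy.2
  refine h.trans (le_of_eq ?_)
  rw [card_product, Int.card_Icc, show ((r : ℤ) + 1 - -(r : ℤ)).toNat = 2 * r + 1 by omega, sq]

theorem card_bonds_le (c : Site L₁ L₂) (r : ℕ) :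
    (Finset.univ.filter fun b : Bond L₁ L₂ => td c b.1 ≤ r).card ≤ 2 * (2 * r + 1) ^ 2 := by
  rw [show (Finset.univ.filter fun b : Bond L₁ L₂ => td c b.1 ≤ r) =
    ball c r ×ˢ (univ : Finset (Fin 2)) by ext b; simp [ball]]
  rw [card_product, card_univ, Fintype.card_fin, mul_comm]
  exact Nat.mul_le_mul_left 2 (card_ball_le c r)

theorem win_bounds (ℓ : ℕ) (hℓ : 1 ≤ ℓ) (z : Site L₁ L₂) :
    (∀ x, 0 ≤ win ℓ z x ∧ win ℓ z x ≤ 1 ∧ (win ℓ z x ≠ 0 → td z x ≤ ℓ)) ∧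
      ∀ b, |dd (win ℓ z) b| ≤ 1 / ℓ := by
  refine ⟨fun x => ?_, fun b => ?_⟩
  · obtain ⟨a0, a1⟩ := tent_mem ℓ (x.1 - z.1)
    obtain ⟨b0, b1⟩ := tent_mem ℓ (x.2 - z.2)
    refine ⟨mul_nonneg a0 b0, mul_le_one₀ a1 b0 b1, fun h => ?_⟩
    obtain ⟨h1, h2⟩ := mul_ne_zero_iff.1 h
    exact max_le (res_lt_of_tent_ne_zero hℓ h1).le (res_lt_of_tent_ne_zero hℓ h2).le
  · obtain ⟨x, d⟩ := b
    have hone : ∀ {L : ℕ} [NeZero L] (a : ZMod L), |tent ℓ (a + 1) - tent ℓ a| ≤ 1 / ℓ := by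
      intro L _ a
      refine (abs_tent_sub ℓ a 1).trans (div_le_div_of_nonneg_right ?_ (Nat.cast_nonneg _))
      exact_mod_cast res_one_le
    fin_cases d <;>
      simp only [dd, win, tip, unitVec, Fin.zero_eta, Fin.mk_one, Matrix.cons_val_zero,
        Matrix.cons_val_one, Prod.fst_add, Prod.snd_add, add_zero]
    · rw [← sub_mul, abs_mul, ← sub_add_eq_add_sub, abs_of_nonneg (tent_mem ℓ _).1]
      exact (mul_le_of_le_one_right (abs_nonneg _) (tent_mem ℓ _).2).trans (hone _)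
    · rw [← mul_sub, abs_mul, ← sub_add_eq_add_sub, abs_of_nonneg (tent_mem ℓ _).1]
      exact (mul_le_of_le_one_left (abs_nonneg _) (tent_mem ℓ _).2).trans (hone _)

/-- The windows overlap equally along every bond. -/
theorem exists_overlap (ℓ : ℕ) (hℓ : 4 ≤ ℓ) (h₁ : 4 * ℓ < L₁) (h₂ : 4 * ℓ < L₂) :
    ∃ K : ℝ, (ℓ : ℝ) ^ 2 / 256 ≤ K ∧
      ∀ b : Bond L₁ L₂, ∑ z, win ℓ z b.1 * win ℓ z (tip b) = K := by
  refine ⟨(∑ k ∈ Icc (-(ℓ : ℤ)) ℓ, lineTent ℓ k * lineTent ℓ (k + (1 : ℕ))) *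
    ∑ k ∈ Icc (-(ℓ : ℤ)) ℓ, lineTent ℓ k * lineTent ℓ (k + (0 : ℕ)), ?_, fun b => ?_⟩
  · rw [show (ℓ : ℝ) ^ 2 / 256 = (ℓ : ℝ) / 16 * ((ℓ : ℝ) / 16) by ring]
    exact mul_le_mul (le_sum_lineTent hℓ le_rfl) (le_sum_lineTent hℓ zero_le_one) (by positivity)
      ((div_nonneg (Nat.cast_nonneg _) (by norm_num)).trans (le_sum_lineTent hℓ le_rfl))
  obtain ⟨x, d⟩ := b
  have hsplit : ∑ z, win ℓ z x * win ℓ z (tip (x, d)) =
      (∑ z, tent ℓ (x.1 - z) * tent ℓ (x.1 + (unitVec d : Site L₁ L₂).1 - z)) *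
        ∑ z, tent ℓ (x.2 - z) * tent ℓ (x.2 + (unitVec d : Site L₁ L₂).2 - z) := by
    rw [Fintype.sum_prod_type, sum_mul_sum]
    refine sum_congr rfl fun a _ => sum_congr rfl fun c _ => ?_
    simp only [win, tip, Prod.fst_add, Prod.snd_add]
    ring
  rw [hsplit, sum_shift, sum_shift]
  fin_cases d <;> simp only [unitVec, Fin.zero_eta, Fin.mk_one, Matrix.cons_val_zero,
    Matrix.cons_val_one]
  · rw [← Nat.cast_one (R := ZMod L₁), ← Nat.cast_zero (R := ZMod L₂),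
      sum_tent (by omega) (by omega) le_rfl, sum_tent (by omega) (by omega) zero_le_one]
  · rw [← Nat.cast_zero (R := ZMod L₁), ← Nat.cast_one (R := ZMod L₂),
      sum_tent (by omega) (by omega) zero_le_one, sum_tent (by omega) (by omega) le_rfl, mul_comm]

theorem prof_bounds (c : Site L₁ L₂) (r : ℕ) (hr : 1 ≤ r) :
    (∀ x, 0 ≤ prof c r x ∧ prof c r x ≤ 1 ∧ (td c x ≤ r → prof c r x = 1) ∧
      (2 * r ≤ td c x → prof c r x = 0)) ∧
    (∀ x y, |prof c r x - prof c r y| ≤ (td x y : ℝ) / r) ∧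
    ∀ b, dd (prof c r) b ≠ 0 → r ≤ td c b.1 + 1 ∧ td c b.1 ≤ 2 * r + 1 := by
  have hr0 : (0 : ℝ) < r := by exact_mod_cast hr
  have h1 : ∀ x, td c x ≤ r → prof c r x = 1 := by
    intro x hx
    have hx' : (td c x : ℝ) ≤ r := by exact_mod_cast hx
    have h : 1 ≤ (2 * r - (td c x : ℝ)) / r := by rw [le_div_iff₀ hr0]; linarith
    simp [prof, le_max_of_le_right h]
  have h0 : ∀ x, 2 * r ≤ td c x → prof c r x = 0 := by
    intro x hx
    have hx' : 2 * (r : ℝ) ≤ td c x := by exact_mod_cast hx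
    have h : (2 * r - (td c x : ℝ)) / r ≤ 0 := div_nonpos_of_nonpos_of_nonneg (by linarith) hr0.le
    simp [prof, max_eq_left h]
  refine ⟨fun x => ⟨le_min zero_le_one (le_max_left _ _), min_le_left _ _, h1 x, h0 x⟩,
    fun x y => ?_, fun b hb => ?_⟩
  · unfold prof
    refine (abs_min_sub_min_le_max _ _ _ _).trans (max_le (by simp; positivity) ?_)
    refine (abs_max_sub_max_le_max _ _ _ _).trans (max_le (by simp; positivity) ?_)
    rw [← sub_div, sub_sub_sub_cancel_left, abs_div, abs_of_pos hr0]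
    refine div_le_div_of_nonneg_right ?_ hr0.le
    have e1 : (td c x : ℝ) ≤ td c y + td x y := by
      exact_mod_cast (td_comm x y ▸ td_triangle c y x)
    have e2 : (td c y : ℝ) ≤ td c x + td x y := by exact_mod_cast td_triangle c x y
    rw [abs_le]
    constructor <;> linarith
  · have e1 := td_triangle c b.1 (tip b)
    have e2 := td_triangle c (tip b) b.1
    have e3 := td_tip b
    rw [td_comm (tip b) b.1] at e2
    constructor <;> by_contra hh <;> apply hb <;> unfold dd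
    · rw [h1 b.1 (by omega), h1 (tip b) (by omega), sub_self]
    · rw [h0 b.1 (by omega), h0 (tip b) (by omega), sub_self]

end Vale.Agent.P163.Gap
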