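import Vale.Agent.P163.Gap.Axis
import Vale.Agent.P163.Gap.Window
import Vale.Agent.P163.Gap.Pos

/-!
Continuity and bounds in the axial variables, and configurations split at a set of vertices.
-/

open MeasureTheory Real Matrix Finset
open scoped BigOperators

namespace Vale.Agent.P163.Gap

variable {L₁ L₂ : ℕ} [NeZero L₁] [NeZero L₂]

lemma continuous_clip : Continuous clip := by unfold clip; fun_prop

lemma continuous_perp : Continuous perp := by unfold perp clip; fun_prop

lemma continuous_kIsing (J : Bond L₁ L₂ → ℝ) (b : Bond L₁ L₂) :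
    Continuous fun a : Site L₁ L₂ → ℝ => kIsing J a b := by
  unfold kIsing clip; fun_prop

lemma continuous_isE {K : (Site L₁ L₂ → ℝ) → Bond L₁ L₂ → ℝ}
    {h : (Site L₁ L₂ → ℝ) → Site L₁ L₂ → ℝ} (hK : ∀ b, Continuous fun a => K a b)
    (hh : ∀ x, Continuous fun a => h a x) (f : (Site L₁ L₂ → Bool) → ℝ) :
    Continuous fun a => isE (K a) (h a) f := by
  unfold isE isW
  refine Continuous.div (by fun_prop) (by fun_prop) fun a => ?_
  exact (sum_pos (fun s _ => Real.exp_pos _) univ_nonempty).ne'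

lemma continuous_armMag (J : Bond L₁ L₂ → ℝ) (W : ℕ) (x : Site L₁ L₂) :
    Continuous (armMag J W x) := by
  have hsat : ∀ v, Continuous fun a : Site L₁ L₂ → ℝ => if v ∈ ball x W then a v else 1 := by
    intro v; by_cases h : v ∈ ball x W <;> simp [h] <;> fun_prop
  have hk : ∀ b, Continuous fun a : Site L₁ L₂ → ℝ =>
      kIsing J (fun v => if v ∈ ball x W then a v else 1) b := fun b =>
    (continuous_kIsing J b).comp (continuous_pi hsat)
  refine continuous_isE (fun b => ?_) (fun y => ?_) _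
  · unfold kIn
    by_cases h : b.1 ∈ ball x W ∧ tip b ∈ ball x W <;> simp [h] <;> fun_prop
  · unfold hOut
    refine Continuous.add (continuous_finsetSum _ fun b _ => ?_)
      (continuous_finsetSum _ fun b _ => ?_) <;>
    · split
      · exact (hk b).mul continuous_const
      · exact continuous_const

lemma abs_isE_le (K : Bond L₁ L₂ → ℝ) (h : Site L₁ L₂ → ℝ) {f : (Site L₁ L₂ → Bool) → ℝ}
    (hf : ∀ s, |f s| ≤ 1) : |isE K h f| ≤ 1 := by
  have hp : 0 < ∑ s, isW K h s := sum_pos (fun s _ => Real.exp_pos _) univ_nonempty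
  rw [isE, abs_div, abs_of_pos hp, div_le_one hp]
  refine (abs_sum_le_sum_abs _ _).trans (sum_le_sum fun s _ => ?_)
  rw [abs_mul, abs_of_pos (show 0 < isW K h s from Real.exp_pos _)]
  exact mul_le_of_le_one_right (Real.exp_pos _).le (hf s)

lemma clip_mem (a : ℝ) : 0 ≤ clip a ∧ clip a ≤ 1 :=
  ⟨le_min zero_le_one (le_max_left _ _), min_le_left _ _⟩

lemma perp_le_one (a : ℝ) : perp a ≤ 1 := by
  rw [perp, Real.sqrt_le_one]
  nlinarith [clip_mem a]

lemma abs_kIsing_le (J : Bond L₁ L₂ → ℝ) (a : Site L₁ L₂ → ℝ) (b : Bond L₁ L₂) :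
    |kIsing J a b| ≤ |J b| := by
  rw [kIsing, abs_mul, abs_mul, abs_of_nonneg (clip_mem _).1, abs_of_nonneg (clip_mem _).1]
  exact (mul_le_of_le_one_right (mul_nonneg (abs_nonneg _) (clip_mem _).1) (clip_mem _).2).trans
    (mul_le_of_le_one_right (abs_nonneg _) (clip_mem _).2)

lemma abs_kPlane_le (J : Bond L₁ L₂ → ℝ) (a : Site L₁ L₂ → ℝ) (b : Bond L₁ L₂) :
    |kPlane J a b| ≤ |J b| := by
  have h : ∀ t, 0 ≤ perp t := fun t => Real.sqrt_nonneg _
  rw [kPlane, abs_mul, abs_mul, abs_of_nonneg (h _), abs_of_nonneg (h _)]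
  exact (mul_le_of_le_one_right (mul_nonneg (abs_nonneg _) (h _)) (perp_le_one _)).trans
    (mul_le_of_le_one_right (abs_nonneg _) (perp_le_one _))

lemma axisW_nice (J : Bond L₁ L₂ → ℝ) :
    Continuous (axisW J) ∧ ∃ c C, 0 < c ∧ ∀ a, c ≤ axisW J a ∧ axisW J a ≤ C := by
  classical
  have hang : IsProbabilityMeasure (angles L₁ L₂) := by unfold angles; infer_instance
  set M := ∑ b, |J b|
  have hsum : ∀ (K t : Bond L₁ L₂ → ℝ), (∀ b, |K b| ≤ |J b|) → (∀ b, |t b| ≤ 1) →
      |∑ b, K b * t b| ≤ M := fun K t hK ht =>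
    (abs_sum_le_sum_abs _ _).trans (sum_le_sum fun b _ => by
      rw [abs_mul]; exact (mul_le_of_le_one_right (abs_nonneg _) (ht b)).trans (hK b))
  have hcos : ∀ θ : Ang, |acos' θ| ≤ 1 := by
    intro θ
    induction θ using QuotientAddGroup.induction_on
    rw [acos']
    exact (Real.Angle.cos_coe _).symm ▸ Real.abs_cos_le_one _
  have hcosc : Continuous acos' := Real.Angle.continuous_cos
  have hcard : (0 : ℝ) < Fintype.card (Site L₁ L₂ → Bool) := by exact_mod_cast Fintype.card_pos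
  have hI : ∀ a, Real.exp (-M) ≤ isZ (kIsing J a) 0 ∧ isZ (kIsing J a) 0 ≤ Real.exp M := by
    intro a
    have h : ∀ s : Site L₁ L₂ → Bool, |∑ b, kIsing J a b * sv (s b.1) * sv (s (tip b))| ≤ M := fun s => by
      simp only [mul_assoc]
      exact hsum _ _ (abs_kIsing_le J a) fun b => by simp [abs_mul, abs_sv]
    simp only [isZ, isW, Pi.zero_apply, zero_mul, sum_const_zero, add_zero]
    constructor
    · rw [le_div_iff₀ hcard]
      refine le_trans (le_of_eq ?_) (card_nsmul_le_sum univ _ (Real.exp (-M)) fun s _ =>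
        Real.exp_le_exp.2 (abs_le.1 (h s)).1)
      rw [nsmul_eq_mul, card_univ, mul_comm]
    · rw [div_le_iff₀ hcard]
      refine (sum_le_card_nsmul univ _ (Real.exp M) fun s _ =>
        Real.exp_le_exp.2 (abs_le.1 (h s)).2).trans (le_of_eq ?_)
      rw [nsmul_eq_mul, card_univ, mul_comm]
  have hE : ∀ (a : Site L₁ L₂ → ℝ) (θ : Site L₁ L₂ → Ang), |∑ b, kPlane J a b * acos' (θ b.1 - θ (tip b))| ≤ M := fun a θ =>
    hsum _ _ (abs_kPlane_le J a) fun b => hcos _
  have hPm : ∀ a, Integrable (fun θ : Site L₁ L₂ → Ang =>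
      Real.exp (∑ b, kPlane J a b * acos' (θ b.1 - θ (tip b)))) (angles L₁ L₂) := fun a =>
    Integrable.of_bound (by fun_prop) (Real.exp M) (.of_forall fun θ => by
      rw [Real.norm_eq_abs, Real.abs_exp]; exact Real.exp_le_exp.2 (abs_le.1 (hE a θ)).2)
  have hX : ∀ a, Real.exp (-M) ≤ xyZ (kPlane J a) ∧ xyZ (kPlane J a) ≤ Real.exp M := by
    intro a
    have h1 := integral_mono (integrable_const _) (hPm a) fun θ =>
      Real.exp_le_exp.2 (abs_le.1 (hE a θ)).1
    have h2 := integral_mono (hPm a) (integrable_const _) fun θ =>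
      Real.exp_le_exp.2 (abs_le.1 (hE a θ)).2
    simp only [integral_const, probReal_univ, one_smul] at h1 h2
    exact ⟨h1, h2⟩
  refine ⟨Continuous.mul ?_ ?_, Real.exp (-M) * Real.exp (-M), Real.exp M * Real.exp M,
    by positivity, fun a => ⟨?_, ?_⟩⟩
  · unfold isZ isW kIsing clip; fun_prop
  · refine continuous_of_dominated (fun a => (hPm a).aestronglyMeasurable)
      (bound := fun _ => Real.exp M) (fun a => .of_forall fun θ => ?_) (integrable_const _)
      (.of_forall fun θ => ?_)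
    · rw [Real.norm_eq_abs, Real.abs_exp]; exact Real.exp_le_exp.2 (abs_le.1 (hE a θ)).2
    · unfold kPlane perp clip; fun_prop
  · exact mul_le_mul (hI a).1 (hX a).1 (Real.exp_pos _).le ((Real.exp_pos _).le.trans (hI a).1)
  · exact mul_le_mul (hI a).2 (hX a).2 ((Real.exp_pos _).le.trans (hX a).1) (Real.exp_pos _).le

/-- Axial components equal to `a` in `B` and to `η` outside. -/
def mixA (B : Finset (Site L₁ L₂)) (η a : Site L₁ L₂ → ℝ) (v : Site L₁ L₂) : ℝ :=
  if v ∈ B then a v else η v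

/-- Signs equal to `t` in `B` and to `σ` outside. -/
def mixS (B : Finset (Site L₁ L₂)) (σ t : Site L₁ L₂ → Bool) (v : Site L₁ L₂) : Bool :=
  if v ∈ B then t v else σ v

/-- The weight of the axial components in `B` under plus boundary conditions. -/
noncomputable def plusW (J : Bond L₁ L₂ → ℝ) (B : Finset (Site L₁ L₂)) (a : Site L₁ L₂ → ℝ) : ℝ :=
  (∑ t, isW (kIsing J (mixA B (fun _ => 1) a)) 0 (mixS B (fun _ => true) t)) /
      Fintype.card (Site L₁ L₂ → Bool) * xyZ (kPlane J (mixA B (fun _ => 1) a))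

/-- The Ising weight given the signs outside `B`. -/
theorem isW_mixS (B : Finset (Site L₁ L₂)) (K : Bond L₁ L₂ → ℝ) (σ t : Site L₁ L₂ → Bool) :
    isW K 0 (mixS B σ t) =
      Real.exp (∑ b, if b.1 ∉ B ∧ tip b ∉ B then K b * sv (σ b.1) * sv (σ (tip b)) else 0) *
        isW (kIn B K) (hOut B K fun v => sv (σ v)) t := by
  simp only [isW, ← Real.exp_add, Pi.zero_apply, zero_mul, sum_const_zero, add_zero]
  congr 1
  have h1 : ∑ x, hOut B K (fun v => sv (σ v)) x * sv (t x) =
      (∑ b, if b.1 ∈ B ∧ tip b ∉ B then K b * sv (σ (tip b)) * sv (t b.1) else 0) +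
        ∑ b, if tip b ∈ B ∧ b.1 ∉ B then K b * sv (σ b.1) * sv (t (tip b)) else 0 := by
    simp only [hOut, add_mul, sum_add_distrib, sum_mul]
    congr 1 <;> rw [sum_comm] <;> refine sum_congr rfl fun b _ => ?_
    · rw [sum_eq_single b.1 (fun x _ hx => by simp [Ne.symm hx]) (by simp)]
      by_cases h : b.1 ∈ B ∧ tip b ∉ B <;> simp [h]
    · rw [sum_eq_single (tip b) (fun x _ hx => by simp [Ne.symm hx]) (by simp)]
      by_cases h : tip b ∈ B ∧ b.1 ∉ B <;> simp [h]
  rw [h1]
  simp only [← sum_add_distrib]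
  refine sum_congr rfl fun b _ => ?_
  by_cases h : b.1 ∈ B <;> by_cases h' : tip b ∈ B <;> simp [mixS, kIn, h, h'] <;> ring

end Vale.Agent.P163.Gap
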