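import Vale.Agent.P163.Gap.Stiff

/-!
An odd observable is contracted by every annulus: faster than polynomial decay, uniformly in the
boundary.
-/

open MeasureTheory Real Matrix Finset
open scoped BigOperators

namespace Vale.Agent.P163.Gap

namespace Contract

variable {L₁ L₂ : ℕ} [NeZero L₁] [NeZero L₂] (J : Bond L₁ L₂ → ℝ)

lemma abs_coord_le (v : Sph 3) (p : Fin 3) : |(v : Vec 3).ofLp p| ≤ 1 := by
  have h := PiLp.norm_apply_le (v : Vec 3) p
  rwa [Real.norm_eq_abs, norm_spin] at h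

lemma measurable_coord (x : Site L₁ L₂) (p : Fin 3) :
    Measurable fun σ : Conf L₁ L₂ => (σ x : Vec 3).ofLp p :=
  (PiLp.continuous_apply 2 (fun _ : Fin 3 => ℝ) p).measurable.comp (measurable_spin x)

omit [NeZero L₁] [NeZero L₂] in
lemma bil_one (σ : Conf L₁ L₂) (b : Bond L₁ L₂) :
    bil 1 σ b = ∑ p, (σ (tip b) : Vec 3).ofLp p * (σ b.1 : Vec 3).ofLp p := by
  simp [bil, Matrix.one_apply]

lemma measurable_energy3 : Measurable (energy3 J) := by
  unfold energy3 lin
  refine Finset.measurable_sum _ fun b _ => Measurable.const_mul ?_ _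
  simp only [bil_one]
  exact Finset.measurable_sum _ fun p _ => (measurable_coord _ p).mul (measurable_coord _ p)

lemma abs_energy3_le (σ : Conf L₁ L₂) : |energy3 J σ| ≤ ∑ b, |J b| * 3 := by
  refine (Finset.abs_sum_le_sum_abs _ _).trans (Finset.sum_le_sum fun b _ => ?_)
  rw [abs_mul]
  refine mul_le_mul_of_nonneg_left ?_ (abs_nonneg _)
  rw [bil_one]
  refine ((Finset.abs_sum_le_sum_abs _ _).trans (Finset.sum_le_card_nsmul _ _ 1 fun p _ => ?_)).trans
    (by simp)
  rw [abs_mul]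
  exact mul_le_one₀ (abs_coord_le _ p) (abs_nonneg _) (abs_coord_le _ p)

lemma measurable_wt : Measurable (wt J) := (measurable_energy3 J).exp

lemma wt_bounds (σ : Conf L₁ L₂) :
    Real.exp (-∑ b, |J b| * 3) ≤ wt J σ ∧ wt J σ ≤ Real.exp (∑ b, |J b| * 3) :=
  ⟨Real.exp_le_exp.2 (abs_le.1 (abs_energy3_le J σ)).1,
    Real.exp_le_exp.2 (abs_le.1 (abs_energy3_le J σ)).2⟩

lemma wt_pos (σ : Conf L₁ L₂) : 0 < wt J σ := Real.exp_pos _

lemma nice_wt : Nice (wt J) :=
  ⟨measurable_wt J, Real.exp (∑ b, |J b| * 3), fun σ => by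
    rw [Real.norm_eq_abs, abs_of_pos (wt_pos J σ)]
    exact (wt_bounds J σ).2⟩

lemma nice_wt_mul {g : Conf L₁ L₂ → ℝ} (hg : Nice g) : Nice fun σ => wt J σ * g σ := by
  obtain ⟨D, hD⟩ := hg.2
  refine ⟨(measurable_wt J).mul hg.1, Real.exp (∑ b, |J b| * 3) * D, fun σ => ?_⟩
  rw [norm_mul, Real.norm_eq_abs (wt J σ), abs_of_pos (wt_pos J σ)]
  exact mul_le_mul (wt_bounds J σ).2 (hD σ) (norm_nonneg _) (Real.exp_pos _).le

lemma slice_integrable (S : Finset (Site L₁ L₂)) (η : Conf L₁ L₂) {g : Conf L₁ L₂ → ℝ}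
    (hg : Nice g) :
    Integrable (fun ζ => g (merge S η ζ)) (freeMeasure 3 (Site L₁ L₂)) := by
  have := freeMeasure_isProbability (n := 3) (V := Site L₁ L₂)
  exact (hg.comp (measurable_slice S η)).integrable

lemma den_pos (S : Finset (Site L₁ L₂)) (η : Conf L₁ L₂) :
    0 < ∫ ζ, wt J (merge S η ζ) ∂freeMeasure 3 (Site L₁ L₂) := by
  have := freeMeasure_isProbability (n := 3) (V := Site L₁ L₂)
  calc (0 : ℝ) < Real.exp (-∑ b, |J b| * 3) := Real.exp_pos _
    _ = ∫ _ζ : Conf L₁ L₂, Real.exp (-∑ b, |J b| * 3) ∂freeMeasure 3 (Site L₁ L₂) := by simp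
    _ ≤ _ := integral_mono (integrable_const _) (slice_integrable S η (nice_wt J))
        fun ζ => (wt_bounds J _).1

lemma abs_ex_le (S : Finset (Site L₁ L₂)) {g : Conf L₁ L₂ → ℝ} {M : ℝ}
    (hM : ∀ σ, |g σ| ≤ M) (η : Conf L₁ L₂) : |ex J S η g| ≤ M := by
  have := freeMeasure_isProbability (n := 3) (V := Site L₁ L₂)
  rw [ex, abs_div, abs_of_pos (den_pos J S η), div_le_iff₀ (den_pos J S η), ← integral_const_mul]
  refine norm_integral_le_of_norm_le (G := ℝ) ((slice_integrable S η (nice_wt J)).const_mul M)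
    (Filter.Eventually.of_forall fun ζ => ?_)
  rw [Real.norm_eq_abs, abs_mul, abs_of_pos (wt_pos J _), mul_comm M]
  exact mul_le_mul_of_nonneg_left (hM _) (Real.exp_pos _).le

lemma measurable_ex (S : Finset (Site L₁ L₂)) {g : Conf L₁ L₂ → ℝ} (hg : Nice g) :
    Measurable fun η => ex J S η g := by
  have := freeMeasure_isProbability (n := 3) (V := Site L₁ L₂)
  unfold ex
  refine Measurable.div ?_ ?_
  · exact (((nice_wt_mul J hg).1.comp (measurable_merge S)).stronglyMeasurable.integral_prod_right'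
      (f := fun p => wt J (merge S p.1 p.2) * g (merge S p.1 p.2))).measurable
  · exact (((measurable_wt J).comp (measurable_merge S)).stronglyMeasurable.integral_prod_right'
      (f := fun p => wt J (merge S p.1 p.2))).measurable

/-- The tower property. -/
lemma ex_tower {S S' : Finset (Site L₁ L₂)} (h : S ⊆ S') {g : Conf L₁ L₂ → ℝ} (hg : Nice g)
    (η : Conf L₁ L₂) : ex J S' η (fun σ => ex J S σ g) = ex J S' η g := by
  have := freeMeasure_isProbability (n := 3) (V := Site L₁ L₂)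
  have hG : Nice fun σ => ex J S σ g := ⟨measurable_ex J S hg, hg.2.imp fun D hD σ =>
    abs_ex_le J S (fun τ => hD τ) σ⟩
  have e : ∀ {k : Conf L₁ L₂ → ℝ}, Nice k →
      ∫ ζ, k (merge S' η ζ) ∂freeMeasure 3 (Site L₁ L₂)
        = ∫ ζ, ∫ ξ, k (merge S (merge S' η ζ) ξ) ∂freeMeasure 3 (Site L₁ L₂)
            ∂freeMeasure 3 (Site L₁ L₂) := by
    intro k hk
    simp only [← merge_merge h]
    have hi : Integrable (fun p : Conf L₁ L₂ × Conf L₁ L₂ => k (merge S' η (merge S p.1 p.2)))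
        ((freeMeasure 3 (Site L₁ L₂)).prod (freeMeasure 3 (Site L₁ L₂))) :=
      (hk.comp ((measurable_slice S' η).comp (measurable_merge S))).integrable
    have hm' : AEStronglyMeasurable (fun ζ : Conf L₁ L₂ => k (merge S' η ζ))
        ((((freeMeasure 3 (Site L₁ L₂)).prod (freeMeasure 3 (Site L₁ L₂)))).map
          fun p => merge S p.1 p.2) :=
      (hk.1.comp (measurable_slice S' η)).aestronglyMeasurable
    rw [← integral_prod
      (fun p : Conf L₁ L₂ × Conf L₁ L₂ => k (merge S' η (merge S p.1 p.2))) hi]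
    conv_lhs => rw [← (merge_measurePreserving (n := 3) S).map_eq]
    rw [integral_map (measurable_merge S).aemeasurable hm']
  change (∫ ζ, wt J (merge S' η ζ) * ex J S (merge S' η ζ) g ∂freeMeasure 3 (Site L₁ L₂)) / _ =
    (∫ ζ, wt J (merge S' η ζ) * g (merge S' η ζ) ∂freeMeasure 3 (Site L₁ L₂)) / _
  congr 1
  rw [e (nice_wt_mul J hG), e (nice_wt_mul J hg)]
  refine integral_congr_ae (Filter.Eventually.of_forall fun ζ => ?_)
  dsimp only
  set σ := merge S' η ζ with hσ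
  have hc : ∀ ξ, ex J S (merge S σ ξ) g = ex J S σ g := fun ξ => by
    have hm : merge S (merge S σ ξ) = merge S σ := by
      funext ζ'
      exact part_congr S (fun x hx => by simp [merge, hx]) ζ'
    simp only [ex, hm]
  simp only [hc]
  rw [integral_mul_const, ex, mul_div_cancel₀ _ (den_pos J S σ).ne']

lemma mem_ball' {c x : Site L₁ L₂} {r : ℕ} : x ∈ ball c r ↔ td c x ≤ r := by
  simp [Gap.ball]

/-- A local expectation only sees the spins next to the ball. -/
lemma ex_congr (c : Site L₁ L₂) (R : ℕ) {η η' : Conf L₁ L₂}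
    (h : ∀ y, td c y ≤ R + 1 → η y = η' y) :
    ex J (ball c R) η (sgn0 c) = ex J (ball c R) η' (sgn0 c) := by
  have := freeMeasure_isProbability (n := 3) (V := Site L₁ L₂)
  classical
  have hc : c ∈ ball c R := mem_ball'.2 (by rw [td_self]; exact Nat.zero_le _)
  have key : ∀ (ζ : Conf L₁ L₂) y, td c y ≤ R + 1 →
      merge (ball c R) η ζ y = merge (ball c R) η' ζ y := by
    intro ζ y hy
    simp only [merge]
    split_ifs with hb
    · rfl
    · exact h y hy
  set κ := ∑ b : Bond L₁ L₂,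
    (if b.1 ∈ ball c R ∨ tip b ∈ ball c R then 0 else J b * bil 1 η b - J b * bil 1 η' b) with hκ
  have hE : ∀ ζ, energy3 J (merge (ball c R) η ζ) - energy3 J (merge (ball c R) η' ζ) = κ := by
    intro ζ
    simp only [energy3, lin, hκ]
    rw [← Finset.sum_sub_distrib]
    refine Finset.sum_congr rfl fun b _ => ?_
    split_ifs with hb
    · have h1 : td c b.1 ≤ R + 1 ∧ td c (tip b) ≤ R + 1 := by
        rcases hb with hb | hb
        · have := td_triangle c b.1 (tip b)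
          have := td_tip b
          have := mem_ball'.1 hb
          omega
        · have := td_triangle c (tip b) b.1
          have := td_tip b
          have := mem_ball'.1 hb
          have := td_comm b.1 (tip b)
          omega
      rw [bil_one, bil_one, key ζ _ h1.1, key ζ _ h1.2, sub_self]
    · rw [not_or] at hb
      have e : ∀ ξ : Conf L₁ L₂, bil 1 (merge (ball c R) ξ ζ) b = bil 1 ξ b := fun ξ => by
        rw [bil_one, bil_one]
        simp [merge, hb.1, hb.2]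
      rw [e, e]
  have hw : ∀ ζ, wt J (merge (ball c R) η ζ) = Real.exp κ * wt J (merge (ball c R) η' ζ) := by
    intro ζ
    rw [wt, wt, ← Real.exp_add, ← hE ζ, sub_add_cancel]
  have hs : ∀ ζ, sgn0 c (merge (ball c R) η ζ) = sgn0 c (merge (ball c R) η' ζ) := fun ζ => by
    simp [sgn0, merge, hc]
  simp only [ex, hw, hs, mul_assoc, integral_const_mul]
  rw [mul_div_mul_left _ _ (Real.exp_pos κ).ne']

/-- The half turn as a linear isometry. -/
noncomputable def turnLin : Vec 3 ≃ₗᵢ[ℝ] Vec 3 :=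
  LinearIsometryEquiv.piLpCongrRight 2 fun i =>
    if i = 2 then LinearIsometryEquiv.refl ℝ ℝ else LinearIsometryEquiv.neg ℝ

lemma turn_eq : (turn : Sph 3 → Sph 3) = sphMap turnLin := by
  funext v
  apply Subtype.ext
  apply PiLp.ext
  intro i
  fin_cases i <;> simp [turn, sphMap, turnLin]

/-- The half turn of every spin. -/
noncomputable def turnAll (σ : Conf L₁ L₂) : Conf L₁ L₂ := fun x => turn (σ x)

lemma turnAll_measurePreserving :
    MeasurePreserving (turnAll (L₁ := L₁) (L₂ := L₂)) (freeMeasure 3 (Site L₁ L₂))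
      (freeMeasure 3 (Site L₁ L₂)) := by
  have := omega_isProbability (n := 3)
  have h : MeasurePreserving (turn : Sph 3 → Sph 3) (omega 3) (omega 3) := by
    rw [turn_eq]; exact omega_invariant _
  exact measurePreserving_pi (fun _ : Site L₁ L₂ => omega 3) (fun _ : Site L₁ L₂ => omega 3)
    fun _ => h

lemma wt_turnAll (σ : Conf L₁ L₂) : wt J (turnAll σ) = wt J σ := by
  simp only [wt, energy3, lin]
  congr 1
  refine Finset.sum_congr rfl fun b _ => ?_
  simp [bil_one, turnAll, turn, Fin.sum_univ_three]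

omit [NeZero L₁] [NeZero L₂] in
lemma sgn0_turnAll (x : Site L₁ L₂) (σ : Conf L₁ L₂) : sgn0 x (turnAll σ) = -sgn0 x σ := by
  simp [sgn0, turnAll, turn, Real.sign_neg]

lemma nice_sgn0 (x : Site L₁ L₂) : Nice (sgn0 x : Conf L₁ L₂ → ℝ) := by
  refine ⟨?_, 1, fun σ => ?_⟩
  · unfold sgn0 Real.sign
    exact Measurable.ite (measurableSet_lt (measurable_coord x 0) measurable_const) measurable_const
      (Measurable.ite (measurableSet_lt measurable_const (measurable_coord x 0)) measurable_const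
        measurable_const)
  · simp only [sgn0, Real.norm_eq_abs]
    rcases Real.sign_apply_eq ((σ x : Vec 3).ofLp 0) with h | h | h <;> simp [h]

omit [NeZero L₁] [NeZero L₂] in
lemma abs_sgn0_le (x : Site L₁ L₂) (σ : Conf L₁ L₂) : |sgn0 x σ| ≤ 1 := by
  rcases Real.sign_apply_eq ((σ x : Vec 3).ofLp 0) with h | h | h <;> simp [sgn0, h]

lemma ex_turnAll (S : Finset (Site L₁ L₂)) (η : Conf L₁ L₂) (x : Site L₁ L₂) :
    ex J S (turnAll η) (sgn0 x) = -ex J S η (sgn0 x) := by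
  have := freeMeasure_isProbability (n := 3) (V := Site L₁ L₂)
  classical
  have hm : ∀ ζ, merge S (turnAll η) (turnAll ζ) = turnAll (merge S η ζ) := fun ζ => by
    funext y
    simp only [merge, turnAll]
    split_ifs <;> rfl
  have hmap : ∀ {k : Conf L₁ L₂ → ℝ}, Measurable k →
      ∫ ζ, k (merge S (turnAll η) ζ) ∂freeMeasure 3 (Site L₁ L₂) =
        ∫ ζ, k (turnAll (merge S η ζ)) ∂freeMeasure 3 (Site L₁ L₂) := by
    intro k hk
    have hk' : AEStronglyMeasurable (fun ζ => k (merge S (turnAll η) ζ))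
        ((freeMeasure 3 (Site L₁ L₂)).map turnAll) :=
      (hk.comp (measurable_slice S (turnAll η))).aestronglyMeasurable
    conv_lhs => rw [← (turnAll_measurePreserving (L₁ := L₁) (L₂ := L₂)).map_eq]
    rw [integral_map turnAll_measurePreserving.measurable.aemeasurable hk']
    simp only [hm]
  rw [ex, ex, hmap (k := fun σ => wt J σ * sgn0 x σ) (nice_wt_mul J (nice_sgn0 x)).1,
    hmap (k := wt J) (measurable_wt J)]
  simp only [wt_turnAll, sgn0_turnAll, mul_neg]
  rw [integral_neg, neg_div]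

lemma ex_neg (S : Finset (Site L₁ L₂)) (η : Conf L₁ L₂) (g : Conf L₁ L₂ → ℝ) :
    ex J S η (fun σ => -g σ) = -ex J S η g := by
  simp only [ex, mul_neg, integral_neg, neg_div]

lemma ex_const_mul (S : Finset (Site L₁ L₂)) (η : Conf L₁ L₂) (a : ℝ) (g : Conf L₁ L₂ → ℝ) :
    ex J S η (fun σ => a * g σ) = a * ex J S η g := by
  simp only [ex, mul_left_comm _ a, integral_const_mul, mul_div_assoc]

/-- One annulus. -/
lemma step {Cst β : ℝ}
    (hstiff : ∀ (r m : ℕ), 1 ≤ m → 64 * 2 ^ m ≤ r → 16 * r < L₁ → 16 * r < L₂ →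
      ∀ (c : Site L₁ L₂) (S : Finset (Site L₁ L₂)), ball c (4 * r) ⊆ S →
      ∀ (η : Conf L₁ L₂) (F : Conf L₁ L₂ → ℝ), Nice F →
        DepOn {x | td c x ≤ r / 4} F → (∀ σ, |F σ| ≤ 1) →
        |ex J S η (fun σ => F σ * cur J 2 (prof c r) σ)| ≤ Cst * β / Real.sqrt m)
    (x : Site L₁ L₂) {r r' m : ℕ} {M : ℝ} (hm : 1 ≤ m) (hr : 64 * 2 ^ m ≤ r)
    (h₁ : 16 * r < L₁) (h₂ : 16 * r < L₂) (hr' : 4 * r' + 1 ≤ r / 4) (hM : 0 < M)
    (ih : ∀ η, |ex J (ball x (4 * r')) η (sgn0 x)| ≤ M) (η : Conf L₁ L₂) :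
    |ex J (ball x (4 * r)) η (sgn0 x)| ≤ Real.pi * (Cst * β) / 2 / Real.sqrt m * M := by
  have hr1 : 1 ≤ r := by omega
  obtain ⟨hp, -, -⟩ := prof_bounds x r hr1
  set G : Conf L₁ L₂ → ℝ := fun σ => M⁻¹ * ex J (ball x (4 * r')) σ (sgn0 x) with hG
  have hG1 : ∀ σ, |G σ| ≤ 1 := fun σ => by
    rw [hG]
    simp only [abs_mul, abs_inv, abs_of_pos hM]
    rw [inv_mul_le_iff₀ hM, mul_one]
    exact ih σ
  have hGn : Nice G := ⟨(measurable_ex J _ (nice_sgn0 x)).const_mul _, 1, hG1⟩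
  have hGd : DepOn {y | td x y ≤ r / 4} G := by
    intro σ σ' h
    simp only [hG]
    rw [ex_congr J x (4 * r') fun y hy => h y (hy.trans hr')]
  have hodd : (fun σ : Conf L₁ L₂ => G fun y => turn (σ y)) = fun σ => -G σ := by
    funext σ
    change M⁻¹ * ex J (ball x (4 * r')) (turnAll σ) (sgn0 x) = _
    rw [ex_turnAll, mul_neg]
  have hw := abs_ex_sub_turn_le J (ball x (4 * r)) η (f := prof x r)
    (fun y hy => (hp y).2.2.2 (by rw [mem_ball'] at hy; omega))
    (A := {y | td x y ≤ r / 4})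
    (fun y hy => (hp y).2.2.1 (le_trans (show td x y ≤ r / 4 from hy) (Nat.div_le_self r 4)))
    (fun F hF hFd hF1 => hstiff r m hm hr h₁ h₂ x _ (Finset.Subset.refl _) η F hF hFd hF1)
    hGn hGd hG1
  rw [hodd, ex_neg, sub_neg_eq_add, ← two_mul, abs_mul, abs_two] at hw
  have hsub : ball x (4 * r') ⊆ ball x (4 * r) := fun y hy => by
    rw [mem_ball'] at hy ⊢
    omega
  have he : ex J (ball x (4 * r)) η (sgn0 x) = M * ex J (ball x (4 * r)) η G := by
    rw [← ex_const_mul, ← ex_tower J hsub (nice_sgn0 x) η]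
    congr 1
    funext σ
    simp only [hG, mul_inv_cancel_left₀ hM.ne']
  rw [he, abs_mul, abs_of_pos hM, mul_comm]
  refine mul_le_mul_of_nonneg_right ?_ hM.le
  calc |ex J (ball x (4 * r)) η G| ≤ Real.pi * (Cst * β / Real.sqrt m) / 2 := by linarith
    _ = _ := by ring

end Contract

open Contract in
/-- The mean sign at the centre of a large ball is small against its area. -/
theorem exists_small_mag (β : ℝ) (hβ : 1 ≤ β) {ε : ℝ} (hε : 0 < ε) :
    ∃ W : ℕ, 1 ≤ W ∧ ∀ (L₁ L₂ : ℕ) [NeZero L₁] [NeZero L₂], 8 * W < L₁ → 8 * W < L₂ →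
      ∀ (J : Bond L₁ L₂ → ℝ), (∀ b, 0 ≤ J b ∧ J b ≤ β) →
      ∀ (x : Site L₁ L₂) (η : Conf L₁ L₂),
        |ex J (ball x W) η (sgn0 x)| * ((8 * (W : ℝ) + 5) ^ 2) ≤ ε := by
  obtain ⟨Cst, hC, hst⟩ := exists_stiff
  set a : ℝ := Real.pi * (Cst * β) / 2 with ha
  have ha0 : 0 ≤ a := by positivity
  set k₀ : ℕ := ⌈(2048 * a) ^ 2⌉₊ + 1 with hk₀
  have hk₀' : 1 ≤ k₀ := by omega
  have hfac : ∀ k, k₀ ≤ k → a / Real.sqrt ((5 * k - 1 : ℕ) : ℝ) ≤ 1 / 2048 := by
    intro k hk
    have h1 : (2048 * a) ^ 2 ≤ ((5 * k - 1 : ℕ) : ℝ) :=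
      (Nat.le_ceil _).trans (by exact_mod_cast (by omega : ⌈(2048 * a) ^ 2⌉₊ ≤ 5 * k - 1))
    have h3 : 0 < Real.sqrt ((5 * k - 1 : ℕ) : ℝ) :=
      Real.sqrt_pos.2 (by exact_mod_cast (by omega : 0 < 5 * k - 1))
    rw [div_le_iff₀ h3]
    have h4 := Real.sqrt_le_sqrt h1
    rw [Real.sqrt_sq (by positivity)] at h4
    linarith
  obtain ⟨j, hj⟩ := exists_pow_lt_of_lt_one
    (show (0 : ℝ) < ε / (1369 * 1024 ^ k₀) by positivity) (show (1 / 2 : ℝ) < 1 by norm_num)
  refine ⟨4 * 32 ^ (k₀ + j), Nat.one_le_iff_ne_zero.2 (by positivity), ?_⟩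
  intro L₁ L₂ _ _ hL₁ hL₂ J hJ x η
  have main : ∀ i, i ≤ j → ∀ η, |ex J (ball x (4 * 32 ^ (k₀ + i))) η (sgn0 x)|
      ≤ (1 / 2048 : ℝ) ^ i := by
    intro i
    induction i with
    | zero => intro _ η; simpa using abs_ex_le J _ (abs_sgn0_le x) η
    | succ i ih =>
      intro hi η
      have hle : 32 ^ (k₀ + (i + 1)) ≤ 32 ^ (k₀ + j) :=
        Nat.pow_le_pow_right (by norm_num) (by omega)
      have hpow : 32 ^ (k₀ + (i + 1)) = 32 * 32 ^ (k₀ + i) := by
        rw [← pow_succ', ← add_assoc]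
      have hge : 1 ≤ 32 ^ (k₀ + i) := Nat.one_le_pow _ _ (by norm_num)
      refine (step J (hst L₁ L₂ J β hβ hJ) x (r := 32 ^ (k₀ + (i + 1))) (r' := 32 ^ (k₀ + i))
        (m := 5 * (k₀ + i) - 1) (M := (1 / 2048 : ℝ) ^ i) (by omega) (le_of_eq ?_) (by omega)
        (by omega) (by omega) (by positivity) (ih (by omega)) η).trans ?_
      · have e32 : (32 : ℕ) = 2 ^ 5 := by norm_num
        have e64 : (64 : ℕ) = 2 ^ 6 := by norm_num
        rw [e32, e64, ← pow_mul, ← pow_add]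
        congr 1
        omega
      · rw [pow_succ' (1 / 2048 : ℝ)]
        exact mul_le_mul_of_nonneg_right (hfac _ (by omega)) (by positivity)
  rw [lt_div_iff₀ (by positivity)] at hj
  have hW : (1 : ℝ) ≤ (32 : ℝ) ^ (k₀ + j) := one_le_pow₀ (by norm_num)
  calc |ex J (ball x (4 * 32 ^ (k₀ + j))) η (sgn0 x)| *
        ((8 * ((4 * 32 ^ (k₀ + j) : ℕ) : ℝ) + 5) ^ 2)
      ≤ (1 / 2048 : ℝ) ^ j * (37 * (32 : ℝ) ^ (k₀ + j)) ^ 2 := by
        refine mul_le_mul (main j le_rfl η) (pow_le_pow_left₀ (by positivity) ?_ 2)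
          (sq_nonneg _) (by positivity)
        push_cast
        linarith
    _ = (1 / 2 : ℝ) ^ j * (1369 * 1024 ^ k₀) := by
        rw [mul_pow, ← pow_mul, mul_comm (k₀ + j) 2, pow_mul,
          show ((32 : ℝ) ^ 2) = 1024 by norm_num, pow_add]
        rw [show (1 / 2 : ℝ) = 1 / 2048 * 1024 by norm_num, mul_pow (1 / 2048 : ℝ) 1024 j]
        ring
    _ ≤ ε := hj.le

end Vale.Agent.P163.Gap
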