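import Vale.Agent.P163.Core

/-!
Objects of the mass gap proof: the three component model on a rectangular torus with arbitrary
nonnegative couplings, twists, currents, windows, and the Ising and planar parts of a spin.
-/

open MeasureTheory Real Matrix
open scoped BigOperators RealInnerProductSpace Matrix

namespace Vale.Agent.P163.Gap

/-- The vertices of a rectangular torus. -/
abbrev Site (L₁ L₂ : ℕ) := ZMod L₁ × ZMod L₂

/-- A bond is its first end and one of the two directions. -/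
abbrev Bond (L₁ L₂ : ℕ) := Site L₁ L₂ × Fin 2

variable {L₁ L₂ : ℕ}

/-- The unit step in a direction. -/
def unitVec : Fin 2 → Site L₁ L₂ := ![(1, 0), (0, 1)]

/-- The second end of a bond. -/
def tip (b : Bond L₁ L₂) : Site L₁ L₂ := b.1 + unitVec b.2

/-- The increment of a function along a bond. -/
def dd (h : Site L₁ L₂ → ℝ) (b : Bond L₁ L₂) : ℝ := h (tip b) - h b.1

/-- The sup distance on the torus. -/
def td (x y : Site L₁ L₂) : ℕ :=
  max (y.1 - x.1).valMinAbs.natAbs (y.2 - x.2).valMinAbs.natAbs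

/-- A configuration of three component spins. -/
abbrev Conf (L₁ L₂ : ℕ) := Site L₁ L₂ → Sph 3

/-- A three by three matrix. -/
abbrev Mat3 := Matrix (Fin 3) (Fin 3) ℝ

/-- The cross product with a coordinate vector, as a matrix. -/
def gen : Fin 3 → Mat3 :=
  ![!![0, 0, 0; 0, 0, -1; 0, 1, 0], !![0, 0, 1; 0, 0, 0; -1, 0, 0],
    !![0, -1, 0; 1, 0, 0; 0, 0, 0]]

/-- The bilinear form of a matrix on the two ends of a bond. -/
def bil (M : Mat3) (σ : Conf L₁ L₂) (b : Bond L₁ L₂) : ℝ :=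
  ∑ p, ∑ q, M p q * (σ (tip b) : Vec 3).ofLp p * (σ b.1 : Vec 3).ofLp q

variable [NeZero L₁] [NeZero L₂]

/-- A linear combination of bond forms with matrix weights. -/
def lin (J : Bond L₁ L₂ → ℝ) (w : Bond L₁ L₂ → Mat3) (σ : Conf L₁ L₂) : ℝ :=
  ∑ b, J b * bil (w b) σ b

/-- The interaction. -/
def energy3 (J : Bond L₁ L₂ → ℝ) (σ : Conf L₁ L₂) : ℝ := lin J (fun _ => 1) σ

/-- The Boltzmann weight. -/
noncomputable def wt (J : Bond L₁ L₂ → ℝ) (σ : Conf L₁ L₂) : ℝ := Real.exp (energy3 J σ)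

/-- The expectation in `S` given the configuration outside. -/
noncomputable def ex (J : Bond L₁ L₂ → ℝ) (S : Finset (Site L₁ L₂)) (η : Conf L₁ L₂)
    (g : Conf L₁ L₂ → ℝ) : ℝ :=
  (∫ ζ, wt J (merge S η ζ) * g (merge S η ζ) ∂freeMeasure 3 (Site L₁ L₂)) /
    ∫ ζ, wt J (merge S η ζ) ∂freeMeasure 3 (Site L₁ L₂)

/-- The derivative of the weights under a twist about an axis. -/
def dw (i : Fin 3) (h : Site L₁ L₂ → ℝ) (w : Bond L₁ L₂ → Mat3) (b : Bond L₁ L₂) : Mat3 :=
  h b.1 • (w b * gen i) - h (tip b) • (gen i * w b)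

/-- The weights of the current of a twist. -/
def xw (i : Fin 3) (h : Site L₁ L₂ → ℝ) (b : Bond L₁ L₂) : Mat3 := dd h b • gen i

/-- The current of a twist. -/
def cur (J : Bond L₁ L₂ → ℝ) (i : Fin 3) (h : Site L₁ L₂ → ℝ) (σ : Conf L₁ L₂) : ℝ :=
  lin J (xw i h) σ

/-- The squared gradient. -/
def dsq (h : Site L₁ L₂ → ℝ) : ℝ := ∑ b, dd h b ^ 2

/-- What the moment estimates use of an averaged expectation over `S`. -/
structure Avg (J : Bond L₁ L₂ → ℝ) (S : Finset (Site L₁ L₂))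
    (E : (Conf L₁ L₂ → ℝ) → ℝ) : Prop where
  add : ∀ f g, Continuous f → Continuous g → E (fun σ => f σ + g σ) = E f + E g
  smul : ∀ (c : ℝ) f, Continuous f → E (fun σ => c * f σ) = c * E f
  mono : ∀ f g, Continuous f → Continuous g → (∀ σ, f σ ≤ g σ) → E f ≤ E g
  one : E (fun _ => 1) = 1
  ward : ∀ (i : Fin 3) (h : Site L₁ L₂ → ℝ) (ws : List (Bond L₁ L₂ → Mat3)),
    (∀ x, x ∉ S → h x = 0) → ws.length ≤ 3 →
    E (fun σ => cur J i h σ * (ws.map fun w => lin J w σ).prod) =
      E (fun σ => ∑ k ∈ Finset.range ws.length,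
        ((ws.modify k (dw i h)).map fun w => lin J w σ).prod)
  trace : ∀ w, E (lin J w) = E (lin J fun b => ((w b).trace / 3) • (1 : Mat3))

/-- The one dimensional tent. -/
noncomputable def tent {L : ℕ} (ℓ : ℕ) (a : ZMod L) : ℝ :=
  max 0 (1 - (a.valMinAbs.natAbs : ℝ) / ℓ)

/-- The window of size `ℓ` at `z`. -/
noncomputable def win (ℓ : ℕ) (z x : Site L₁ L₂) : ℝ :=
  tent ℓ (x.1 - z.1) * tent ℓ (x.2 - z.2)

/-- The twist profile of an annulus. -/
noncomputable def prof (c : Site L₁ L₂) (r : ℕ) (x : Site L₁ L₂) : ℝ :=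
  min 1 (max 0 ((2 * r - (td c x : ℝ)) / r))

/-- The ball in the sup distance. -/
def ball (c : Site L₁ L₂) (r : ℕ) : Finset (Site L₁ L₂) := Finset.univ.filter fun x => td c x ≤ r

/-- A half turn about the last axis. -/
noncomputable def turn (v : Sph 3) : Sph 3 :=
  ⟨WithLp.toLp 2 ![-(v : Vec 3).ofLp 0, -(v : Vec 3).ofLp 1, (v : Vec 3).ofLp 2], by
    have h : ‖(v : Vec 3)‖ = 1 := by simp
    rw [mem_sphere_zero_iff_norm, EuclideanSpace.norm_eq] at *
    simpa [Fin.sum_univ_three] using h⟩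

/-- The sign of the first component at a vertex. -/
noncomputable def sgn0 (x : Site L₁ L₂) (σ : Conf L₁ L₂) : ℝ :=
  Real.sign ((σ x : Vec 3).ofLp 0)

/-- The value of a sign. -/
def sv (s : Bool) : ℝ := if s then 1 else -1

/-- Truncation to the unit interval. -/
noncomputable def clip (a : ℝ) : ℝ := min 1 (max 0 a)

/-- The transverse length of an axial component. -/
noncomputable def perp (a : ℝ) : ℝ := Real.sqrt (1 - clip a ^ 2)

/-- The Ising couplings of the axial components. -/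
noncomputable def kIsing (J : Bond L₁ L₂ → ℝ) (a : Site L₁ L₂ → ℝ) (b : Bond L₁ L₂) : ℝ :=
  J b * clip (a b.1) * clip (a (tip b))

/-- The planar couplings of the transverse components. -/
noncomputable def kPlane (J : Bond L₁ L₂ → ℝ) (a : Site L₁ L₂ → ℝ) (b : Bond L₁ L₂) : ℝ :=
  J b * perp (a b.1) * perp (a (tip b))

/-- The weight of a sign configuration. -/
noncomputable def isW (K : Bond L₁ L₂ → ℝ) (h : Site L₁ L₂ → ℝ) (s : Site L₁ L₂ → Bool) : ℝ :=
  Real.exp ((∑ b, K b * sv (s b.1) * sv (s (tip b))) + ∑ x, h x * sv (s x))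

/-- The averaged weight. -/
noncomputable def isZ (K : Bond L₁ L₂ → ℝ) (h : Site L₁ L₂ → ℝ) : ℝ :=
  (∑ s, isW K h s) / Fintype.card (Site L₁ L₂ → Bool)

/-- The expectation of a function of the signs. -/
noncomputable def isE (K : Bond L₁ L₂ → ℝ) (h : Site L₁ L₂ → ℝ)
    (f : (Site L₁ L₂ → Bool) → ℝ) : ℝ :=
  (∑ s, isW K h s * f s) / ∑ s, isW K h s

/-- The couplings with both ends in `T`. -/
def kIn (T : Finset (Site L₁ L₂)) (K : Bond L₁ L₂ → ℝ) (b : Bond L₁ L₂) : ℝ :=
  if b.1 ∈ T ∧ tip b ∈ T then K b else 0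

/-- The field on `T` of boundary values `ξ`. -/
def hOut (T : Finset (Site L₁ L₂)) (K : Bond L₁ L₂ → ℝ) (ξ : Site L₁ L₂ → ℝ)
    (x : Site L₁ L₂) : ℝ :=
  (∑ b, if b.1 = x ∧ x ∈ T ∧ tip b ∉ T then K b * ξ (tip b) else 0) +
    ∑ b, if tip b = x ∧ x ∈ T ∧ b.1 ∉ T then K b * ξ b.1 else 0

/-- An angle. -/
abbrev Ang := AddCircle (2 * Real.pi)

noncomputable instance : Fact (0 < 2 * Real.pi) := ⟨by positivity⟩

/-- The cosine of an angle. -/
noncomputable def acos' (θ : Ang) : ℝ := Real.Angle.cos θ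

/-- The sine of an angle. -/
noncomputable def asin' (θ : Ang) : ℝ := Real.Angle.sin θ

/-- The uniform law of an angle at every vertex. -/
noncomputable def angles (L₁ L₂ : ℕ) [NeZero L₁] [NeZero L₂] : Measure (Site L₁ L₂ → Ang) :=
  Measure.pi fun _ => AddCircle.haarAddCircle

/-- The planar partition function. -/
noncomputable def xyZ (K : Bond L₁ L₂ → ℝ) : ℝ :=
  ∫ θ, Real.exp (∑ b, K b * acos' (θ b.1 - θ (tip b))) ∂angles L₁ L₂

/-- The magnetisation at `x` of the axial Ising model in a ball with plus boundary. -/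
noncomputable def armMag (J : Bond L₁ L₂ → ℝ) (W : ℕ) (x : Site L₁ L₂)
    (a : Site L₁ L₂ → ℝ) : ℝ :=
  isE (kIn (ball x W) (kIsing J fun v => if v ∈ ball x W then a v else 1))
    (hOut (ball x W) (kIsing J fun v => if v ∈ ball x W then a v else 1) fun _ => 1)
    fun s => sv (s x)

/-- The law of the absolute value of one component of a uniform unit vector. -/
noncomputable def axisLaw : Measure ℝ := (omega 3).map fun v : Sph 3 => |(v : Vec 3).ofLp 0|

/-- The law of the axial components. -/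
noncomputable def axes (L₁ L₂ : ℕ) [NeZero L₁] [NeZero L₂] : Measure (Site L₁ L₂ → ℝ) :=
  Measure.pi fun _ => axisLaw

/-- The density of the axial components. -/
noncomputable def axisW (J : Bond L₁ L₂ → ℝ) (a : Site L₁ L₂ → ℝ) : ℝ :=
  isZ (kIsing J a) 0 * xyZ (kPlane J a)

/-- The spin of an axial sign, an axial component and an angle. -/
noncomputable def spinVec (s : Bool) (a : ℝ) (θ : Ang) : Vec 3 :=
  WithLp.toLp 2 ![sv s * clip a, perp a * acos' θ, perp a * asin' θ]

/-- The first coordinate vector as a spin. -/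
noncomputable def pole : Sph 3 :=
  ⟨WithLp.toLp 2 ![1, 0, 0], by
    rw [mem_sphere_zero_iff_norm, EuclideanSpace.norm_eq]; simp [Fin.sum_univ_three]⟩

/-- The correlation of the first components in the whole torus. -/
noncomputable def corr3 (J : Bond L₁ L₂ → ℝ) (x y : Site L₁ L₂) : ℝ :=
  (∫ σ, wt J σ * ((σ x : Vec 3).ofLp 0 * (σ y : Vec 3).ofLp 0) ∂freeMeasure 3 (Site L₁ L₂)) /
    ∫ σ, wt J σ ∂freeMeasure 3 (Site L₁ L₂)

/-- Separated sequences of centres starting at `x`. -/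
noncomputable def chains (x : Site L₁ L₂) (W N : ℕ) : Finset (Fin N → Site L₁ L₂) :=
  open scoped Classical in Finset.univ.filter fun u =>
    (∀ i : Fin N, (i : ℕ) = 0 → u i = x) ∧
    (∀ i j : Fin N, (j : ℕ) = i + 1 → td (u i) (u j) ≤ 4 * W + 1) ∧
    ∀ i j : Fin N, i ≠ j → 4 * W < td (u i) (u j)

end Vale.Agent.P163.Gap
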