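import Vale.Agent.P163.Gap.Defs

/-!
The four functions inequality on a finite power of the line, Holley domination, and monotonicity
of Ising expectations in the field.
-/

open MeasureTheory Real Matrix Finset
open scoped BigOperators

namespace Vale.Agent.P163.Gap

section Line

variable (ν : Measure ℝ) [IsProbabilityMeasure ν]

private lemma four_numbers {A B C D : ℝ} (hA : 0 ≤ A) (hB : 0 ≤ B) (hD : 0 ≤ D) (hAC : A ≤ C)
    (hBC : B ≤ C) (h : A * B ≤ C * D) : A + B ≤ C + D := by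
  rcases (hA.trans hAC).eq_or_lt with h0 | hC
  · linarith
  · nlinarith [mul_nonneg (sub_nonneg.2 hAC) (sub_nonneg.2 hBC)]

/-- The four functions inequality on the line. -/
private lemma four_functions_line {f₁ f₂ f₃ f₄ : ℝ → ℝ} (h₁ : Nice f₁) (h₂ : Nice f₂)
    (h₃ : Nice f₃) (h₄ : Nice f₄) (p₁ : 0 ≤ f₁) (p₂ : 0 ≤ f₂) (p₃ : 0 ≤ f₃) (p₄ : 0 ≤ f₄)
    (h : ∀ a b, f₁ a * f₂ b ≤ f₃ (a ⊓ b) * f₄ (a ⊔ b)) :
    (∫ a, f₁ a ∂ν) * ∫ a, f₂ a ∂ν ≤ (∫ a, f₃ a ∂ν) * ∫ a, f₄ a ∂ν := by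
  have i : ∀ {f g : ℝ → ℝ}, Nice f → Nice g →
      Integrable (fun p : ℝ × ℝ => f p.1 * g p.2) (ν.prod ν) :=
    fun hf hg => hf.integrable.mul_prod hg.integrable
  have j : ∀ {f g : ℝ → ℝ}, Nice f → Nice g →
      Integrable (fun p : ℝ × ℝ => f p.2 * g p.1) (ν.prod ν) :=
    fun hf hg => by simpa only [mul_comm] using i hg hf
  have e : ∀ (f g : ℝ → ℝ), ∫ p : ℝ × ℝ, f p.2 * g p.1 ∂ν.prod ν = (∫ a, f a ∂ν) * ∫ a, g a ∂ν :=
    fun f g => by
      rw [show (fun p : ℝ × ℝ => f p.2 * g p.1) = fun p => g p.1 * f p.2 by ext; ring,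
        integral_prod_mul, mul_comm]
  have key : ∀ a b : ℝ, f₁ a * f₂ b + f₁ b * f₂ a ≤ f₃ a * f₄ b + f₃ b * f₄ a := by
    intro a b
    wlog hab : a ≤ b generalizing a b with H
    · linarith [H b a (le_of_not_ge hab)]
    have a1 := h a b
    have a2 := h b a
    rw [inf_eq_left.2 hab, sup_eq_right.2 hab] at a1
    rw [inf_eq_right.2 hab, sup_eq_left.2 hab] at a2
    have aa := h a a
    have bb := h b b
    rw [inf_idem, sup_idem] at aa bb
    refine four_numbers (mul_nonneg (p₁ a) (p₂ b)) (mul_nonneg (p₁ b) (p₂ a))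
      (mul_nonneg (p₃ b) (p₄ a)) a1 a2 ?_
    have := mul_le_mul aa bb (mul_nonneg (p₁ b) (p₂ b)) (mul_nonneg (p₃ a) (p₄ a))
    linarith
  have := integral_mono ((i h₁ h₂).add (j h₁ h₂)) ((i h₃ h₄).add (j h₃ h₄)) fun p => key p.1 p.2
  simp only [Pi.add_apply] at this
  rw [integral_add (i h₁ h₂) (j h₁ h₂), integral_add (i h₃ h₄) (j h₃ h₄), integral_prod_mul,
    integral_prod_mul, e, e] at this
  linarith

/-- The four functions inequality on a power of the line indexed by an initial segment. -/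
private lemma four_functions_fin : ∀ (n : ℕ) {f₁ f₂ f₃ f₄ : (Fin n → ℝ) → ℝ}, Nice f₁ → Nice f₂ →
    Nice f₃ → Nice f₄ → 0 ≤ f₁ → 0 ≤ f₂ → 0 ≤ f₃ → 0 ≤ f₄ →
    (∀ a b, f₁ a * f₂ b ≤ f₃ (a ⊓ b) * f₄ (a ⊔ b)) →
    (∫ a, f₁ a ∂Measure.pi fun _ => ν) * ∫ a, f₂ a ∂Measure.pi (fun _ => ν) ≤
      (∫ a, f₃ a ∂Measure.pi fun _ => ν) * ∫ a, f₄ a ∂Measure.pi (fun _ => ν) := by
  intro n
  induction n with
  | zero =>
    intro f₁ f₂ f₃ f₄ _ _ _ _ _ _ _ _ h
    simp only [integral_unique, probReal_univ, one_smul]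
    have e : ∀ a b : Fin 0 → ℝ, a = b := fun a b => funext fun i => i.elim0
    exact (h _ _).trans_eq (by rw [e (_ ⊓ _), e (_ ⊔ _)])
  | succ n ih =>
    intro f₁ f₂ f₃ f₄ h₁ h₂ h₃ h₄ p₁ p₂ p₃ p₄ h
    set μ := Measure.pi fun _ : Fin n => ν
    have hc : Measurable fun q : (Fin n → ℝ) × ℝ => (Fin.cons q.2 q.1 : Fin (n + 1) → ℝ) :=
      measurable_pi_lambda _ fun i => by
        refine Fin.cases ?_ (fun k => ?_) i
        · simpa using measurable_snd
        · simpa [Function.comp_def] using (measurable_pi_apply k).comp measurable_fst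
    have hsplit : ∀ {f : (Fin (n + 1) → ℝ) → ℝ}, Nice f →
        ∫ a, f a ∂Measure.pi (fun _ => ν) = ∫ y, ∫ t, f (Fin.cons t y) ∂ν ∂μ := by
      intro f hf
      have hp := (measurePreserving_piFinSuccAbove (fun _ : Fin (n + 1) => ν) 0).symm
      rw [← hp.integral_comp' f, integral_prod_symm]
      · simp [μ, MeasurableEquiv.piFinSuccAbove_symm_apply, Fin.consEquiv]
      · exact (hf.comp hp.measurable).integrable
    have hnice : ∀ {f : (Fin (n + 1) → ℝ) → ℝ}, Nice f →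
        Nice fun y : Fin n → ℝ => ∫ t, f (Fin.cons t y) ∂ν := by
      intro f hf
      obtain ⟨C, hC⟩ := hf.2
      refine ⟨((hf.1.comp hc).stronglyMeasurable.integral_prod_right').measurable, C, fun y => ?_⟩
      exact (norm_integral_le_of_norm_le_const (Filter.Eventually.of_forall fun t => hC _)).trans
        (by simp)
    have hslice : ∀ {f : (Fin (n + 1) → ℝ) → ℝ}, Nice f → ∀ y : Fin n → ℝ,
        Nice fun t : ℝ => f (Fin.cons t y) :=
      fun hf y => hf.comp (hc.comp (measurable_const.prodMk measurable_id))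
    rw [hsplit h₁, hsplit h₂, hsplit h₃, hsplit h₄]
    refine ih (hnice h₁) (hnice h₂) (hnice h₃) (hnice h₄)
      (fun y => integral_nonneg fun t => p₁ _) (fun y => integral_nonneg fun t => p₂ _)
      (fun y => integral_nonneg fun t => p₃ _) (fun y => integral_nonneg fun t => p₄ _) fun y z => ?_
    refine four_functions_line ν (hslice h₁ y) (hslice h₂ z) (hslice h₃ _) (hslice h₄ _)
      (fun t => p₁ _) (fun t => p₂ _) (fun t => p₃ _) (fun t => p₄ _) fun t s => ?_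
    have e1 : (Fin.cons t y : Fin (n + 1) → ℝ) ⊓ Fin.cons s z = Fin.cons (t ⊓ s) (y ⊓ z) := by
      ext i; refine Fin.cases ?_ (fun k => ?_) i <;> simp
    have e2 : (Fin.cons t y : Fin (n + 1) → ℝ) ⊔ Fin.cons s z = Fin.cons (t ⊔ s) (y ⊔ z) := by
      ext i; refine Fin.cases ?_ (fun k => ?_) i <;> simp
    simpa [e1, e2] using h (Fin.cons t y) (Fin.cons s z)

end Line

/-- The four functions inequality on a finite power of the line. -/
theorem four_functions_pi {ι : Type*} [Fintype ι] (ν : Measure ℝ) [IsProbabilityMeasure ν]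
    {f₁ f₂ f₃ f₄ : (ι → ℝ) → ℝ} (h₁ : Nice f₁) (h₂ : Nice f₂) (h₃ : Nice f₃) (h₄ : Nice f₄)
    (p₁ : 0 ≤ f₁) (p₂ : 0 ≤ f₂) (p₃ : 0 ≤ f₃) (p₄ : 0 ≤ f₄)
    (h : ∀ a b, f₁ a * f₂ b ≤ f₃ (a ⊓ b) * f₄ (a ⊔ b)) :
    (∫ a, f₁ a ∂Measure.pi fun _ => ν) * ∫ a, f₂ a ∂Measure.pi (fun _ => ν) ≤
      (∫ a, f₃ a ∂Measure.pi fun _ => ν) * ∫ a, f₄ a ∂Measure.pi (fun _ => ν) := by
  let e := (Fintype.equivFin ι).symm
  let Φ := MeasurableEquiv.piCongrLeft (fun _ : ι => ℝ) e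
  have hΦ : MeasurePreserving Φ (Measure.pi fun _ => ν) (Measure.pi fun _ => ν) :=
    measurePreserving_piCongrLeft (fun _ : ι => ν) e
  have hv : ∀ (a : Fin (Fintype.card ι) → ℝ) (i : ι), Φ a i = a (e.symm i) := fun a i => by
    obtain ⟨k, rfl⟩ := e.surjective i
    simp [Φ, MeasurableEquiv.piCongrLeft_apply_apply]
  rw [← hΦ.integral_comp' f₁, ← hΦ.integral_comp' f₂, ← hΦ.integral_comp' f₃,
    ← hΦ.integral_comp' f₄]
  refine four_functions_fin ν _ (h₁.comp Φ.measurable) (h₂.comp Φ.measurable)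
    (h₃.comp Φ.measurable) (h₄.comp Φ.measurable) (fun a => p₁ _) (fun a => p₂ _) (fun a => p₃ _)
    (fun a => p₄ _) fun a b => ?_
  have e1 : Φ a ⊓ Φ b = Φ (a ⊓ b) := funext fun i => by simp [hv]
  have e2 : Φ a ⊔ Φ b = Φ (a ⊔ b) := funext fun i => by simp [hv]
  simpa [Function.comp, e1, e2] using h (Φ a) (Φ b)

private lemma Nice.times {α : Type*} [MeasurableSpace α] {f g : α → ℝ} (hf : Nice f) (hg : Nice g) :
    Nice fun a => f a * g a := by
  obtain ⟨C, hC⟩ := hf.2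
  obtain ⟨C', hC'⟩ := hg.2
  refine ⟨hf.1.mul hg.1, C * C', fun a => ?_⟩
  rw [norm_mul]
  exact mul_le_mul (hC a) (hC' a) (norm_nonneg _) ((norm_nonneg _).trans (hC a))

/-- Holley domination on a finite power of the line. -/
theorem holley_pi {ι : Type*} [Fintype ι] (ν : Measure ℝ) [IsProbabilityMeasure ν]
    {μ₁ μ₂ f : (ι → ℝ) → ℝ} (h₁ : Nice μ₁) (h₂ : Nice μ₂) (hf : Nice f) (p₁ : 0 ≤ μ₁)
    (p₂ : 0 ≤ μ₂) (pf : 0 ≤ f) (hmono : Monotone f)
    (h : ∀ a b, μ₁ a * μ₂ b ≤ μ₁ (a ⊓ b) * μ₂ (a ⊔ b)) :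
    (∫ a, f a * μ₁ a ∂Measure.pi fun _ => ν) * ∫ a, μ₂ a ∂Measure.pi (fun _ => ν) ≤
      (∫ a, f a * μ₂ a ∂Measure.pi fun _ => ν) * ∫ a, μ₁ a ∂Measure.pi (fun _ => ν) := by
  rw [mul_comm (∫ a, f a * μ₂ a ∂Measure.pi fun _ => ν)]
  refine four_functions_pi ν (Nice.times hf h₁) h₂ h₁ (Nice.times hf h₂)
    (fun a => mul_nonneg (pf a) (p₁ a)) p₂ p₁ (fun a => mul_nonneg (pf a) (p₂ a)) fun a b => ?_
  calc f a * μ₁ a * μ₂ b = f a * (μ₁ a * μ₂ b) := mul_assoc _ _ _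
    _ ≤ f (a ⊔ b) * (μ₁ (a ⊓ b) * μ₂ (a ⊔ b)) :=
        mul_le_mul (hmono le_sup_left) (h a b) (mul_nonneg (p₁ a) (p₂ b)) (pf _)
    _ = _ := by ring

variable {L₁ L₂ : ℕ} [NeZero L₁] [NeZero L₂]

/-- Expectations of increasing functions of the signs increase with the field. -/
theorem isE_field_mono {K : Bond L₁ L₂ → ℝ} {h h' : Site L₁ L₂ → ℝ} (hK : ∀ b, 0 ≤ K b)
    (hh : ∀ x, h x ≤ h' x) {f : (Site L₁ L₂ → Bool) → ℝ} (hf : 0 ≤ f) (hmono : Monotone f) :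
    isE K h f ≤ isE K h' f := by
  have hpos : ∀ g : Site L₁ L₂ → ℝ, 0 < ∑ s, isW K g s := fun g =>
    sum_pos (fun s _ => Real.exp_pos _) univ_nonempty
  have hlat : ∀ s t, isW K h s * isW K h' t ≤ isW K h (s ⊓ t) * isW K h' (s ⊔ t) := by
    intro s t
    simp only [isW, ← Real.exp_add]
    refine Real.exp_le_exp.2 ?_
    rw [add_add_add_comm, add_add_add_comm (∑ b, K b * sv ((s ⊓ t) b.1) * sv ((s ⊓ t) (tip b)))]
    simp only [← sum_add_distrib]
    refine add_le_add (sum_le_sum fun b _ => ?_) (sum_le_sum fun x _ => ?_)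
    · have := hK b
      simp only [Pi.inf_apply, Pi.sup_apply]
      cases s b.1 <;> cases s (tip b) <;> cases t b.1 <;> cases t (tip b) <;> simp [sv] <;> linarith
    · have := hh x
      simp only [Pi.inf_apply, Pi.sup_apply]
      cases s x <;> cases t x <;> simp [sv] <;> linarith
  rw [isE, isE, div_le_div_iff₀ (hpos h) (hpos h'), mul_comm (∑ s, isW K h' s * f s)]
  refine four_functions_theorem_univ _ _ _ _ (fun s => mul_nonneg (Real.exp_pos _).le (hf s))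
    (fun s => (Real.exp_pos _).le) (fun s => (Real.exp_pos _).le)
    (fun s => mul_nonneg (Real.exp_pos _).le (hf s)) fun s t => ?_
  calc isW K h s * f s * isW K h' t = f s * (isW K h s * isW K h' t) := by ring
    _ ≤ f (s ⊔ t) * (isW K h (s ⊓ t) * isW K h' (s ⊔ t)) :=
        mul_le_mul (hmono le_sup_left) (hlat s t)
          (mul_nonneg (Real.exp_pos _).le (Real.exp_pos _).le) (hf _)
    _ = _ := by ring

end Vale.Agent.P163.Gap
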