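import Vale.Agent.P163.Gap.Axis
import Vale.Agent.P163.Gap.AxisBounds

/-!
The magnetisation of a ball with plus boundary conditions in axial coordinates.
-/

open MeasureTheory Real Matrix Finset Filter
open scoped BigOperators Topology Pointwise

namespace Vale.Agent.P163.Gap

variable {L₁ L₂ : ℕ} [NeZero L₁] [NeZero L₂]

/-- The coordinate planes do not carry mass. -/
lemma omega_first_zero : omega 3 {v : Sph 3 | (v : Vec 3).ofLp 0 = 0} = 0 := by
  have hs : MeasurableSet {v : Sph 3 | (v : Vec 3).ofLp 0 = 0} :=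
    measurableSet_eq_fun (by fun_prop) measurable_const
  set H : Submodule ℝ (Vec 3) := LinearMap.ker (EuclideanSpace.proj (0 : Fin 3)).toLinearMap with hH
  have hne : H ≠ ⊤ := by
    intro h
    have : (EuclideanSpace.single (0 : Fin 3) (1 : ℝ)) ∈ H := h ▸ Submodule.mem_top
    simp [hH] at this
  have hsub : Set.Ioo (0 : ℝ) 1 • ((↑) '' {v : Sph 3 | (v : Vec 3).ofLp 0 = 0} : Set (Vec 3))
      ⊆ (H : Set (Vec 3)) := by
    rintro w ⟨c, _, _, ⟨v, hv, rfl⟩, rfl⟩
    simp_all [hH]
  rw [omega, Measure.smul_apply, Measure.toSphere_apply' _ hs,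
    measure_mono_null hsub (Measure.addHaar_submodule _ H hne)]
  simp

lemma axisLaw_pos : ∀ᵐ a ∂axisLaw, 0 < a := by
  rw [axisLaw]
  refine (ae_map_iff measurable_axial.aemeasurable measurableSet_Ioi).2 ?_
  filter_upwards [ae_iff.2 (show omega 3 {v : Sph 3 | ¬ (v : Vec 3).ofLp 0 ≠ 0} = 0 by
    simpa using omega_first_zero)] with v hv
  exact abs_pos.2 hv

/-- A continuous function of the axial components is integrable. -/
lemma integrable_axes {f : (Site L₁ L₂ → ℝ) → ℝ} (hf : Continuous f) :
    Integrable f (axes L₁ L₂) := by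
  have hp : IsProbabilityMeasure (axes L₁ L₂) := by unfold axes; infer_instance
  obtain ⟨C, hC⟩ := (isCompact_univ_pi fun _ : Site L₁ L₂ => isCompact_Icc (a := (0 : ℝ))
    (b := 1)).exists_bound_of_continuousOn hf.continuousOn
  refine Integrable.of_bound hf.aestronglyMeasurable C ?_
  have h : ∀ᵐ a ∂axes L₁ L₂, ∀ x, a x ∈ Set.Icc (0 : ℝ) 1 := by
    refine ae_all_iff.2 fun x => ?_
    exact (measurePreserving_eval (fun _ : Site L₁ L₂ => axisLaw) x).quasiMeasurePreserving.ae
      axisLaw_mem
  filter_upwards [h] with a ha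
  exact hC a fun x _ => ha x

lemma continuous_mixA (B : Finset (Site L₁ L₂)) (η : Site L₁ L₂ → ℝ) :
    Continuous fun a : Site L₁ L₂ → ℝ => mixA B η a := by
  refine continuous_pi fun v => ?_
  by_cases h : v ∈ B <;> simp [mixA, h] <;> fun_prop

lemma continuous_xyZ_kPlane (J : Bond L₁ L₂ → ℝ) :
    Continuous fun a : Site L₁ L₂ → ℝ => xyZ (kPlane J a) := by
  have h1 := (axisW_nice J).1
  have h2 : Continuous fun a : Site L₁ L₂ → ℝ => isZ (kIsing J a) 0 := by
    unfold isZ isW kIsing clip; fun_prop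
  exact (h1.div h2 fun a => (isZ_pos _ _).ne').congr fun a =>
    mul_div_cancel_left₀ _ (isZ_pos _ _).ne'

lemma continuous_plusW (J : Bond L₁ L₂ → ℝ) (B : Finset (Site L₁ L₂)) :
    Continuous (plusW J B) := by
  refine Continuous.mul ?_ ((continuous_xyZ_kPlane J).comp (continuous_mixA B _))
  refine (continuous_finsetSum _ fun t _ => ?_).div_const _
  have h : ∀ b, Continuous fun a => kIsing J (mixA B (fun _ => 1) a) b := fun b =>
    (continuous_kIsing J b).comp (continuous_mixA B _)
  unfold isW
  fun_prop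

/-- A truncated linear function tending to the sign. -/
noncomputable def ramp (k : ℕ) (t : ℝ) : ℝ := max (-1) (min 1 (k * t))

lemma continuous_ramp (k : ℕ) : Continuous (ramp k) := by unfold ramp; fun_prop

lemma abs_ramp_le (k : ℕ) (t : ℝ) : |ramp k t| ≤ 1 :=
  abs_le.2 ⟨le_max_left _ _, max_le (by norm_num) (min_le_left _ _)⟩

lemma ramp_sv (k : ℕ) (s : Bool) (t : ℝ) : ramp k (sv s * t) = sv s * ramp k t := by
  cases s
  · simp only [sv, ramp, Bool.false_eq_true, if_false, neg_one_mul, mul_neg]
    rcases le_total (-1) ((k : ℝ) * t) with h | h <;> rcases le_total ((k : ℝ) * t) 1 with h' | h' <;>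
      simp [max_def, min_def] <;> (repeat' split_ifs) <;> linarith
  · simp [sv]

lemma tendsto_ramp (t : ℝ) : Tendsto (fun k => ramp k t) atTop (𝓝 (Real.sign t)) := by
  rcases lt_trichotomy t 0 with h | rfl | h
  · obtain ⟨N, hN⟩ := exists_nat_ge (1 / -t)
    refine tendsto_const_nhds.congr' ?_
    filter_upwards [eventually_ge_atTop N] with k hk
    have : 1 ≤ (k : ℝ) * -t := (div_le_iff₀ (neg_pos.2 h)).1 (hN.trans (Nat.cast_le.2 hk))
    rw [Real.sign_of_neg h, ramp, min_eq_right (by linarith), max_eq_left (by linarith)]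
  · simp [ramp]
  · obtain ⟨N, hN⟩ := exists_nat_ge (1 / t)
    refine tendsto_const_nhds.congr' ?_
    filter_upwards [eventually_ge_atTop N] with k hk
    have : 1 ≤ (k : ℝ) * t := (div_le_iff₀ h).1 (hN.trans (Nat.cast_le.2 hk))
    rw [Real.sign_of_pos h, ramp, min_eq_left this, max_eq_right (by norm_num)]

/-- The spins inside `B`, poles outside. -/
noncomputable def plusVec (B : Finset (Site L₁ L₂)) (v : Site L₁ L₂ → Vec 3) (z : Site L₁ L₂) :
    Vec 3 := if z ∈ B then v z else (pole : Vec 3)

lemma plusVec_spins (B : Finset (Site L₁ L₂)) (s : Site L₁ L₂ → Bool) (a : Site L₁ L₂ → ℝ)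
    (θ : Site L₁ L₂ → Ang) :
    plusVec B (spins s a θ) = spins (mixS B (fun _ => true) s) (mixA B (fun _ => 1) a) θ := by
  funext z
  by_cases h : z ∈ B
  · simp [plusVec, spins, mixS, mixA, h]
  · simp [plusVec, spins, mixS, mixA, spinVec, pole, sv, clip, perp, h]

/-- Integrals against the plus boundary weight in axial coordinates. -/
lemma integral_plus_axes (J : Bond L₁ L₂ → ℝ) (B : Finset (Site L₁ L₂)) {x : Site L₁ L₂}
    (hx : x ∈ B) {φ : ℝ → ℝ} (hφ : Continuous φ) :
    ∫ ζ, wt J (merge B (fun _ => pole) ζ) * φ ((ζ x : Vec 3).ofLp 0)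
        ∂freeMeasure 3 (Site L₁ L₂) =
      ∫ a, (∑ s, isW (kIsing J (mixA B (fun _ => 1) a)) 0 (mixS B (fun _ => true) s) *
          φ (sv (s x) * clip (a x))) / Fintype.card (Site L₁ L₂ → Bool) *
        xyZ (kPlane J (mixA B (fun _ => 1) a)) ∂axes L₁ L₂ := by
  set w : (Site L₁ L₂ → Vec 3) → ℝ := fun v =>
    Real.exp (∑ b, J b * ∑ p, (v (tip b)).ofLp p * (v b.1).ofLp p) with hw
  have hm : ∀ ζ : Conf L₁ L₂, wt J (merge B (fun _ => pole) ζ) =
      w (plusVec B fun z => (ζ z : Vec 3)) := by
    intro ζ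
    rw [wt_eq, hw]
    have e : (fun z => (merge B (fun _ => pole) ζ z : Vec 3)) = plusVec B fun z => (ζ z : Vec 3) := by
      funext z
      by_cases h : z ∈ B <;> simp [merge, plusVec, h]
    simp only [← e]
  have cw : Continuous w := by simp only [hw]; fun_prop
  have cp : Continuous fun v : Site L₁ L₂ → Vec 3 => plusVec B v := by
    refine continuous_pi fun z => ?_
    by_cases h : z ∈ B <;> simp [plusVec, h] <;> fun_prop
  have cg : Continuous fun v : Site L₁ L₂ → Vec 3 => w (plusVec B v) * φ ((v x).ofLp 0) :=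
    (cw.comp cp).mul (hφ.comp (by fun_prop))
  simp only [hm]
  refine (integral_axes (g := fun v => w (plusVec B v) * φ ((v x).ofLp 0)) cg).trans
    (integral_congr_ae (Filter.Eventually.of_forall fun a => ?_))
  dsimp only
  have hval : ∀ (s : Site L₁ L₂ → Bool) θ,
      φ ((spins s a θ x).ofLp 0) = φ (sv (s x) * clip (a x)) := fun s θ => by
    simp [spins, spinVec]
  have hc : ∀ s, Integrable (fun θ => w (plusVec B (spins s a θ)) * φ ((spins s a θ x).ofLp 0))
      (angles L₁ L₂) := fun s => integrable_compact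
    (cg.comp ((continuous_spins s).comp (continuous_const.prodMk continuous_id)))
  rw [integral_div, integral_finsetSum _ fun s _ => hc s]
  simp only [hval, hw, plusVec_spins, integral_mul_const, integral_weight_spins]
  rw [div_mul_eq_mul_div, sum_mul]
  congr 1
  refine sum_congr rfl fun s _ => ?_
  ring

/-- The magnetisation of a ball under plus boundary conditions is at most the contraction bound. -/
theorem integral_armMag_plusW_le (J : Bond L₁ L₂ → ℝ) (W : ℕ) (x : Site L₁ L₂) {ε : ℝ}
    (he : ex J (ball x W) (fun _ => pole) (sgn0 x) ≤ ε) :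
    ∫ a, armMag J W x a * plusW J (ball x W) a ∂axes L₁ L₂ ≤
      ε * ∫ a, plusW J (ball x W) a ∂axes L₁ L₂ := by
  set B := ball x W with hB
  have hp : IsProbabilityMeasure (axes L₁ L₂) := by unfold axes; infer_instance
  have hf := freeMeasure_isProbability (n := 3) (V := Site L₁ L₂)
  have hx : x ∈ B := mem_filter.2 ⟨mem_univ _, by rw [td_self]; exact Nat.zero_le _⟩
  have hmx : ∀ ζ : Conf L₁ L₂, merge B (fun _ => pole) ζ x = ζ x := fun ζ => by simp [merge, hx]
  have hR : ∀ k, ∫ ζ, wt J (merge B (fun _ => pole) ζ) * ramp k ((ζ x : Vec 3).ofLp 0)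
      ∂freeMeasure 3 (Site L₁ L₂) =
      ∫ a, ramp k (clip (a x)) * (armMag J W x a * plusW J B a) ∂axes L₁ L₂ := by
    intro k
    rw [integral_plus_axes J B hx (continuous_ramp k)]
    refine integral_congr_ae (Filter.Eventually.of_forall fun a => ?_)
    dsimp only
    set K := kIsing J (mixA B (fun _ => 1) a) with hK
    have hS : (0 : ℝ) < ∑ s, isW (kIn B K) (hOut B K fun _ => 1) s :=
      sum_pos (fun s _ => Real.exp_pos _) univ_nonempty
    obtain ⟨c, e⟩ : ∃ c, ∀ s, isW K 0 (mixS B (fun _ => true) s) =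
        c * isW (kIn B K) (hOut B K fun _ => 1) s :=
      ⟨_, fun s => by rw [isW_mixS]; simp only [sv, if_true]; rfl⟩
    have harm : armMag J W x a =
        isE (kIn B K) (hOut B K fun _ => 1) fun s => sv (s x) := rfl
    rw [harm, isE, plusW, ← hK]
    simp only [e, ramp_sv]
    rw [← Finset.mul_sum]
    field_simp
    simp only [Finset.mul_sum, Finset.sum_mul]
    refine sum_congr rfl fun s _ => ?_
    ring
  have hD : ∫ ζ, wt J (merge B (fun _ => pole) ζ) ∂freeMeasure 3 (Site L₁ L₂) =
      ∫ a, plusW J B a ∂axes L₁ L₂ := by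
    have h := integral_plus_axes J B hx (φ := fun _ => 1) continuous_const
    simpa only [mul_one, plusW] using h
  have cW : Continuous fun ζ : Conf L₁ L₂ => wt J (merge B (fun _ => pole) ζ) :=
    (show Continuous (wt J) by unfold wt energy3 lin bil; fun_prop).comp
      (continuous_pi fun z => by by_cases h : z ∈ B <;> simp [merge, h] <;> fun_prop)
  have hL : Tendsto (fun k => ∫ ζ, wt J (merge B (fun _ => pole) ζ) * ramp k ((ζ x : Vec 3).ofLp 0)
      ∂freeMeasure 3 (Site L₁ L₂)) atTop
      (𝓝 (∫ ζ, wt J (merge B (fun _ => pole) ζ) * sgn0 x (merge B (fun _ => pole) ζ)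
        ∂freeMeasure 3 (Site L₁ L₂))) := by
    refine tendsto_integral_of_dominated_convergence
      (fun ζ => wt J (merge B (fun _ => pole) ζ))
      (fun k => (cW.mul ((continuous_ramp k).comp (by fun_prop))).stronglyMeasurable.aestronglyMeasurable)
      (integrable_compact cW) (fun k => .of_forall fun ζ => ?_) (.of_forall fun ζ => ?_)
    · rw [Real.norm_eq_abs, abs_mul, abs_of_pos (show 0 < wt J _ from Real.exp_pos _)]
      exact mul_le_of_le_one_right (Real.exp_pos _).le (abs_ramp_le _ _)
    · rw [sgn0, hmx]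
      exact (tendsto_ramp _).const_mul _
  have cA : Continuous fun a => armMag J W x a * plusW J B a :=
    (continuous_armMag J W x).mul (continuous_plusW J B)
  have hA : Tendsto (fun k => ∫ a, ramp k (clip (a x)) * (armMag J W x a * plusW J B a)
      ∂axes L₁ L₂) atTop (𝓝 (∫ a, armMag J W x a * plusW J B a ∂axes L₁ L₂)) := by
    refine tendsto_integral_of_dominated_convergence
      (fun a => |armMag J W x a * plusW J B a|)
      (fun k => ((((continuous_ramp k).comp continuous_clip).comp (continuous_apply x)).mul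
        cA).aestronglyMeasurable)
      (integrable_axes cA).abs (fun k => .of_forall fun a => ?_) ?_
    · rw [Real.norm_eq_abs, abs_mul]
      exact mul_le_of_le_one_left (abs_nonneg _) (abs_ramp_le _ _)
    · filter_upwards [(measurePreserving_eval (fun _ : Site L₁ L₂ => axisLaw) x).quasiMeasurePreserving.ae
        axisLaw_pos] with a ha
      have h : 0 < clip (a x) := lt_min zero_lt_one (lt_max_of_lt_right ha)
      simpa [Real.sign_of_pos h] using
        (tendsto_ramp (clip (a x))).mul_const (armMag J W x a * plusW J B a)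
  have heq := tendsto_nhds_unique (hA.congr fun k => (hR k).symm) hL
  rw [heq, ← hD]
  have hpos : 0 < ∫ ζ, wt J (merge B (fun _ => pole) ζ) ∂freeMeasure 3 (Site L₁ L₂) :=
    integral_exp_pos (integrable_compact cW)
  exact (div_le_iff₀ hpos).1 (by simpa [ex] using he)

end Vale.Agent.P163.Gap
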