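import Vale.Agent.P163.Gap.Pos
import Vale.Agent.P163.Gap.Fkg
import Vale.Agent.P163.Gap.Axis
import Vale.Agent.P163.Gap.Window
import Vale.Agent.P163.Gap.AxisBounds
import Vale.Agent.P163.Gap.Plus

/-!
Separated balls: the axial components are dominated by those under plus boundary conditions.
-/

open MeasureTheory Real Matrix Finset
open scoped BigOperators

namespace Vale.Agent.P163.Gap

variable {L₁ L₂ : ℕ} [NeZero L₁] [NeZero L₂]

omit [NeZero L₁] [NeZero L₂] in
lemma monotone_clip : Monotone clip := fun _ _ h => min_le_min le_rfl (max_le_max le_rfl h)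

lemma clip_one : clip 1 = 1 := by simp [clip]

lemma sv_true : sv true = 1 := rfl

lemma perp_nonneg (a : ℝ) : 0 ≤ perp a := Real.sqrt_nonneg _

lemma perp_anti {a b : ℝ} (h : clip a ≤ clip b) : perp b ≤ perp a := by
  refine Real.sqrt_le_sqrt ?_
  nlinarith [clip_mem a]

lemma perp_eq_of_clip {a b : ℝ} (h : clip a = clip b) : perp a = perp b := by rw [perp, perp, h]

/-- The bound on sums and differences of products by those of the extremes. -/
lemma lat_prod {a₁ a₂ b₁ b₂ : ℝ} (ha₁ : 0 ≤ a₁) (ha₂ : 0 ≤ a₂) (hb₁ : 0 ≤ b₁) (hb₂ : 0 ≤ b₂) :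
    |a₁ * a₂ + b₁ * b₂| ≤ max a₁ b₁ * max a₂ b₂ + min a₁ b₁ * min a₂ b₂ ∧
      |a₁ * a₂ - b₁ * b₂| ≤ max a₁ b₁ * max a₂ b₂ - min a₁ b₁ * min a₂ b₂ := by
  rcases le_total a₁ b₁ with h₁ | h₁ <;> rcases le_total a₂ b₂ with h₂ | h₂ <;>
    simp only [max_eq_left, max_eq_right, min_eq_left, min_eq_right, h₁, h₂, abs_le] <;>
    refine ⟨⟨?_, ?_⟩, ?_, ?_⟩ <;>
    nlinarith [mul_nonneg ha₁ ha₂, mul_nonneg hb₁ hb₂, mul_nonneg ha₁ hb₂, mul_nonneg hb₁ ha₂,
      mul_nonneg (sub_nonneg.2 h₁) (sub_nonneg.2 h₂), mul_le_mul h₁ h₂]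

/-- The same across the boundary. -/
lemma lat_field {α β c : ℝ} (hα : 0 ≤ α) (hβ : 0 ≤ β) (hc : |c| ≤ 1) :
    |α * c + β| ≤ max α β + min α β * c ∧ |α * c - β| ≤ max α β - min α β * c := by
  obtain ⟨h1, h2⟩ := abs_le.1 hc
  rcases le_total α β with h | h <;>
    simp only [max_eq_left, max_eq_right, min_eq_left, min_eq_right, h, abs_le] <;>
    refine ⟨⟨?_, ?_⟩, ?_, ?_⟩ <;>
    nlinarith [mul_nonneg hα (sub_nonneg.2 h2), mul_nonneg hβ (sub_nonneg.2 h2),
      mul_nonneg hα (sub_nonneg.2 h1), mul_nonneg hβ (sub_nonneg.2 h1),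
      mul_nonneg (sub_nonneg.2 h) (sub_nonneg.2 h2), mul_nonneg (sub_nonneg.2 h) (sub_nonneg.2 h1)]

/-- A signed combination of two boundary fields is bounded bond by bond. -/
lemma abs_hOut_le (B : Finset (Site L₁ L₂)) {K K' P Q : Bond L₁ L₂ → ℝ}
    {ξ ξ' : Site L₁ L₂ → ℝ} (s : ℝ)
    (h₁ : ∀ b, b.1 ∈ B → tip b ∉ B →
      |K b * ξ (tip b) + s * (K' b * ξ' (tip b))| ≤ P b * ξ' (tip b) + s * (Q b * ξ (tip b)))
    (h₂ : ∀ b, tip b ∈ B → b.1 ∉ B →
      |K b * ξ b.1 + s * (K' b * ξ' b.1)| ≤ P b * ξ' b.1 + s * (Q b * ξ b.1))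
    (x : Site L₁ L₂) :
    |hOut B K ξ x + s * hOut B K' ξ' x| ≤ hOut B P ξ' x + s * hOut B Q ξ x := by
  simp only [hOut, mul_add, mul_sum]
  have key : ∀ A B C D P Q R S : ℝ, |A + C| ≤ P + R → |B + D| ≤ Q + S →
      |A + B + (C + D)| ≤ P + Q + (R + S) := fun A B C D P Q R S e₁ e₂ => by
    rw [show A + B + (C + D) = A + C + (B + D) by ring]
    linarith [abs_add_le (A + C) (B + D)]
  refine key _ _ _ _ _ _ _ _ ?_ ?_ <;>
    rw [← sum_add_distrib, ← sum_add_distrib] <;>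
    refine le_trans (abs_sum_le_sum_abs _ _) (sum_le_sum fun b _ => ?_)
  · by_cases h : b.1 = x ∧ x ∈ B ∧ tip b ∉ B
    · simp only [if_pos h]
      exact h₁ b (h.1.symm ▸ h.2.1) h.2.2
    · simp [h]
  · by_cases h : tip b = x ∧ x ∈ B ∧ b.1 ∉ B
    · simp only [if_pos h]
      exact h₂ b (h.1.symm ▸ h.2.1) h.2.2
    · simp [h]

lemma hOut_nonneg (B : Finset (Site L₁ L₂)) {K : Bond L₁ L₂ → ℝ} (hK : ∀ b, 0 ≤ K b)
    (x : Site L₁ L₂) : 0 ≤ hOut B K (fun _ => 1) x := by
  refine add_nonneg (sum_nonneg fun b _ => ?_) (sum_nonneg fun b _ => ?_) <;>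
    · split_ifs
      · simpa using hK b
      · exact le_rfl

lemma hOut_le (B : Finset (Site L₁ L₂)) {K K' : Bond L₁ L₂ → ℝ} (h : ∀ b, K b ≤ K' b)
    (x : Site L₁ L₂) : hOut B K (fun _ => 1) x ≤ hOut B K' (fun _ => 1) x := by
  refine add_le_add (sum_le_sum fun b _ => ?_) (sum_le_sum fun b _ => ?_) <;>
    · split_ifs
      · simpa using h b
      · exact le_rfl

lemma kIn_nonneg (B : Finset (Site L₁ L₂)) {K : Bond L₁ L₂ → ℝ} (hK : ∀ b, 0 ≤ K b)
    (b : Bond L₁ L₂) : 0 ≤ kIn B K b := by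
  unfold kIn; split_ifs
  exacts [hK b, le_rfl]

lemma kIn_le (B : Finset (Site L₁ L₂)) {K K' : Bond L₁ L₂ → ℝ} (h : ∀ b, K b ≤ K' b)
    (b : Bond L₁ L₂) : kIn B K b ≤ kIn B K' b := by
  unfold kIn; split_ifs
  exacts [h b, le_rfl]

lemma kIsing_nonneg {J : Bond L₁ L₂ → ℝ} (hJ : ∀ b, 0 ≤ J b) (a : Site L₁ L₂ → ℝ)
    (b : Bond L₁ L₂) : 0 ≤ kIsing J a b :=
  mul_nonneg (mul_nonneg (hJ b) (clip_mem _).1) (clip_mem _).1

lemma kIsing_le {J : Bond L₁ L₂ → ℝ} (hJ : ∀ b, 0 ≤ J b) {a a' : Site L₁ L₂ → ℝ}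
    (h : ∀ v, clip (a v) ≤ clip (a' v)) (b : Bond L₁ L₂) : kIsing J a b ≤ kIsing J a' b :=
  mul_le_mul (mul_le_mul_of_nonneg_left (h _) (hJ b)) (h _) (clip_mem _).1
    (mul_nonneg (hJ b) (clip_mem _).1)

/-- Saturating outside a ball increases its magnetisation. -/
theorem ball_mag_le (J : Bond L₁ L₂ → ℝ) (hJ : ∀ b, 0 ≤ J b) (W : ℕ) (x : Site L₁ L₂)
    (a : Site L₁ L₂ → ℝ) :
    0 ≤ isE (kIn (ball x W) (kIsing J a)) (hOut (ball x W) (kIsing J a) fun _ => 1)
      (fun s => sv (s x)) ∧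
    isE (kIn (ball x W) (kIsing J a)) (hOut (ball x W) (kIsing J a) fun _ => 1)
      (fun s => sv (s x)) ≤ armMag J W x a := by
  have h : ∀ b, kIsing J a b ≤ kIsing J (fun v => if v ∈ ball x W then a v else 1) b :=
    kIsing_le hJ fun v => by
      split_ifs
      · exact le_rfl
      · rw [clip_one]; exact (clip_mem _).2
  exact isE_mono (kIn_nonneg _ (kIsing_nonneg hJ a)) (hOut_nonneg _ (kIsing_nonneg hJ a))
    (kIn_le _ h) (hOut_le _ h) x

lemma armMag_mem (J : Bond L₁ L₂ → ℝ) (hJ : ∀ b, 0 ≤ J b) (W : ℕ) (x : Site L₁ L₂)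
    (a : Site L₁ L₂ → ℝ) : 0 ≤ armMag J W x a ∧ armMag J W x a ≤ 1 :=
  ⟨(isE_mono (kIn_nonneg _ (kIsing_nonneg hJ _)) (hOut_nonneg _ (kIsing_nonneg hJ _))
    (fun _ => le_rfl) (fun _ => le_rfl) x).1,
    (le_abs_self _).trans (abs_isE_le _ _ fun s => (abs_sv _).le)⟩

lemma armMag_mono (J : Bond L₁ L₂ → ℝ) (hJ : ∀ b, 0 ≤ J b) (W : ℕ) (x : Site L₁ L₂) :
    Monotone (armMag J W x) := fun a a' haa => by
  have h : ∀ b, kIsing J (fun v => if v ∈ ball x W then a v else 1) b ≤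
      kIsing J (fun v => if v ∈ ball x W then a' v else 1) b :=
    kIsing_le hJ fun v => by
      split_ifs
      exacts [monotone_clip (haa v), le_rfl]
  exact isE_le (kIn_nonneg _ (kIsing_nonneg hJ _)) (hOut_nonneg _ (kIsing_nonneg hJ _))
    (kIn_le _ h) (hOut_le _ h) x

lemma armMag_congr (J : Bond L₁ L₂ → ℝ) (W : ℕ) (x : Site L₁ L₂) {a a' : Site L₁ L₂ → ℝ}
    (h : ∀ v ∈ ball x W, a v = a' v) : armMag J W x a = armMag J W x a' := by
  have e : (fun v => if v ∈ ball x W then a v else 1) =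
      fun v => if v ∈ ball x W then a' v else 1 := by
    funext v; split_ifs with hv
    exacts [h v hv, rfl]
  simp only [armMag, e]

lemma nice_armMag (J : Bond L₁ L₂ → ℝ) (hJ : ∀ b, 0 ≤ J b) (W : ℕ) (x : Site L₁ L₂) :
    Nice (armMag J W x) :=
  ⟨(continuous_armMag J W x).measurable, 1, fun a => by
    rw [Real.norm_eq_abs, abs_of_nonneg (armMag_mem J hJ W x a).1]
    exact (armMag_mem J hJ W x a).2⟩

lemma axisW_pos (J : Bond L₁ L₂ → ℝ) (a : Site L₁ L₂ → ℝ) : 0 < axisW J a :=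
  mul_pos (isZ_pos _ _) (xyZ_pos _)

lemma nice_axisW (J : Bond L₁ L₂ → ℝ) : Nice (axisW J) := by
  obtain ⟨hc, c, C, -, h⟩ := axisW_nice J
  exact ⟨hc.measurable, C, fun a => by
    rw [Real.norm_eq_abs, abs_of_pos (axisW_pos J a)]; exact (h a).2⟩

/-- The sum over configurations split at `B`. -/
lemma sum_mixS (B : Finset (Site L₁ L₂)) (f : (Site L₁ L₂ → Bool) → ℝ) :
    ∑ σ, ∑ t, f (mixS B σ t) = Fintype.card (Site L₁ L₂ → Bool) * ∑ s, f s := by
  let Φ : ((Site L₁ L₂ → Bool) × (Site L₁ L₂ → Bool)) → (Site L₁ L₂ → Bool) × (Site L₁ L₂ → Bool) :=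
    fun p => (mixS B p.1 p.2, mixS B p.2 p.1)
  have hΦ : Function.Involutive Φ := fun p => by
    refine Prod.ext ?_ ?_ <;> funext v <;> by_cases h : v ∈ B <;> simp [Φ, mixS, h]
  rw [← Fintype.sum_prod_type',
    show ∑ p : (Site L₁ L₂ → Bool) × (Site L₁ L₂ → Bool), f (mixS B p.1 p.2) =
      ∑ p : (Site L₁ L₂ → Bool) × (Site L₁ L₂ → Bool), f p.1 from
      Fintype.sum_equiv hΦ.toPerm _ _ fun p => rfl,
    Fintype.sum_prod_type, mul_sum]
  exact sum_congr rfl fun s _ => by simp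

/-- The partition function given the signs outside `B`. -/
noncomputable def zOut (B : Finset (Site L₁ L₂)) (K : Bond L₁ L₂ → ℝ)
    (σ : Site L₁ L₂ → Bool) : ℝ :=
  (∑ t, isW K 0 (mixS B σ t)) / Fintype.card (Site L₁ L₂ → Bool)

lemma zOut_eq (B : Finset (Site L₁ L₂)) (K : Bond L₁ L₂ → ℝ) (σ : Site L₁ L₂ → Bool) :
    zOut B K σ =
      Real.exp (∑ b, if b.1 ∉ B ∧ tip b ∉ B then K b * sv (σ b.1) * sv (σ (tip b)) else 0) *
        isZ (kIn B K) (hOut B K fun v => sv (σ v)) := by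
  simp only [zOut, isW_mixS, ← mul_sum, isZ, mul_div_assoc]

lemma isZ_eq_sum (B : Finset (Site L₁ L₂)) (K : Bond L₁ L₂ → ℝ) :
    isZ K 0 = (∑ σ, zOut B K σ) / Fintype.card (Site L₁ L₂ → Bool) := by
  have : (Fintype.card (Site L₁ L₂ → Bool) : ℝ) ≠ 0 := by exact_mod_cast Fintype.card_ne_zero
  simp only [zOut, ← sum_div, sum_mixS, isZ]
  field_simp

lemma plusW_eq (J : Bond L₁ L₂ → ℝ) (B : Finset (Site L₁ L₂)) (a : Site L₁ L₂ → ℝ) :
    plusW J B a = zOut B (kIsing J (mixA B (fun _ => 1) a)) (fun _ => true) *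
      xyZ (kPlane J (mixA B (fun _ => 1) a)) := rfl

lemma plusW_pos (J : Bond L₁ L₂ → ℝ) (B : Finset (Site L₁ L₂)) (a : Site L₁ L₂ → ℝ) :
    0 < plusW J B a :=
  mul_pos (div_pos (sum_pos (fun _ _ => Real.exp_pos _) univ_nonempty)
    (Nat.cast_pos.2 Fintype.card_pos)) (xyZ_pos _)

lemma nice_plusW (J : Bond L₁ L₂ → ℝ) (B : Finset (Site L₁ L₂)) : Nice (plusW J B) := by
  obtain ⟨hc, c, C, -, hA⟩ := axisW_nice J
  have hcard : (0 : ℝ) < Fintype.card (Site L₁ L₂ → Bool) := by exact_mod_cast Fintype.card_pos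
  refine ⟨?_, Fintype.card (Site L₁ L₂ → Bool) * C, fun a => ?_⟩
  · exact (continuous_plusW J B).measurable
  · rw [Real.norm_eq_abs, abs_of_pos (plusW_pos J B a)]
    refine le_trans ?_ (mul_le_mul_of_nonneg_left (hA (mixA B (fun _ => 1) a)).2 hcard.le)
    rw [axisW, ← mul_assoc, plusW]
    refine mul_le_mul_of_nonneg_right ?_ (xyZ_pos _).le
    rw [isZ, ← mul_div_assoc]
    refine div_le_div_of_nonneg_right ?_ hcard.le
    rw [← sum_mixS B]
    exact single_le_sum (f := fun σ => ∑ t, isW (kIsing J (mixA B (fun _ => 1) a)) 0 (mixS B σ t))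
      (fun σ _ => sum_nonneg fun t _ => (Real.exp_pos _).le) (mem_univ fun _ => true)

section Lattice

variable (B : Finset (Site L₁ L₂)) (η a b : Site L₁ L₂ → ℝ)

lemma clip_mix_max (v : Site L₁ L₂) : clip (mixA B (fun _ => 1) (a ⊔ b) v) =
    max (clip (mixA B η a v)) (clip (mixA B (fun _ => 1) b v)) := by
  by_cases h : v ∈ B
  · simp only [mixA, if_pos h, Pi.sup_apply]
    exact monotone_clip.map_max
  · simp only [mixA, if_neg h, clip_one, max_eq_right (clip_mem _).2]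

lemma clip_mix_min (v : Site L₁ L₂) : clip (mixA B η (a ⊓ b) v) =
    min (clip (mixA B η a v)) (clip (mixA B (fun _ => 1) b v)) := by
  by_cases h : v ∈ B
  · simp only [mixA, if_pos h, Pi.inf_apply]
    exact monotone_clip.map_min
  · simp only [mixA, if_neg h, clip_one, min_eq_left (clip_mem _).2]

lemma perp_mix_max (v : Site L₁ L₂) : perp (mixA B η (a ⊓ b) v) =
    max (perp (mixA B η a v)) (perp (mixA B (fun _ => 1) b v)) := by
  have h := clip_mix_min B η a b v
  rcases le_total (clip (mixA B η a v)) (clip (mixA B (fun _ => 1) b v)) with h' | h'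
  · rw [max_eq_left (perp_anti h')]
    exact perp_eq_of_clip (h.trans (min_eq_left h'))
  · rw [max_eq_right (perp_anti h')]
    exact perp_eq_of_clip (h.trans (min_eq_right h'))

lemma perp_mix_min (v : Site L₁ L₂) : perp (mixA B (fun _ => 1) (a ⊔ b) v) =
    min (perp (mixA B η a v)) (perp (mixA B (fun _ => 1) b v)) := by
  have h := clip_mix_max B η a b v
  rcases le_total (clip (mixA B η a v)) (clip (mixA B (fun _ => 1) b v)) with h' | h'
  · rw [min_eq_right (perp_anti h')]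
    exact perp_eq_of_clip (h.trans (max_eq_right h'))
  · rw [min_eq_left (perp_anti h')]
    exact perp_eq_of_clip (h.trans (max_eq_left h'))

/-- The planar factors satisfy the lattice condition. -/
lemma plane_lattice {J : Bond L₁ L₂ → ℝ} (hJ : ∀ e, 0 ≤ J e) :
    xyZ (kPlane J (mixA B η a)) * xyZ (kPlane J (mixA B (fun _ => 1) b)) ≤
      xyZ (kPlane J (mixA B η (a ⊓ b))) * xyZ (kPlane J (mixA B (fun _ => 1) (a ⊔ b))) := by
  refine xyZ_mul_le (fun e => ?_) fun e => ?_ <;>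
    simp only [kPlane, perp_mix_max B η a b, perp_mix_min B η a b, mul_assoc]
  · rw [← mul_add, ← mul_add, abs_mul, abs_of_nonneg (hJ e)]
    exact mul_le_mul_of_nonneg_left (lat_prod (perp_nonneg _) (perp_nonneg _) (perp_nonneg _)
      (perp_nonneg _)).1 (hJ e)
  · rw [← mul_sub, ← mul_sub, abs_mul, abs_of_nonneg (hJ e)]
    exact mul_le_mul_of_nonneg_left (lat_prod (perp_nonneg _) (perp_nonneg _) (perp_nonneg _)
      (perp_nonneg _)).2 (hJ e)

/-- The Ising factors given the outside signs satisfy the lattice condition. -/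
lemma ising_lattice {J : Bond L₁ L₂ → ℝ} (hJ : ∀ e, 0 ≤ J e) (σ : Site L₁ L₂ → Bool) :
    zOut B (kIsing J (mixA B η a)) σ *
        zOut B (kIsing J (mixA B (fun _ => 1) b)) (fun _ => true) ≤
      zOut B (kIsing J (mixA B η (a ⊓ b))) σ *
        zOut B (kIsing J (mixA B (fun _ => 1) (a ⊔ b))) fun _ => true := by
  have eout : ∀ (ζ c c' : Site L₁ L₂ → ℝ) (τ : Site L₁ L₂ → Bool),
      (∑ e, if e.1 ∉ B ∧ tip e ∉ B then kIsing J (mixA B ζ c) e * sv (τ e.1) * sv (τ (tip e)) else 0) =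
      ∑ e, if e.1 ∉ B ∧ tip e ∉ B then kIsing J (mixA B ζ c') e * sv (τ e.1) * sv (τ (tip e)) else 0 := by
    intro ζ c c' τ
    refine sum_congr rfl fun e _ => ?_
    split_ifs with h
    · simp only [kIsing, mixA, if_neg h.1, if_neg h.2]
    · rfl
  simp only [zOut_eq]
  rw [eout η (a ⊓ b) a σ, eout (fun _ => 1) (a ⊔ b) b fun _ => true]
  rw [mul_mul_mul_comm]
  conv_rhs => rw [mul_mul_mul_comm, mul_comm (isZ _ _)]
  refine mul_le_mul_of_nonneg_left ?_ (mul_nonneg (Real.exp_pos _).le (Real.exp_pos _).le)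
  set α := fun v => clip (mixA B η a v) with hα
  set β := fun v => clip (mixA B (fun _ => 1) b v) with hβ
  have hM : ∀ v, clip (mixA B (fun _ => 1) (a ⊔ b) v) = max (α v) (β v) := clip_mix_max B η a b
  have hm : ∀ v, clip (mixA B η (a ⊓ b) v) = min (α v) (β v) := clip_mix_min B η a b
  have hα0 : ∀ v, 0 ≤ α v := fun v => (clip_mem _).1
  have hβ0 : ∀ v, 0 ≤ β v := fun v => (clip_mem _).1
  have hout : ∀ v, v ∉ B → β v = 1 ∧ |α v * sv (σ v)| ≤ 1 := by
    intro v hv
    refine ⟨by simp [hβ, mixA, hv, clip_one], ?_⟩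
    rw [abs_mul, abs_sv, mul_one, abs_of_nonneg (hα0 v)]
    exact (clip_mem _).2
  have hj : ∀ (e : Bond L₁ L₂) {X Y : ℝ}, |X| ≤ Y → |J e * X| ≤ J e * Y := fun e X Y h => by
    rw [abs_mul, abs_of_nonneg (hJ e)]; exact mul_le_mul_of_nonneg_left h (hJ e)
  have field : ∀ (s : ℝ), s = 1 ∨ s = -1 → ∀ (e : Bond L₁ L₂) (v w : Site L₁ L₂), w ∉ B →
      |J e * α v * α w * sv (σ w) + s * (J e * β v * β w * sv true)| ≤
        J e * max (α v) (β v) * max (α w) (β w) * sv true +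
          s * (J e * min (α v) (β v) * min (α w) (β w) * sv (σ w)) := by
    intro s hs e v w hw
    obtain ⟨h1, h2⟩ := hout w hw
    have hmax : max (α w) (β w) = 1 := by rw [h1]; exact max_eq_right (clip_mem _).2
    have hmin : min (α w) (β w) = α w := by rw [h1]; exact min_eq_left (clip_mem _).2
    rw [hmax, hmin, h1]
    obtain ⟨g1, g2⟩ := lat_field (hα0 v) (hβ0 v) h2
    rcases hs with rfl | rfl
    · refine le_of_eq_of_le ?_ ((hj e g1).trans (le_of_eq ?_))
      · congr 1; rw [sv_true]; ring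
      · rw [sv_true]; ring
    · refine le_of_eq_of_le ?_ ((hj e g2).trans (le_of_eq ?_))
      · congr 1; rw [sv_true]; ring
      · rw [sv_true]; ring
  have field' : ∀ (s : ℝ), s = 1 ∨ s = -1 → ∀ (e : Bond L₁ L₂), e.1 ∉ B →
      |J e * α e.1 * α (tip e) * sv (σ e.1) + s * (J e * β e.1 * β (tip e) * sv true)| ≤
        J e * max (α e.1) (β e.1) * max (α (tip e)) (β (tip e)) * sv true +
          s * (J e * min (α e.1) (β e.1) * min (α (tip e)) (β (tip e)) * sv (σ e.1)) := by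
    intro s hs e he
    simpa only [mul_right_comm (J e)] using field s hs e (tip e) e.1 he
  refine isZ_mul_le (fun e => ?_) (fun e => ?_) (fun x => ?_) fun x => ?_
  · unfold kIn
    split_ifs
    · simp only [kIsing, hM, hm, mul_assoc, ← mul_add]
      exact hj e (lat_prod (hα0 _) (hα0 _) (hβ0 _) (hβ0 _)).1
    · simp
  · unfold kIn
    split_ifs
    · simp only [kIsing, hM, hm, mul_assoc, ← mul_sub]
      exact hj e (lat_prod (hα0 _) (hα0 _) (hβ0 _) (hβ0 _)).2
    · simp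
  · simpa only [one_mul] using abs_hOut_le B (1 : ℝ) (fun e _ he => by
      simp only [kIsing, hM, hm]; exact field 1 (.inl rfl) e e.1 (tip e) he)
      (fun e _ he => by simp only [kIsing, hM, hm]; exact field' 1 (.inl rfl) e he) x
  · simpa only [neg_one_mul, ← sub_eq_add_neg] using abs_hOut_le B (-1 : ℝ) (fun e _ he => by
      simp only [kIsing, hM, hm]; exact field (-1) (.inr rfl) e e.1 (tip e) he)
      (fun e _ he => by simp only [kIsing, hM, hm]; exact field' (-1) (.inr rfl) e he) x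

/-- The lattice condition between the law given the outside and plus boundary conditions. -/
lemma axis_lattice {J : Bond L₁ L₂ → ℝ} (hJ : ∀ e, 0 ≤ J e) :
    axisW J (mixA B η a) * plusW J B b ≤ axisW J (mixA B η (a ⊓ b)) * plusW J B (a ⊔ b) := by
  simp only [axisW, plusW_eq]
  rw [mul_mul_mul_comm, mul_mul_mul_comm (isZ (kIsing J (mixA B η (a ⊓ b))) 0)]
  have hz : ∀ K σ, 0 ≤ zOut B K σ := fun K σ =>
    div_nonneg (sum_nonneg fun _ _ => (Real.exp_pos _).le) (Nat.cast_nonneg _)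
  refine mul_le_mul ?_ (plane_lattice B η a b hJ) (mul_nonneg (xyZ_pos _).le (xyZ_pos _).le)
    (mul_nonneg (isZ_pos _ _).le (hz _ _))
  simp only [isZ_eq_sum B, div_mul_eq_mul_div, sum_mul]
  exact div_le_div_of_nonneg_right (sum_le_sum fun σ _ => ising_lattice B η a b hJ σ)
    (Nat.cast_nonneg _)

end Lattice

lemma measurable_mixA (B : Finset (Site L₁ L₂)) :
    Measurable fun p : (Site L₁ L₂ → ℝ) × (Site L₁ L₂ → ℝ) => mixA B p.1 p.2 := by
  refine measurable_pi_lambda _ fun v => ?_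
  by_cases h : v ∈ B
  · simpa [mixA, h, Function.comp_def] using (measurable_pi_apply v).comp measurable_snd
  · simpa [mixA, h, Function.comp_def] using (measurable_pi_apply v).comp measurable_fst

lemma mixA_measurePreserving (B : Finset (Site L₁ L₂)) :
    MeasurePreserving (fun p : (Site L₁ L₂ → ℝ) × (Site L₁ L₂ → ℝ) => mixA B p.1 p.2)
      ((axes L₁ L₂).prod (axes L₁ L₂)) (axes L₁ L₂) := by
  unfold axes
  refine ⟨measurable_mixA B, (Measure.pi_eq fun s hs => ?_).symm⟩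
  rw [Measure.map_apply (measurable_mixA B) (.univ_pi hs)]
  have : (fun p : (Site L₁ L₂ → ℝ) × (Site L₁ L₂ → ℝ) => mixA B p.1 p.2) ⁻¹' Set.univ.pi s
      = (Set.univ.pi fun x => if x ∈ B then Set.univ else s x) ×ˢ
        (Set.univ.pi fun x => if x ∈ B then s x else Set.univ) := by
    ext ⟨η, ζ⟩
    simp only [Set.mem_preimage, Set.mem_univ_pi, Set.mem_prod, mixA, ← forall_and]
    refine forall_congr' fun x => ?_
    by_cases hx : x ∈ B <;> simp [hx]
  rw [this, Measure.prod_prod, Measure.pi_pi, Measure.pi_pi, ← prod_mul_distrib]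
  refine prod_congr rfl fun x _ => ?_
  by_cases hx : x ∈ B <;> simp [hx]

/-- One ball is dominated by plus boundary conditions whatever is outside. -/
lemma integral_ball_le (J : Bond L₁ L₂ → ℝ) (hJ : ∀ b, 0 ≤ J b) {W : ℕ} {x : Site L₁ L₂} {ε : ℝ}
    (hε : ex J (ball x W) (fun _ => pole) (sgn0 x) ≤ ε) (η : Site L₁ L₂ → ℝ) :
    ∫ a, armMag J W x a * axisW J (mixA (ball x W) η a) ∂axes L₁ L₂ ≤
      ε * ∫ a, axisW J (mixA (ball x W) η a) ∂axes L₁ L₂ := by
  set B := ball x W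
  have hprob : IsProbabilityMeasure (axes L₁ L₂) := by unfold axes; infer_instance
  have h₁ : Nice fun a => axisW J (mixA B η a) :=
    (nice_axisW J).comp (continuous_mixA B η).measurable
  have h := holley_pi axisLaw h₁ (nice_plusW J B) (nice_armMag J hJ W x)
    (fun a => (axisW_pos J _).le) (fun a => (plusW_pos J B a).le)
    (fun a => (armMag_mem J hJ W x a).1) (armMag_mono J hJ W x)
    fun a b => axis_lattice B η a b hJ
  have hpos : 0 < ∫ a, plusW J B a ∂axes L₁ L₂ := by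
    refine (integral_pos_iff_support_of_nonneg (fun a => (plusW_pos J B a).le)
      (nice_plusW J B).integrable).2 ?_
    rw [Function.support_eq_univ fun a => (plusW_pos J B a).ne', measure_univ]
    exact one_pos
  refine le_of_mul_le_mul_right (h.trans ?_) hpos
  refine (mul_le_mul_of_nonneg_right (integral_armMag_plusW_le J W x hε)
    (integral_nonneg fun a => (axisW_pos J _).le)).trans_eq ?_
  simp only [B, axes]
  ring

/-- The magnetisations of separated balls are dominated by independent plus boundary balls. -/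
theorem integral_prod_armMag_le (J : Bond L₁ L₂ → ℝ) (hJ : ∀ b, 0 ≤ J b) {W N : ℕ} (hW : 1 ≤ W)
    {ε : ℝ} (hε : ∀ x : Site L₁ L₂, ex J (ball x W) (fun _ => pole) (sgn0 x) ≤ ε)
    (u : Fin N → Site L₁ L₂) (hu : ∀ i j, i ≠ j → 4 * W < td (u i) (u j)) :
    ∫ a, (∏ i, armMag J W (u i) a) * axisW J a ∂axes L₁ L₂ ≤
      ε ^ N * ∫ a, axisW J a ∂axes L₁ L₂ := by
  classical
  have hprob : IsProbabilityMeasure (axes L₁ L₂) := by unfold axes; infer_instance
  have hε0 : 0 ≤ ε := by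
    refine nonneg_of_mul_nonneg_left ((integral_nonneg fun a => mul_nonneg
      (armMag_mem J hJ W 0 a).1 (plusW_pos J _ a).le).trans
        (integral_armMag_plusW_le J W 0 (hε 0))) ?_
    refine (integral_pos_iff_support_of_nonneg (fun a => (plusW_pos J _ a).le)
      (nice_plusW J _).integrable).2 ?_
    rw [Function.support_eq_univ fun a => (plusW_pos J _ a).ne', measure_univ]
    exact one_pos
  suffices ∀ s : Finset (Fin N), ∫ a, (∏ i ∈ s, armMag J W (u i) a) * axisW J a ∂axes L₁ L₂ ≤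
      ε ^ s.card * ∫ a, axisW J a ∂axes L₁ L₂ by simpa using this univ
  have hnice : ∀ s : Finset (Fin N), Nice fun a => (∏ i ∈ s, armMag J W (u i) a) * axisW J a := by
    intro s
    obtain ⟨C, hC⟩ := (nice_axisW J).2
    refine ⟨(s.measurable_prod fun i _ => (nice_armMag J hJ W (u i)).1).mul (nice_axisW J).1, C,
      fun a => ?_⟩
    rw [norm_mul, Real.norm_eq_abs, abs_of_nonneg (prod_nonneg fun i _ => (armMag_mem J hJ W _ a).1)]
    exact (mul_le_of_le_one_left (norm_nonneg _) (prod_le_one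
      (fun i _ => (armMag_mem J hJ W _ a).1) fun i _ => (armMag_mem J hJ W _ a).2)).trans (hC a)
  intro s
  induction s using Finset.induction_on with
  | empty => simp
  | @insert i s hi ih =>
    set B := ball (u i) W
    have hmp := mixA_measurePreserving (L₁ := L₁) (L₂ := L₂) B
    have hsplit : ∀ {g : (Site L₁ L₂ → ℝ) → ℝ}, Nice g → ∫ a, g a ∂axes L₁ L₂ =
        ∫ η, ∫ ζ, g (mixA B η ζ) ∂axes L₁ L₂ ∂axes L₁ L₂ := by
      intro g hg
      conv_lhs => rw [← hmp.map_eq,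
        integral_map hmp.measurable.aemeasurable hg.1.aestronglyMeasurable]
      exact integral_prod _ (hg.comp hmp.measurable).integrable
    have hint : ∀ {g : (Site L₁ L₂ → ℝ) → ℝ}, Nice g →
        Integrable (fun η => ∫ ζ, g (mixA B η ζ) ∂axes L₁ L₂) (axes L₁ L₂) := fun hg =>
      (hg.comp hmp.measurable).integrable.integral_prod_left
    have hother : ∀ η ζ : Site L₁ L₂ → ℝ,
        ∏ j ∈ s, armMag J W (u j) (mixA B η ζ) = ∏ j ∈ s, armMag J W (u j) η := by
      intro η ζ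
      refine prod_congr rfl fun j hj => armMag_congr J W _ fun v hv => ?_
      refine if_neg fun hvi => ?_
      have h1 := hu i j (fun h => hi (h ▸ hj))
      have h2 := td_triangle (u i) v (u j)
      simp only [B, ball, mem_filter] at hv hvi
      rw [td_comm v (u j)] at h2
      omega
    have hself : ∀ η ζ : Site L₁ L₂ → ℝ,
        armMag J W (u i) (mixA B η ζ) = armMag J W (u i) ζ := fun η ζ =>
      armMag_congr J W _ fun v hv => if_pos hv
    rw [card_insert_of_notMem hi, pow_succ, mul_right_comm]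
    refine le_trans ?_ (mul_le_mul_of_nonneg_right ih hε0)
    rw [hsplit (hnice _), hsplit (hnice s), ← integral_mul_const]
    refine integral_mono (hint (hnice _)) ((hint (hnice s)).mul_const ε) fun η => ?_
    dsimp only
    rw [show (fun ζ => (∏ j ∈ insert i s, armMag J W (u j) (mixA B η ζ)) * axisW J (mixA B η ζ)) =
        fun ζ => (∏ j ∈ s, armMag J W (u j) η) * (armMag J W (u i) ζ * axisW J (mixA B η ζ)) from
          funext fun ζ => by rw [prod_insert hi, hother, hself]; ring,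
      show (fun ζ => (∏ j ∈ s, armMag J W (u j) (mixA B η ζ)) * axisW J (mixA B η ζ)) =
        fun ζ => (∏ j ∈ s, armMag J W (u j) η) * axisW J (mixA B η ζ) from
          funext fun ζ => by rw [hother],
      integral_const_mul, integral_const_mul, mul_assoc]
    refine mul_le_mul_of_nonneg_left ?_ (prod_nonneg fun j _ => (armMag_mem J hJ W _ η).1)
    rw [mul_comm _ ε]
    exact integral_ball_le J hJ (hε (u i)) η

end Vale.Agent.P163.Gap
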