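import Vale.Agent.P163.Gap.Fkg
import Vale.Agent.P163.Gap.Window

/-!
Signs and bonds: correlations are bounded by products of ball magnetisations along separated
chains. An open bond needs agreeing signs; a flip of a cluster kills what is not connected.
-/

open MeasureTheory Real Matrix Finset
open scoped BigOperators

namespace Vale.Agent.P163.Gap

variable {L₁ L₂ : ℕ} [NeZero L₁] [NeZero L₂]

theorem card_chains_le (x : Site L₁ L₂) (W N : ℕ) :
    (chains x W N).card ≤ ((8 * W + 3) ^ 2) ^ N := by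
  classical
  let D : (Fin N → Site L₁ L₂) → Fin N → Site L₁ L₂ := fun u i =>
    if h : (i : ℕ) = 0 then 0 else u i - u ⟨(i : ℕ) - 1, by omega⟩
  have hmaps : Set.MapsTo D (chains x W N : Set (Fin N → Site L₁ L₂))
      (Fintype.piFinset fun _ : Fin N => ball (0 : Site L₁ L₂) (4 * W + 1) :
        Finset (Fin N → Site L₁ L₂)) := by
    intro u hu
    simp only [chains, coe_filter, mem_univ, true_and] at hu
    refine Finset.mem_coe.2 (Fintype.mem_piFinset.2 fun i => mem_filter.2 ⟨mem_univ _, ?_⟩)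
    by_cases h : (i : ℕ) = 0
    · simp [D, h, td]
    · have := hu.2.1 ⟨(i : ℕ) - 1, by omega⟩ i (Nat.succ_pred_eq_of_ne_zero h).symm
      simpa [D, h, td] using this
  have hinj : Set.InjOn D (chains x W N : Set (Fin N → Site L₁ L₂)) := by
    intro u hu v hv huv
    simp only [chains, coe_filter, mem_univ, true_and] at hu hv
    have : ∀ k : ℕ, ∀ h : k < N, u ⟨k, h⟩ = v ⟨k, h⟩ := by
      intro k
      induction k with
      | zero => intro h; rw [hu.1 ⟨0, h⟩ rfl, hv.1 ⟨0, h⟩ rfl]
      | succ k ih =>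
        intro h
        have e := congrFun huv ⟨k + 1, h⟩
        simp only [D, Nat.add_one_ne_zero, dite_false, Nat.add_sub_cancel] at e
        rwa [ih (by omega), sub_left_inj] at e
    exact funext fun i => this i i.2
  refine (card_le_card_of_injOn D hmaps hinj).trans ?_
  rw [Fintype.card_piFinset, prod_const, card_univ, Fintype.card_fin]
  exact Nat.pow_le_pow_left ((card_ball_le _ _).trans (le_of_eq (by ring))) N

/-! ### Open bonds -/

/-- The law of independent open bonds inside `B`, as a functional. -/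
noncomputable def rs (K : Bond L₁ L₂ → ℝ) (B : Finset (Bond L₁ L₂))
    (f : Finset (Bond L₁ L₂) → ℝ) : ℝ :=
  open scoped Classical in ∑ ω ∈ B.powerset,
    (∏ b ∈ ω, (1 - Real.exp (-(2 * K b)))) * (∏ b ∈ B \ ω, Real.exp (-(2 * K b))) * f ω

/-- A step along an open bond. -/
def Step (ω : Finset (Bond L₁ L₂)) (v w : Site L₁ L₂) : Prop :=
  ∃ b ∈ ω, (b.1 = v ∧ tip b = w) ∨ (b.1 = w ∧ tip b = v)

/-- Connection by open bonds. -/
def Conn (ω : Finset (Bond L₁ L₂)) : Site L₁ L₂ → Site L₁ L₂ → Prop :=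
  Relation.ReflTransGen (Step ω)

/-- A connection from `u` to the outside of `T`. -/
def Arm (T : Finset (Site L₁ L₂)) (u : Site L₁ L₂) (ω : Finset (Bond L₁ L₂)) : Prop :=
  ∃ v, v ∉ T ∧ Conn ω u v

/-- The bonds with an end in `T`. -/
def bnd (T : Finset (Site L₁ L₂)) : Finset (Bond L₁ L₂) :=
  Finset.univ.filter fun b => b.1 ∈ T ∨ tip b ∈ T

/-- The bonds with equal signs. -/
def agree (s : Site L₁ L₂ → Bool) : Finset (Bond L₁ L₂) :=
  Finset.univ.filter fun b => s b.1 = s (tip b)

/-- The bonds with two plus signs. -/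
def plus (s : Site L₁ L₂ → Bool) : Finset (Bond L₁ L₂) :=
  Finset.univ.filter fun b => s b.1 = true ∧ s (tip b) = true

lemma isW_nonneg (K : Bond L₁ L₂ → ℝ) (h : Site L₁ L₂ → ℝ) (s : Site L₁ L₂ → Bool) :
    0 ≤ isW K h s := (Real.exp_pos _).le

/-- The weight of the bonds in `B`. -/
noncomputable def bW (K : Bond L₁ L₂ → ℝ) (B : Finset (Bond L₁ L₂)) (s : Site L₁ L₂ → Bool) : ℝ :=
  Real.exp (∑ b ∈ B, K b * sv (s b.1) * sv (s (tip b)))

/-- The indicator of a proposition. -/
noncomputable def ind01 (P : Prop) : ℝ := open scoped Classical in if P then 1 else 0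

lemma ind01_true {P : Prop} (h : P) : ind01 P = 1 := if_pos h

lemma ind01_false {P : Prop} (h : ¬ P) : ind01 P = 0 := if_neg h

lemma ind01_nonneg (P : Prop) : 0 ≤ ind01 P := by unfold ind01; split_ifs <;> norm_num

lemma ind01_le_one (P : Prop) : ind01 P ≤ 1 := by unfold ind01; split_ifs <;> norm_num

lemma ind01_mono {P Q : Prop} (h : P → Q) : ind01 P ≤ ind01 Q := by
  by_cases hP : P
  · rw [ind01_true hP, ind01_true (h hP)]
  · rw [ind01_false hP]; exact ind01_nonneg Q

lemma ind01_and (P Q : Prop) : ind01 (P ∧ Q) = ind01 P * ind01 Q := by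
  by_cases hP : P <;> by_cases hQ : Q <;> simp [ind01, hP, hQ]

lemma ind01_congr {P Q : Prop} (h : P ↔ Q) : ind01 P = ind01 Q := by rw [propext h]

section rs

variable {K : Bond L₁ L₂ → ℝ} (hK : ∀ b, 0 ≤ K b)

lemma rs_empty (f : Finset (Bond L₁ L₂) → ℝ) : rs K ∅ f = f ∅ := by simp [rs]

lemma rs_insert {b : Bond L₁ L₂} {B : Finset (Bond L₁ L₂)} (hb : b ∉ B)
    (f : Finset (Bond L₁ L₂) → ℝ) : rs K (insert b B) f =
      Real.exp (-(2 * K b)) * rs K B f +
        (1 - Real.exp (-(2 * K b))) * rs K B (fun ω => f (insert b ω)) := by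
  classical
  simp only [rs]
  rw [sum_powerset_insert hb, mul_sum, mul_sum]
  congr 1 <;> refine sum_congr rfl fun ω hω => ?_
  · have hbω : b ∉ ω := fun h => hb (mem_powerset.1 hω h)
    rw [insert_sdiff_of_notMem _ hbω, prod_insert (fun h => hb (mem_sdiff.1 h).1)]
    ring
  · have hbω : b ∉ ω := fun h => hb (mem_powerset.1 hω h)
    have e : insert b B \ insert b ω = B \ ω := by
      rw [insert_sdiff_insert, sdiff_insert_of_notMem hb]
    rw [prod_insert hbω, e]
    ring

lemma rs_smul (B : Finset (Bond L₁ L₂)) (c : ℝ) (f : Finset (Bond L₁ L₂) → ℝ) :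
    rs K B (fun ω => c * f ω) = c * rs K B f := by
  simp only [rs, mul_sum]; exact sum_congr rfl fun ω _ => by ring

lemma rs_sum {α : Type*} (A : Finset α) (B : Finset (Bond L₁ L₂))
    (f : α → Finset (Bond L₁ L₂) → ℝ) :
    rs K B (fun ω => ∑ a ∈ A, f a ω) = ∑ a ∈ A, rs K B (f a) := by
  simp only [rs, mul_sum]; exact sum_comm

lemma rs_congr {B : Finset (Bond L₁ L₂)} {f g : Finset (Bond L₁ L₂) → ℝ}
    (h : ∀ ω, ω ⊆ B → f ω = g ω) : rs K B f = rs K B g :=
  sum_congr rfl fun ω hω => by rw [h ω (mem_powerset.1 hω)]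

lemma rs_const (B : Finset (Bond L₁ L₂)) (c : ℝ) : rs K B (fun _ => c) = c := by
  classical
  induction B using Finset.induction_on with
  | empty => exact rs_empty _
  | insert b B hb ih => rw [rs_insert hb, ih]; ring

include hK in
lemma rs_mono {B : Finset (Bond L₁ L₂)} {f g : Finset (Bond L₁ L₂) → ℝ}
    (h : ∀ ω, ω ⊆ B → f ω ≤ g ω) : rs K B f ≤ rs K B g := by
  classical
  refine sum_le_sum fun ω hω => mul_le_mul_of_nonneg_left (h ω (mem_powerset.1 hω)) ?_
  refine mul_nonneg (prod_nonneg fun b _ => ?_) (prod_nonneg fun b _ => (Real.exp_pos _).le)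
  rw [sub_nonneg, Real.exp_le_one_iff]
  linarith [hK b]

include hK in
lemma rs_nonneg {B : Finset (Bond L₁ L₂)} {f : Finset (Bond L₁ L₂) → ℝ} (h : ∀ ω, 0 ≤ f ω) :
    0 ≤ rs K B f := (rs_const B 0).symm.trans_le (rs_mono hK fun ω _ => h ω)

lemma rs_union {B C : Finset (Bond L₁ L₂)} (h : Disjoint B C) (f : Finset (Bond L₁ L₂) → ℝ) :
    rs K (B ∪ C) f = rs K B (fun a => rs K C fun c => f (a ∪ c)) := by
  classical
  induction B using Finset.induction_on generalizing f with
  | empty => simp [rs_empty]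
  | insert b B hb ih =>
    obtain ⟨hbC, hd⟩ := disjoint_insert_left.1 h
    rw [insert_union, rs_insert (by simp [hb, hbC]), rs_insert hb, ih hd f,
      ih hd fun ω => f (insert b ω)]
    simp only [insert_union]

/-- Bonds in disjoint sets are independent. -/
lemma rs_prod {ι : Type*} (I : Finset ι) (U : Finset (Bond L₁ L₂))
    (B : ι → Finset (Bond L₁ L₂)) (hU : ∀ i ∈ I, B i ⊆ U)
    (hd : ∀ i ∈ I, ∀ j ∈ I, i ≠ j → Disjoint (B i) (B j))
    (f : ι → Finset (Bond L₁ L₂) → ℝ) :
    rs K U (fun ω => ∏ i ∈ I, f i (ω ∩ B i)) = ∏ i ∈ I, rs K (B i) (f i) := by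
  classical
  induction I using Finset.induction_on with
  | empty => simp [rs_const]
  | insert i I hi ih =>
    set C := U \ B i
    have hUC : U = B i ∪ C := (union_sdiff_of_subset (hU i (mem_insert_self i I))).symm
    have hBC : Disjoint (B i) C := disjoint_sdiff
    have hrest : ∀ a, a ⊆ B i → ∀ c, ∏ j ∈ I, f j ((a ∪ c) ∩ B j) = ∏ j ∈ I, f j (c ∩ B j) := by
      intro a ha c
      refine prod_congr rfl fun j hj => ?_
      have hij := hd i (mem_insert_self i I) j (mem_insert_of_mem hj) fun h => hi (h ▸ hj)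
      rw [union_inter_distrib_right, disjoint_iff_inter_eq_empty.1 (disjoint_of_subset_left ha hij),
        empty_union]
    have hIH : rs K C (fun c => ∏ j ∈ I, f j (c ∩ B j)) = ∏ j ∈ I, rs K (B j) (f j) := by
      rw [← ih (fun j hj => hU j (mem_insert_of_mem hj))
        fun j hj k hk => hd j (mem_insert_of_mem hj) k (mem_insert_of_mem hk), hUC, rs_union hBC]
      refine Eq.trans ?_ (rs_congr fun a ha => rs_congr fun c _ => (hrest a ha c).symm)
      rw [rs_const]
    rw [hUC, rs_union hBC, prod_insert hi, ← hIH]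
    have : ∀ a, a ⊆ B i → rs K C (fun c => ∏ j ∈ insert i I, f j ((a ∪ c) ∩ B j)) =
        rs K C (fun c => ∏ j ∈ I, f j (c ∩ B j)) * f i a := by
      intro a ha
      rw [mul_comm, ← rs_smul]
      refine rs_congr fun c hc => ?_
      rw [prod_insert hi, hrest a ha c, union_inter_distrib_right, inter_eq_left.2 ha,
        disjoint_iff_inter_eq_empty.1 (disjoint_of_subset_left hc hBC.symm), union_empty]
    rw [rs_congr this, rs_smul, mul_comm]

/-- Signs and bonds: the joint law seen from the signs and from the bonds. -/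
lemma bW_rs (B : Finset (Bond L₁ L₂)) (s : Site L₁ L₂ → Bool) (f : Finset (Bond L₁ L₂) → ℝ) :
    bW K B s * rs K B (fun ω => f (ω ∩ agree s)) =
      Real.exp (∑ b ∈ B, K b) * rs K B (fun ω => f ω * ind01 (ω ⊆ agree s)) := by
  classical
  induction B using Finset.induction_on generalizing f with
  | empty => simp [bW, rs_empty, ind01]
  | insert b B hb ih =>
    have e : bW K (insert b B) s = Real.exp (K b * sv (s b.1) * sv (s (tip b))) * bW K B s := by
      simp only [bW, sum_insert hb, Real.exp_add]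
    rw [e, rs_insert hb, rs_insert hb, sum_insert hb, Real.exp_add]
    by_cases hs : s b.1 = s (tip b)
    · have hm : b ∈ agree s := mem_filter.2 ⟨mem_univ _, hs⟩
      have e1 : ∀ ω, f (insert b ω ∩ agree s) = f (insert b (ω ∩ agree s)) := fun ω => by
        rw [insert_inter_of_mem hm]
      have e2 : ∀ ω, f (insert b ω) * ind01 (insert b ω ⊆ agree s) =
          f (insert b ω) * ind01 (ω ⊆ agree s) := fun ω => by
        rw [ind01_congr (insert_subset_iff.trans (and_iff_right hm))]
      simp only [e1, e2]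
      have h1 := ih f
      have h2 := ih fun ω => f (insert b ω)
      have hk : K b * sv (s b.1) * sv (s (tip b)) = K b := by
        rw [hs]; cases s (tip b) <;> simp [sv]
      rw [hk]
      linear_combination (Real.exp (K b) * Real.exp (-(2 * K b))) * h1 +
        (Real.exp (K b) * (1 - Real.exp (-(2 * K b)))) * h2
    · have hm : b ∉ agree s := fun h => hs (mem_filter.1 h).2
      have e1 : ∀ ω, f (insert b ω ∩ agree s) = f (ω ∩ agree s) := fun ω => by
        rw [insert_inter_of_notMem hm]
      have e2 : ∀ ω, f (insert b ω) * ind01 (insert b ω ⊆ agree s) = 0 := fun ω => by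
        rw [ind01_false fun h => hm (h (mem_insert_self _ _)), mul_zero]
      simp only [e1, e2]
      have h1 := ih f
      have hk : K b * sv (s b.1) * sv (s (tip b)) = K b + -(2 * K b) := by
        have : sv (s b.1) * sv (s (tip b)) = -1 := by
          revert hs; cases s b.1 <;> cases s (tip b) <;> simp [sv]
        rw [mul_assoc, this]; ring
      rw [hk, Real.exp_add, rs_const]
      linear_combination (Real.exp (K b) * Real.exp (-(2 * K b))) * h1

end rs

/-! ### Connections -/

lemma rtg_mono {α : Type*} {R R' : α → α → Prop} (h : ∀ a b, R a b → R' a b) {a b : α}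
    (hab : Relation.ReflTransGen R a b) : Relation.ReflTransGen R' a b := by
  induction hab with
  | refl => exact Relation.ReflTransGen.refl
  | tail _ hbc ih => exact ih.tail (h _ _ hbc)

omit [NeZero L₁] [NeZero L₂] in
lemma Step.symm' {ω : Finset (Bond L₁ L₂)} {v w : Site L₁ L₂} (h : Step ω v w) : Step ω w v := by
  obtain ⟨b, hb, h⟩ := h
  exact ⟨b, hb, h.symm⟩

omit [NeZero L₁] [NeZero L₂] in
lemma Step.mono {ω ω' : Finset (Bond L₁ L₂)} (hω : ω ⊆ ω') {v w : Site L₁ L₂} (h : Step ω v w) :
    Step ω' v w := by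
  obtain ⟨b, hb, h⟩ := h
  exact ⟨b, hω hb, h⟩

lemma Step.td_le {ω : Finset (Bond L₁ L₂)} {v w : Site L₁ L₂} (h : Step ω v w) : td v w ≤ 1 := by
  obtain ⟨b, -, ⟨rfl, rfl⟩ | ⟨rfl, rfl⟩⟩ := h
  · exact td_tip b
  · rw [td_comm]; exact td_tip b

omit [NeZero L₁] [NeZero L₂] in
lemma Conn.mono {ω ω' : Finset (Bond L₁ L₂)} (hω : ω ⊆ ω') {v w : Site L₁ L₂} (h : Conn ω v w) :
    Conn ω' v w := rtg_mono (fun _ _ => Step.mono hω) h

omit [NeZero L₁] [NeZero L₂] in
lemma Arm.mono {T : Finset (Site L₁ L₂)} {u : Site L₁ L₂} {ω ω' : Finset (Bond L₁ L₂)}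
    (hω : ω ⊆ ω') (h : Arm T u ω) : Arm T u ω' :=
  let ⟨v, hv, hc⟩ := h
  ⟨v, hv, hc.mono hω⟩

/-- Connected vertices have equal signs. -/
lemma conn_sign {s : Site L₁ L₂ → Bool} {ω : Finset (Bond L₁ L₂)} (hω : ω ⊆ agree s)
    {v w : Site L₁ L₂} (h : Conn ω v w) : s w = s v := by
  induction h with
  | refl => rfl
  | tail _ hst ih =>
    obtain ⟨b, hb, ⟨rfl, rfl⟩ | ⟨rfl, rfl⟩⟩ := hst
    · rw [← (mem_filter.1 (hω hb)).2, ih]
    · rw [(mem_filter.1 (hω hb)).2, ih]

/-- A connection leaving `T` has an initial part made of bonds meeting `T`. -/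
lemma arm_local {T : Finset (Site L₁ L₂)} {ω : Finset (Bond L₁ L₂)} {z y : Site L₁ L₂}
    (h : Conn ω z y) (hy : y ∉ T) : Arm T z (ω ∩ bnd T) := by
  induction h using Relation.ReflTransGen.head_induction_on with
  | refl => exact ⟨_, hy, Relation.ReflTransGen.refl⟩
  | @head a c hac _ ih =>
    by_cases ha : a ∈ T
    · obtain ⟨v, hv, hc⟩ := ih
      obtain ⟨b, hb, hbe⟩ := hac
      refine ⟨v, hv, hc.head ⟨b, mem_inter.2 ⟨hb, mem_filter.2 ⟨mem_univ _, ?_⟩⟩, hbe⟩⟩
      rcases hbe with ⟨h1, -⟩ | ⟨-, h1⟩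
      · exact Or.inl (h1 ▸ ha)
      · exact Or.inr (h1 ▸ ha)
    · exact ⟨a, ha, Relation.ReflTransGen.refl⟩

/-- The last exit from a set. -/
lemma last_exit {α : Type*} {R : α → α → Prop} (Q : α → Prop) {z y : α}
    (h : Relation.ReflTransGen R z y) (hz : Q z) (hy : ¬ Q y) :
    ∃ a b, Q a ∧ R a b ∧ ¬ Q b ∧ Relation.ReflTransGen (fun v w => R v w ∧ ¬ Q w) b y := by
  have key : (∃ a b, Q a ∧ R a b ∧ ¬ Q b ∧ Relation.ReflTransGen (fun v w => R v w ∧ ¬ Q w) b y) ∨
      (¬ Q z ∧ Relation.ReflTransGen (fun v w => R v w ∧ ¬ Q w) z y) := by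
    clear hz
    induction h using Relation.ReflTransGen.head_induction_on with
    | refl => exact Or.inr ⟨hy, Relation.ReflTransGen.refl⟩
    | @head a c hac _ ih =>
      rcases ih with h | ⟨hc, hr⟩
      · exact Or.inl h
      · by_cases ha : Q a
        · exact Or.inl ⟨a, c, ha, hac, hc, hr⟩
        · exact Or.inr ⟨ha, hr.head ⟨hac, hc⟩⟩
  exact key.resolve_right fun h => h.1 hz

/-- A long connection passes separated centres, each with an arm. -/
lemma exists_centres (ω : Finset (Bond L₁ L₂)) (W : ℕ) (y : Site L₁ L₂) :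
    ∀ (n : ℕ) (P : Site L₁ L₂ → Prop) (z : Site L₁ L₂), P z →
      Relation.ReflTransGen (fun v w => Step ω v w ∧ P w) z y →
      n * (4 * W + 1) + W < td z y →
      ∃ u : Fin n → Site L₁ L₂, (∀ i : Fin n, (i : ℕ) = 0 → u i = z) ∧
        (∀ i j : Fin n, (j : ℕ) = i + 1 → td (u i) (u j) ≤ 4 * W + 1) ∧
        (∀ i j : Fin n, i ≠ j → 4 * W < td (u i) (u j)) ∧
        (∀ i, P (u i) ∧ Arm (ball (u i) W) (u i) (ω ∩ bnd (ball (u i) W))) := by
  intro n
  induction n with
  | zero => exact fun P z _ _ _ => ⟨Fin.elim0, fun i => i.elim0, fun i => i.elim0,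
      fun i => i.elim0, fun i => i.elim0⟩
  | succ n ih =>
    intro P z hPz hc hd
    rw [add_one_mul] at hd
    obtain ⟨a, b, ha, hab, hb, hby⟩ := last_exit (fun w => td z w ≤ 4 * W) hc
      (by simp [td_self]) (by omega)
    have h1 := td_triangle z a b
    have h2 := hab.1.td_le
    have h3 := td_triangle z b y
    obtain ⟨u, hu0, hu1, hu2, hu3⟩ := ih (fun w => P w ∧ 4 * W < td z w) b
      ⟨hab.2, not_le.1 hb⟩
      (rtg_mono (fun v w h => ⟨h.1.1, h.1.2, not_le.1 h.2⟩) hby) (by omega)
    refine ⟨Fin.cons z u, fun i hi => ?_, fun i j hij => ?_, fun i j hij => ?_, fun i => ?_⟩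
    · rw [show i = 0 from Fin.ext hi, Fin.cons_zero]
    · induction j using Fin.cases with
      | zero => simp at hij
      | succ j =>
        induction i using Fin.cases with
        | zero =>
          rw [Fin.cons_zero, Fin.cons_succ, hu0 j (by simpa using hij)]
          omega
        | succ i =>
          rw [Fin.cons_succ, Fin.cons_succ]
          exact hu1 i j (by simpa using hij)
    · induction j using Fin.cases with
      | zero =>
        induction i using Fin.cases with
        | zero => exact absurd rfl hij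
        | succ i => rw [Fin.cons_zero, Fin.cons_succ, td_comm]; exact (hu3 i).1.2
      | succ j =>
        induction i using Fin.cases with
        | zero => rw [Fin.cons_zero, Fin.cons_succ]; exact (hu3 j).1.2
        | succ i =>
          rw [Fin.cons_succ, Fin.cons_succ]
          exact hu2 i j fun h => hij (congrArg Fin.succ h)
    · induction i using Fin.cases with
      | zero =>
        rw [Fin.cons_zero]
        refine ⟨hPz, arm_local (rtg_mono (fun _ _ h => h.1) hc) fun h => ?_⟩
        have := (mem_filter.1 h).2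
        omega
      | succ i => rw [Fin.cons_succ]; exact ⟨(hu3 i).1.1, (hu3 i).2⟩

/-! ### One ball given its outside -/

/-- `t` on `T` and `e` outside. -/
def mg (T : Finset (Site L₁ L₂)) (e t : Site L₁ L₂ → Bool) (v : Site L₁ L₂) : Bool :=
  if v ∈ T then t v else e v

/-- Flip the signs on a set. -/
noncomputable def flipOn (C : Set (Site L₁ L₂)) (s : Site L₁ L₂ → Bool) (v : Site L₁ L₂) : Bool :=
  open scoped Classical in if v ∈ C then !s v else s v

omit [NeZero L₁] [NeZero L₂] in
lemma flipOn_involutive (C : Set (Site L₁ L₂)) : Function.Involutive (flipOn C) := fun s => by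
  funext v
  by_cases h : v ∈ C <;> simp [flipOn, h]

lemma sum_mg (T : Finset (Site L₁ L₂)) (g : (Site L₁ L₂ → Bool) → ℝ) :
    ∑ e, ∑ t, g (mg T e t) = (Fintype.card (Site L₁ L₂ → Bool) : ℝ) * ∑ s, g s := by
  classical
  have hinv : Function.Involutive fun p : (Site L₁ L₂ → Bool) × (Site L₁ L₂ → Bool) =>
      (mg T p.1 p.2, mg T p.2 p.1) := by
    rintro ⟨e, t⟩
    refine Prod.ext (funext fun v => ?_) (funext fun v => ?_) <;>
      by_cases h : v ∈ T <;> simp [mg, h]
  rw [← Fintype.sum_prod_type' fun e t => g (mg T e t),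
    ← Equiv.sum_comp hinv.toPerm fun p => g (mg T p.1 p.2), Fintype.sum_prod_type]
  have : ∀ e t, mg T (mg T e t) (mg T t e) = e := fun e t =>
    funext fun v => by by_cases h : v ∈ T <;> simp [mg, h]
  simp only [Function.Involutive.coe_toPerm, this, sum_const, card_univ, nsmul_eq_mul, ← mul_sum]

variable {K : Bond L₁ L₂ → ℝ}

/-- The bonds meeting `T` see the law of the inside given the outside. -/
lemma bW_mg (T : Finset (Site L₁ L₂)) (e t : Site L₁ L₂ → Bool) :
    bW K (bnd T) (mg T e t) = isW (kIn T K) (hOut T K fun v => sv (e v)) t := by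
  classical
  simp only [bW, isW, hOut, bnd, add_mul, sum_mul, sum_add_distrib]
  congr 1
  rw [sum_comm (γ := Site L₁ L₂), sum_comm (γ := Site L₁ L₂), sum_filter, ← sum_add_distrib,
    ← sum_add_distrib]
  refine sum_congr rfl fun b _ => ?_
  have e1 : ∑ x, (if b.1 = x ∧ x ∈ T ∧ tip b ∉ T then K b * sv (e (tip b)) else 0) * sv (t x) =
      if b.1 ∈ T ∧ tip b ∉ T then K b * sv (e (tip b)) * sv (t b.1) else 0 := by
    rw [sum_eq_single b.1 (fun x _ hx => by simp [hx.symm]) (by simp)]
    simp
  have e2 : ∑ x, (if tip b = x ∧ x ∈ T ∧ b.1 ∉ T then K b * sv (e b.1) else 0) * sv (t x) =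
      if tip b ∈ T ∧ b.1 ∉ T then K b * sv (e b.1) * sv (t (tip b)) else 0 := by
    rw [sum_eq_single (tip b) (fun x _ hx => by simp [hx.symm]) (by simp)]
    simp
  rw [e1, e2]
  by_cases h1 : b.1 ∈ T <;> by_cases h2 : tip b ∈ T <;> simp [mg, kIn, h1, h2] <;> ring

/-- The remaining bonds do not see the inside. -/
lemma bW_compl_mg (T : Finset (Site L₁ L₂)) (e t : Site L₁ L₂ → Bool) :
    isW K 0 (mg T e t) = bW K (bnd T)ᶜ e * bW K (bnd T) (mg T e t) := by
  classical
  have h : bW K (bnd T)ᶜ (mg T e t) = bW K (bnd T)ᶜ e := by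
    unfold bW
    congr 1
    refine sum_congr rfl fun b hb => ?_
    simp only [mem_compl, bnd, mem_filter, mem_univ, true_and, not_or] at hb
    simp [mg, hb.1, hb.2]
  rw [← h, bW, bW, ← Real.exp_add, sum_compl_add_sum]
  simp [isW]

/-- The probability that an open cluster crosses from `u` given the signs. -/
noncomputable def armP (K : Bond L₁ L₂ → ℝ) (T : Finset (Site L₁ L₂)) (u : Site L₁ L₂)
    (s : Site L₁ L₂ → Bool) : ℝ :=
  rs K (bnd T) fun ω => ind01 (Arm T u (ω ∩ agree s))

/-- The same through plus signs only. -/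
noncomputable def armPlus (K : Bond L₁ L₂ → ℝ) (T : Finset (Site L₁ L₂)) (u : Site L₁ L₂)
    (s : Site L₁ L₂ → Bool) : ℝ :=
  ind01 (s u = true) * rs K (bnd T) fun ω => ind01 (Arm T u (ω ∩ plus s))

lemma plus_mono {s s' : Site L₁ L₂ → Bool} (h : s ≤ s') : plus s ⊆ plus s' := by
  intro b hb
  simp only [plus, mem_filter, mem_univ, true_and] at hb ⊢
  exact ⟨Bool.le_iff_imp.1 (h _) hb.1, Bool.le_iff_imp.1 (h _) hb.2⟩

lemma armPlus_mono (hK : ∀ b, 0 ≤ K b) (T : Finset (Site L₁ L₂)) (u : Site L₁ L₂) :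
    Monotone (armPlus K T u) := fun s s' h =>
  mul_le_mul (ind01_mono (Bool.le_iff_imp.1 (h u)))
    (rs_mono hK fun ω _ => ind01_mono (Arm.mono (inter_subset_inter_left (plus_mono h))))
    (rs_nonneg hK fun ω => ind01_nonneg _) (ind01_nonneg _)

lemma armPlus_nonneg (hK : ∀ b, 0 ≤ K b) (T : Finset (Site L₁ L₂)) (u : Site L₁ L₂)
    (s : Site L₁ L₂ → Bool) : 0 ≤ armPlus K T u s :=
  mul_nonneg (ind01_nonneg _) (rs_nonneg hK fun ω => ind01_nonneg _)

lemma arm_agree_iff {T : Finset (Site L₁ L₂)} {u : Site L₁ L₂} {s : Site L₁ L₂ → Bool}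
    (hu : s u = true) (ω : Finset (Bond L₁ L₂)) :
    Arm T u (ω ∩ agree s) ↔ Arm T u (ω ∩ plus s) := by
  constructor
  · rintro ⟨v, hv, hc⟩
    refine ⟨v, hv, ?_⟩
    clear hv
    induction hc with
    | refl => exact Relation.ReflTransGen.refl
    | @tail a c hua hac ih =>
      refine ih.tail ?_
      have ha := (conn_sign inter_subset_right hua).trans hu
      obtain ⟨b, hb, hbe⟩ := hac
      obtain ⟨hbω, hba⟩ := mem_inter.1 hb
      refine ⟨b, mem_inter.2 ⟨hbω, mem_filter.2 ⟨mem_univ _, ?_⟩⟩, hbe⟩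
      have heq := (mem_filter.1 hba).2
      rcases hbe with ⟨rfl, rfl⟩ | ⟨rfl, rfl⟩
      · exact ⟨ha, heq ▸ ha⟩
      · exact ⟨heq.symm ▸ ha, ha⟩
  · refine Arm.mono (inter_subset_inter_left fun b hb => ?_)
    simp only [plus, agree, mem_filter, mem_univ, true_and] at hb ⊢
    rw [hb.1, hb.2]

lemma agree_not (s : Site L₁ L₂ → Bool) : agree (fun v => !s v) = agree s := by
  simp [agree]

lemma armP_eq (T : Finset (Site L₁ L₂)) (u : Site L₁ L₂) (s : Site L₁ L₂ → Bool) :
    armP K T u s = armPlus K T u s + armPlus K T u fun v => !s v := by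
  have key : ∀ s' : Site L₁ L₂ → Bool, s' u = true →
      armP K T u s' = rs K (bnd T) fun ω => ind01 (Arm T u (ω ∩ plus s')) :=
    fun s' h => rs_congr fun ω _ => ind01_congr (arm_agree_iff h ω)
  cases hu : s u
  · have h := key (fun v => !s v) (by simp [hu])
    simp only [armP, agree_not] at h
    rw [show armP K T u s = _ from h]
    simp [armPlus, hu, ind01]
  · simp [armPlus, hu, key s hu, ind01]

/-- With plus outside, crossing clusters carry the magnetisation. -/
lemma sum_armPlus_le (hK : ∀ b, 0 ≤ K b) (T : Finset (Site L₁ L₂)) {u : Site L₁ L₂}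
    (hu : u ∈ T) :
    ∑ t, isW (kIn T K) (hOut T K fun _ => 1) t * armPlus K T u (mg T (fun _ => true) t) ≤
      ∑ t, isW (kIn T K) (hOut T K fun _ => 1) t * sv (t u) := by
  classical
  set m := fun t => mg T (fun _ => true) t
  have hw : ∀ t, isW (kIn T K) (hOut T K fun _ => 1) t = bW K (bnd T) (m t) := fun t => by
    rw [bW_mg]; simp [sv]
  have hsv : ∀ t, sv (t u) = rs K (bnd T) fun _ => sv (m t u) := fun t => by
    rw [rs_const]; simp [m, mg, hu]
  refine (sum_le_sum fun t _ => mul_le_mul_of_nonneg_left (?_ : _ ≤ armP K T u (m t))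
    (isW_nonneg _ _ _)).trans ?_
  · rw [armP_eq]; exact le_add_of_nonneg_right (armPlus_nonneg hK T u _)
  rw [sum_congr rfl fun t _ => show _ * sv (t u) = bW K (bnd T) (m t) *
    rs K (bnd T) (fun _ => sv (m t u)) by rw [← hsv, hw]]
  simp only [hw, armP]
  have L : ∀ t, bW K (bnd T) (m t) * rs K (bnd T) (fun _ => sv (m t u)) =
      Real.exp (∑ b ∈ bnd T, K b) *
        rs K (bnd T) (fun ω => sv (m t u) * ind01 (ω ⊆ agree (m t))) :=
    fun t => bW_rs (bnd T) (m t) fun _ => sv (m t u)
  have R : ∀ t, bW K (bnd T) (m t) * rs K (bnd T) (fun ω => ind01 (Arm T u (ω ∩ agree (m t)))) =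
      Real.exp (∑ b ∈ bnd T, K b) *
        rs K (bnd T) (fun ω => ind01 (Arm T u ω) * ind01 (ω ⊆ agree (m t))) :=
    fun t => bW_rs (bnd T) (m t) fun ω => ind01 (Arm T u ω)
  simp only [L, R, ← mul_sum, ← rs_sum]
  refine mul_le_mul_of_nonneg_left (rs_mono hK fun ω _ => ?_) (Real.exp_pos _).le
  rw [mul_sum]
  by_cases hA : Arm T u ω
  · refine sum_le_sum fun t _ => ?_
    by_cases hs : ω ⊆ agree (m t)
    · obtain ⟨v, hv, hc⟩ := hA
      have : m t u = true := by
        rw [← conn_sign hs hc]; simp [m, mg, hv]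
      simp [this, sv, ind01_true (show Arm T u ω from ⟨v, hv, hc⟩)]
    · simp [ind01_false hs]
  · refine le_of_eq ?_
    simp only [ind01_false hA, zero_mul, sum_const_zero]
    set C := {v | Conn ω u v}
    have hCT : ∀ v ∈ C, v ∈ T := fun v hv => by_contra fun h => hA ⟨v, h, hv⟩
    have hmt : ∀ t, m (flipOn C t) = flipOn C (m t) := fun t => funext fun v => by
      by_cases hv : v ∈ C
      · simp [m, mg, flipOn, hv, hCT v hv]
      · by_cases hvT : v ∈ T <;> simp [m, mg, flipOn, hv, hvT]
    have hag : ∀ s : Site L₁ L₂ → Bool, ω ⊆ agree (flipOn C s) ↔ ω ⊆ agree s := by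
      intro s
      refine forall_congr' fun b => imp_congr_right fun hb => ?_
      have hiff : b.1 ∈ C ↔ tip b ∈ C :=
        ⟨fun h => Relation.ReflTransGen.tail h ⟨b, hb, Or.inl ⟨rfl, rfl⟩⟩,
          fun h => Relation.ReflTransGen.tail h ⟨b, hb, Or.inr ⟨rfl, rfl⟩⟩⟩
      simp only [agree, mem_filter, mem_univ, true_and]
      by_cases h : b.1 ∈ C
      · simp [flipOn, h, hiff.1 h]
      · simp [flipOn, h, mt hiff.2 h]
    have huC : u ∈ C := Relation.ReflTransGen.refl
    have hflip : ∀ t, sv (m (flipOn C t) u) * ind01 (ω ⊆ agree (m (flipOn C t))) =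
        -(sv (m t u) * ind01 (ω ⊆ agree (m t))) := fun t => by
      rw [hmt, ind01_congr (hag _)]
      cases h : m t u <;> simp [flipOn, huC, h, sv]
    have := Equiv.sum_comp (flipOn_involutive C).toPerm
      fun t => sv (m t u) * ind01 (ω ⊆ agree (m t))
    simp only [Function.Involutive.coe_toPerm, hflip, sum_neg_distrib] at this
    linarith

/-- Whatever is outside, a crossing cluster costs at most twice the magnetisation. -/
lemma sum_armP_le (hK : ∀ b, 0 ≤ K b) (T : Finset (Site L₁ L₂)) {u : Site L₁ L₂} (hu : u ∈ T)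
    (e : Site L₁ L₂ → Bool) :
    ∑ t, isW (kIn T K) (hOut T K fun v => sv (e v)) t * armP K T u (mg T e t) ≤
      2 * isE (kIn T K) (hOut T K fun _ => 1) (fun s => sv (s u)) *
        ∑ t, isW (kIn T K) (hOut T K fun v => sv (e v)) t := by
  classical
  set K' := kIn T K
  set h := hOut T K fun v => sv (e v) with hh
  set h' := hOut T K fun v => sv (!e v) with hh'
  set hp := hOut T K fun _ => 1 with hhp
  have hK' : ∀ b, 0 ≤ K' b := fun b => by simp only [K', kIn]; split_ifs <;> simp [hK b]
  have hpos : ∀ g, 0 < ∑ t, isW K' g t := fun g =>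
    sum_pos (fun s _ => Real.exp_pos _) univ_nonempty
  have hsv1 : ∀ a : Bool, sv a ≤ 1 := fun a => by cases a <;> simp [sv]
  have hle : ∀ e' : Site L₁ L₂ → Bool, ∀ x, hOut T K (fun v => sv (e' v)) x ≤ hp x := fun e' x =>
    add_le_add (sum_le_sum fun b _ => by
      split_ifs with hb
      · exact mul_le_mul_of_nonneg_left (hsv1 _) (hK b)
      · exact le_rfl) (sum_le_sum fun b _ => by
      split_ifs with hb
      · exact mul_le_mul_of_nonneg_left (hsv1 _) (hK b)
      · exact le_rfl)
  set P := fun t => armPlus K T u (mg T (fun _ => true) t) with hP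
  have hPm : Monotone P := fun t t' htt => armPlus_mono hK T u fun v => by
    by_cases hv : v ∈ T <;> simp [mg, hv, htt v]
  have hPn : 0 ≤ P := fun t => armPlus_nonneg hK T u _
  have hmag : isE K' hp P ≤ isE K' hp (fun s => sv (s u)) :=
    div_le_div_of_nonneg_right (sum_armPlus_le hK T hu) (hpos hp).le
  have bound : ∀ e' : Site L₁ L₂ → Bool,
      ∑ t, isW K' (hOut T K fun v => sv (e' v)) t * armPlus K T u (mg T e' t) ≤
        isE K' hp (fun s => sv (s u)) * ∑ t, isW K' (hOut T K fun v => sv (e' v)) t := by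
    intro e'
    refine le_trans (sum_le_sum fun t _ => mul_le_mul_of_nonneg_left
      (?_ : armPlus K T u (mg T e' t) ≤ P t) (isW_nonneg _ _ _)) ?_
    · refine armPlus_mono hK T u fun v => ?_
      by_cases hv : v ∈ T <;> simp [mg, hv]
    · refine (div_le_iff₀ (hpos _)).1 ?_
      exact (isE_field_mono hK' (hle e') hPn hPm).trans hmag
  have hneg : ∀ x, h' x = -h x := fun x => by
    simp only [hh, hh', hOut, neg_add, ← sum_neg_distrib]
    congr 1 <;> refine sum_congr rfl fun b _ => ?_ <;> split_ifs <;>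
      first | simp | (cases e (tip b) <;> cases e b.1 <;> simp [sv])
  have hW : ∀ t, isW K' h' (fun v => !t v) = isW K' h t := fun t => by
    have hn : ∀ a, sv (!a) = -sv a := fun a => by cases a <;> simp [sv]
    simp only [isW, hn, hneg, neg_mul_neg, mul_neg, neg_mul, neg_neg]
  have hnot : Function.Involutive fun t : Site L₁ L₂ → Bool => fun v => !t v := fun t =>
    funext fun v => Bool.not_not _
  have e1 : ∑ t, isW K' h t * armPlus K T u (fun v => !mg T e t v) =
      ∑ t, isW K' h' t * armPlus K T u (mg T (fun v => !e v) t) := by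
    rw [← Equiv.sum_comp hnot.toPerm fun t => isW K' h' t * armPlus K T u (mg T (fun v => !e v) t)]
    refine sum_congr rfl fun t _ => ?_
    simp only [Function.Involutive.coe_toPerm, hW]
    congr 2
    funext v
    by_cases hv : v ∈ T <;> simp [mg, hv]
  have e2 : ∑ t, isW K' h' t = ∑ t, isW K' h t := by
    rw [← Equiv.sum_comp hnot.toPerm fun t => isW K' h' t]
    exact sum_congr rfl fun t _ => hW t
  have b1 := bound e
  have b2 := bound fun v => !e v
  rw [← hh'] at b2
  rw [e2, ← e1] at b2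
  rw [← hh] at b1
  simp only [armP_eq, mul_add, sum_add_distrib]
  linarith

lemma armP_congr {T : Finset (Site L₁ L₂)} {u : Site L₁ L₂} {s s' : Site L₁ L₂ → Bool}
    (h : ∀ b ∈ bnd T, s b.1 = s' b.1 ∧ s (tip b) = s' (tip b)) :
    armP K T u s = armP K T u s' :=
  rs_congr fun ω hω => by
    have : ω ∩ agree s = ω ∩ agree s' := by
      ext b
      simp only [mem_inter, agree, mem_filter, mem_univ, true_and]
      refine and_congr_right fun hb => ?_
      rw [(h b (hω hb)).1, (h b (hω hb)).2]
    rw [this]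

lemma isW_eq_bW (s : Site L₁ L₂ → Bool) : isW K 0 s = bW K univ s := by simp [isW, bW]

/-- A correlation needs a chain of separated balls, each crossed by a cluster. -/
theorem isE_pair_le {K : Bond L₁ L₂ → ℝ} (hK : ∀ b, 0 ≤ K b) {W N : ℕ} (hW : 1 ≤ W)
    (h₁ : 8 * W < L₁) (h₂ : 8 * W < L₂) {x y : Site L₁ L₂}
    (hd : N * (4 * W + 1) + W < td x y) :
    0 ≤ isE K 0 (fun s => sv (s x) * sv (s y)) ∧
    isE K 0 (fun s => sv (s x) * sv (s y)) ≤ ∑ u ∈ chains x W N, ∏ i,
      (2 * isE (kIn (ball (u i) W) K) (hOut (ball (u i) W) K fun _ => 1)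
        fun s => sv (s (u i))) := by
  classical
  have hZ : 0 < ∑ s, isW K 0 s := sum_pos (fun s _ => Real.exp_pos _) univ_nonempty
  -- the correlation is the probability of a connection
  have hcorr : ∑ s, isW K 0 s * (sv (s x) * sv (s y)) =
      ∑ s, isW K 0 s * rs K univ (fun ω => ind01 (Conn (ω ∩ agree s) x y)) := by
    have L : ∀ s, isW K 0 s * (sv (s x) * sv (s y)) = Real.exp (∑ b, K b) *
        rs K univ (fun ω => (sv (s x) * sv (s y)) * ind01 (ω ⊆ agree s)) := fun s => by
      rw [← bW_rs univ s fun _ => sv (s x) * sv (s y), rs_const, isW_eq_bW]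
    have R : ∀ s, isW K 0 s * rs K univ (fun ω => ind01 (Conn (ω ∩ agree s) x y)) =
        Real.exp (∑ b, K b) * rs K univ (fun ω => ind01 (Conn ω x y) * ind01 (ω ⊆ agree s)) :=
      fun s => by rw [isW_eq_bW]; exact bW_rs univ s fun ω => ind01 (Conn ω x y)
    simp only [L, R, ← mul_sum, ← rs_sum]
    congr 1
    refine rs_congr fun ω _ => ?_
    rw [mul_sum]
    by_cases hc : Conn ω x y
    · refine Finset.sum_congr rfl fun s _ => ?_
      by_cases hs : ω ⊆ agree s
      · rw [ind01_true hc, conn_sign hs hc]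
        cases s x <;> simp [sv, ind01_true hs]
      · simp [ind01_false hs]
    · simp only [ind01_false hc, zero_mul, sum_const_zero]
      set C := {v | Conn ω x v}
      have hflip : ∀ s, sv (flipOn C s x) * sv (flipOn C s y) * ind01 (ω ⊆ agree (flipOn C s)) =
          -(sv (s x) * sv (s y) * ind01 (ω ⊆ agree s)) := fun s => by
        have hag : ω ⊆ agree (flipOn C s) ↔ ω ⊆ agree s := by
          refine forall_congr' fun b => imp_congr_right fun hb => ?_
          have hiff : b.1 ∈ C ↔ tip b ∈ C :=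
            ⟨fun h => Relation.ReflTransGen.tail h ⟨b, hb, Or.inl ⟨rfl, rfl⟩⟩,
              fun h => Relation.ReflTransGen.tail h ⟨b, hb, Or.inr ⟨rfl, rfl⟩⟩⟩
          simp only [agree, mem_filter, mem_univ, true_and]
          by_cases h : b.1 ∈ C
          · simp [flipOn, h, hiff.1 h]
          · simp [flipOn, h, mt hiff.2 h]
        have hxC : x ∈ C := Relation.ReflTransGen.refl
        have hyC : y ∉ C := hc
        rw [ind01_congr hag]
        cases h : s x <;> cases h' : s y <;> simp [flipOn, hxC, hyC, h, h', sv]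
      have := Equiv.sum_comp (flipOn_involutive C).toPerm
        fun s => sv (s x) * sv (s y) * ind01 (ω ⊆ agree s)
      simp only [Function.Involutive.coe_toPerm, hflip, sum_neg_distrib] at this
      linarith
  have hdef : isE K 0 (fun s => sv (s x) * sv (s y)) =
      (∑ s, isW K 0 s * rs K univ (fun ω => ind01 (Conn (ω ∩ agree s) x y))) /
        ∑ s, isW K 0 s := by rw [← hcorr]; rfl
  rw [hdef]
  refine ⟨div_nonneg (sum_nonneg fun s _ => mul_nonneg (isW_nonneg _ _ _)
    (rs_nonneg hK fun ω => ind01_nonneg _)) hZ.le, ?_⟩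
  rw [div_le_iff₀ hZ]
  -- every connection carries a chain of arms
  have hunion : ∀ s, rs K univ (fun ω => ind01 (Conn (ω ∩ agree s) x y)) ≤
      ∑ u ∈ chains x W N, rs K univ
        (fun ω => ∏ i, ind01 (Arm (ball (u i) W) (u i) ((ω ∩ bnd (ball (u i) W)) ∩ agree s))) := by
    intro s
    rw [← rs_sum]
    refine rs_mono hK fun ω _ => ?_
    by_cases hc : Conn (ω ∩ agree s) x y
    · rw [ind01_true hc]
      obtain ⟨u, hu0, hu1, hu2, hu3⟩ := exists_centres (ω ∩ agree s) W y N (fun _ => True) x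
        trivial (rtg_mono (fun _ _ h => ⟨h, trivial⟩) hc) hd
      have hu : u ∈ chains x W N := mem_filter.2 ⟨mem_univ _, hu0, hu1, hu2⟩
      refine le_trans (le_of_eq ?_) (single_le_sum (fun v _ => prod_nonneg fun i _ =>
        ind01_nonneg _) hu)
      refine (prod_eq_one fun i _ => ind01_true ?_).symm
      rw [inter_right_comm]
      exact (hu3 i).2
    · rw [ind01_false hc]
      exact sum_nonneg fun v _ => prod_nonneg fun i _ => ind01_nonneg _
  refine (sum_le_sum fun s _ => mul_le_mul_of_nonneg_left (hunion s) (isW_nonneg _ _ _)).trans ?_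
  simp only [fun s => mul_sum (chains x W N) (fun u => rs K univ (fun ω => ∏ i,
    ind01 (Arm (ball (u i) W) (u i) ((ω ∩ bnd (ball (u i) W)) ∩ agree s)))) (isW K 0 s)]
  rw [sum_comm, sum_mul]
  refine sum_le_sum fun u hu => ?_
  obtain ⟨-, -, -, hsep⟩ := mem_filter.1 hu
  -- the arms factorise given the signs, then ball by ball
  have hends : ∀ i, ∀ b ∈ bnd (ball (u i) W), td (u i) b.1 ≤ W + 1 ∧ td (u i) (tip b) ≤ W + 1 := by
    intro i b hb
    have h := td_tip b
    have h' := td_triangle (u i) b.1 (tip b)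
    have h'' := td_triangle (u i) (tip b) b.1
    rw [td_comm (tip b) b.1] at h''
    rcases (mem_filter.1 hb).2 with h3 | h3 <;> have := (mem_filter.1 h3).2 <;> omega
  have hfac : ∀ s, rs K univ
      (fun ω => ∏ i, ind01 (Arm (ball (u i) W) (u i) ((ω ∩ bnd (ball (u i) W)) ∩ agree s))) =
        ∏ i, armP K (ball (u i) W) (u i) s := fun s =>
    rs_prod univ univ (fun i => bnd (ball (u i) W)) (fun i _ => subset_univ _)
      (fun i _ j _ hij => disjoint_left.2 fun b hb hb' => by
        have h1 := (hends i b hb).1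
        have h2 := (hends j b hb').1
        have h3 := td_triangle (u i) b.1 (u j)
        rw [td_comm b.1 (u j)] at h3
        have h4 := hsep i j hij
        omega)
      (fun i η => ind01 (Arm (ball (u i) W) (u i) (η ∩ agree s)))
  simp only [hfac]
  set M := fun i => 2 * isE (kIn (ball (u i) W) K) (hOut (ball (u i) W) K fun _ => 1)
        fun s => sv (s (u i)) with hM
  have hpeel : ∀ I : Finset (Fin N), ∑ s, isW K 0 s * ∏ i ∈ I, armP K (ball (u i) W) (u i) s ≤
      (∏ i ∈ I, M i) * ∑ s, isW K 0 s := by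
    intro I
    induction I using Finset.induction_on with
    | empty => simp
    | insert i I hi ih =>
      set T := ball (u i) W with hT
      have huT : u i ∈ T := mem_filter.2 ⟨mem_univ _, by simp [td_self]⟩
      set G := fun s => ∏ j ∈ I, armP K (ball (u j) W) (u j) s with hG
      have hG0 : ∀ s, 0 ≤ G s := fun s => prod_nonneg fun j _ => rs_nonneg hK fun ω => ind01_nonneg _
      have hGm : ∀ e t, G (mg T e t) = G e := fun e t => prod_congr rfl fun j hj =>
        armP_congr fun b hb => by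
          have hij : i ≠ j := fun h => hi (h ▸ hj)
          have key : ∀ v, td (u j) v ≤ W + 1 → mg T e t v = e v := fun v hv => by
            refine if_neg fun hvT => ?_
            have h1 := (mem_filter.1 hvT).2
            have h3 := td_triangle (u i) v (u j)
            rw [td_comm v (u j)] at h3
            have := hsep i j hij
            omega
          exact ⟨key _ (hends j b hb).1, key _ (hends j b hb).2⟩
      have hcard : (0 : ℝ) < Fintype.card (Site L₁ L₂ → Bool) := by exact_mod_cast Fintype.card_pos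
      have one : ∀ e, ∑ t, isW K 0 (mg T e t) * (armP K T (u i) (mg T e t) * G (mg T e t)) ≤
          M i * ∑ t, isW K 0 (mg T e t) * G (mg T e t) := by
        intro e
        have h := mul_le_mul_of_nonneg_left (sum_armP_le hK T huT e)
          (mul_nonneg (show 0 ≤ bW K (bnd T)ᶜ e from (Real.exp_pos _).le) (hG0 e))
        simp only [bW_compl_mg, hGm, bW_mg]
        calc _ = bW K (bnd T)ᶜ e * G e * ∑ t, isW (kIn T K) (hOut T K fun v => sv (e v)) t *
              armP K T (u i) (mg T e t) := by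
              rw [mul_sum]; exact sum_congr rfl fun t _ => by ring
          _ ≤ _ := h
          _ = _ := by
              simp only [hM, ← hT, mul_sum]
              exact sum_congr rfl fun t _ => by ring
      have h2 := sum_le_sum fun e (_ : e ∈ (univ : Finset (Site L₁ L₂ → Bool))) => one e
      rw [← mul_sum, sum_mg T fun s => isW K 0 s * (armP K T (u i) s * G s),
        sum_mg T fun s => isW K 0 s * G s, mul_left_comm] at h2
      have h3 := le_of_mul_le_mul_left h2 hcard
      have hM0 : 0 ≤ M i := by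
        have h4 := sum_armPlus_le hK T huT
        refine mul_nonneg two_pos.le (div_nonneg (le_trans (sum_nonneg fun t _ => ?_) h4)
          (sum_nonneg fun t _ => (isW_nonneg _ _ _)))
        exact mul_nonneg (isW_nonneg _ _ _) (armPlus_nonneg hK _ _ _)
      calc ∑ s, isW K 0 s * ∏ j ∈ insert i I, armP K (ball (u j) W) (u j) s
          = ∑ s, isW K 0 s * (armP K T (u i) s * G s) := by
            refine sum_congr rfl fun s _ => ?_
            rw [prod_insert hi]
        _ ≤ M i * ∑ s, isW K 0 s * G s := h3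
        _ ≤ M i * ((∏ j ∈ I, M j) * ∑ s, isW K 0 s) := mul_le_mul_of_nonneg_left ih hM0
        _ = _ := by rw [prod_insert hi]; simp only [hM, ← mul_assoc]
  exact hpeel univ

end Vale.Agent.P163.Gap
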