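import Vale.Agent.P163.Gap.Defs
import Vale.Agent.P163.Lattice

/-!
From n components to three, and from free volumes to tori.
-/

open MeasureTheory Real Matrix Finset Metric
open scoped BigOperators RealInnerProductSpace Pointwise

namespace Vale.Agent.P163.Gap

variable {L₁ L₂ : ℕ} [NeZero L₁] [NeZero L₂]

/-- The bonds of a set as ordered pairs of vertices. -/
def pairsOf (A : Finset (Bond L₁ L₂)) : Finset (Site L₁ L₂ × Site L₁ L₂) :=
  open scoped Classical in A.image fun b => (b.1, tip b)

section radial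

/-- The polar coordinates. -/
noncomputable def polarMap (p : Sph 3 × Set.Ioi (0 : ℝ)) : Vec 3 := (p.2 : ℝ) • (p.1 : Vec 3)

lemma polarMap_mp : MeasurePreserving polarMap
    (((volume : Measure (Vec 3)).toSphere).prod
      (Measure.volumeIoiPow (Module.finrank ℝ (Vec 3) - 1)))
    (volume : Measure (Vec 3)) := by
  have h1 := (Measure.measurePreserving_homeomorphUnitSphereProd
    (volume : Measure (Vec 3))).symm (homeomorphUnitSphereProd (Vec 3)).toMeasurableEquiv
  have h2 : MeasurePreserving (Subtype.val : ({(0 : Vec 3)}ᶜ : Set (Vec 3)) → Vec 3)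
      ((volume : Measure (Vec 3)).comap (↑)) volume := by
    refine ⟨measurable_subtype_coe, ?_⟩
    rw [map_comap_subtype_coe (measurableSet_singleton (0 : Vec 3)).compl,
      Measure.restrict_eq_self_of_ae_mem (ae_iff.2 (by simp))]
  have e : polarMap = (Subtype.val : ({(0 : Vec 3)}ᶜ : Set (Vec 3)) → Vec 3) ∘
      (homeomorphUnitSphereProd (Vec 3)).toMeasurableEquiv.symm := rfl
  rw [e]
  exact h2.comp h1

lemma omega_smul_univ (n : ℕ) [NeZero n] :
    (volume : Measure (Vec n)).toSphere Set.univ • omega n = (volume : Measure (Vec n)).toSphere := by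
  rw [omega, smul_smul, ENNReal.mul_inv_cancel ?_ (measure_ne_top _ _), one_smul]
  rw [Measure.measure_univ_ne_zero]
  exact Measure.toSphere_ne_zero _

/-- Replace the direction of a vector, keeping its length. -/
noncomputable def radial (z : Vec 3 × Sph 3) : Vec 3 := ‖z.1‖ • (z.2 : Vec 3)

lemma radial_mp : MeasurePreserving radial
    ((volume : Measure (Vec 3)).prod (omega 3)) (volume : Measure (Vec 3)) := by
  have := omega_isProbability (n := 3)
  set σ := (volume : Measure (Vec 3)).toSphere with hσ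
  set ν := Measure.volumeIoiPow (Module.finrank ℝ (Vec 3) - 1) with hν
  have hm : Measurable radial := by
    unfold radial
    fun_prop
  refine ⟨hm, ?_⟩
  have h1 : MeasurePreserving (Prod.map polarMap id) ((σ.prod ν).prod (omega 3))
      ((volume : Measure (Vec 3)).prod (omega 3)) := polarMap_mp.prod (MeasurePreserving.id _)
  have e : radial ∘ Prod.map polarMap id =
      polarMap ∘ Prod.swap ∘ Prod.map Prod.snd id := by
    funext z
    have hs : 0 < (z.1.2 : ℝ) := z.1.2.2
    simp [radial, polarMap, norm_smul, abs_of_pos hs]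
  rw [← h1.map_eq, Measure.map_map hm h1.measurable, e,
    ← Measure.map_map polarMap_mp.measurable (by fun_prop),
    ← Measure.map_map measurable_swap (by fun_prop),
    ← Measure.map_prod_map _ _ measurable_snd measurable_id, Measure.map_snd_prod,
    Measure.map_id, Measure.prod_smul_left, Measure.map_smul, Measure.prod_swap,
    ← Measure.prod_smul_left, hσ, omega_smul_univ]
  exact polarMap_mp.map_eq

variable {k : ℕ}

/-- The first three and the remaining components. -/
noncomputable def parts (k : ℕ) : Vec (3 + k) ≃ₗᵢ[ℝ] WithLp 2 (Vec 3 × Vec k) :=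
  (LinearIsometryEquiv.piLpCongrLeft 2 ℝ ℝ finSumFinEquiv.symm).trans
    (PiLp.sumPiLpEquivProdLpPiLp 2 _)

/-- The length of the first three components. -/
noncomputable def len3 (v : Vec (3 + k)) : ℝ := ‖(parts k v).fst‖

/-- A new direction for the first three components. -/
noncomputable def redir (z : Vec (3 + k) × Sph 3) : Vec (3 + k) :=
  (parts k).symm (WithLp.toLp 2 (radial ((parts k z.1).fst, z.2), (parts k z.1).snd))

lemma inner_redir (v w : Vec (3 + k)) (t s : Sph 3) :
    ⟪redir (v, t), redir (w, s)⟫ =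
      len3 v * len3 w * ⟪(t : Vec 3), (s : Vec 3)⟫ + ⟪(parts k v).snd, (parts k w).snd⟫ := by
  simp only [redir, LinearIsometryEquiv.inner_map_map, WithLp.prod_inner_apply, radial, len3,
    real_inner_smul_left, real_inner_smul_right]
  ring

lemma norm_redir (v : Vec (3 + k)) (t : Sph 3) : ‖redir (v, t)‖ = ‖v‖ := by
  rw [norm_eq_sqrt_real_inner, norm_eq_sqrt_real_inner (x := v), inner_redir,
    ← (parts k).inner_map_map v v, WithLp.prod_inner_apply]
  simp [len3, pow_two]

lemma redir_smul {c : ℝ} (hc : 0 ≤ c) (v : Vec (3 + k)) (t : Sph 3) :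
    redir (c • v, t) = c • redir (v, t) := by
  simp only [redir, radial, map_smul, WithLp.smul_fst, WithLp.smul_snd, norm_smul,
    Real.norm_eq_abs, abs_of_nonneg hc, mul_smul]
  rw [← map_smul]
  congr 1

@[fun_prop]
lemma continuous_redir : Continuous (redir : Vec (3 + k) × Sph 3 → Vec (3 + k)) := by
  unfold redir radial
  fun_prop

lemma shuffle_mp {α β γ δ : Type*} [MeasurableSpace α] [MeasurableSpace β] [MeasurableSpace γ]
    [MeasurableSpace δ] {a : Measure α} {b : Measure β} {c : Measure γ} {d : Measure δ}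
    [SFinite a] [SFinite b] [SFinite c] [SFinite d] {f : α × γ → δ}
    (hf : MeasurePreserving f (a.prod c) d) :
    MeasurePreserving (fun p : (α × β) × γ => (f (p.1.1, p.2), p.1.2)) ((a.prod b).prod c)
      (d.prod b) :=
  (hf.prod (MeasurePreserving.id b)).comp
    (((measurePreserving_prodAssoc a c b).symm MeasurableEquiv.prodAssoc).comp
      (((MeasurePreserving.id a).prod
        (Measure.measurePreserving_swap (μ := b) (ν := c))).comp
        (measurePreserving_prodAssoc a b c)))

lemma redir_mp : MeasurePreserving (redir (k := k))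
    ((volume : Measure (Vec (3 + k))).prod (omega 3)) volume := by
  have := omega_isProbability (n := 3)
  have he : MeasurePreserving (fun v : Vec (3 + k) => WithLp.ofLp (parts k v)) volume
      ((volume : Measure (Vec 3)).prod (volume : Measure (Vec k))) :=
    (WithLp.volume_preserving_ofLp (Vec 3) (Vec k)).comp (parts k).measurePreserving
  have hs : MeasurePreserving (fun p : Vec 3 × Vec k => (parts k).symm (WithLp.toLp 2 p))
      ((volume : Measure (Vec 3)).prod (volume : Measure (Vec k))) volume :=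
    (parts k).symm.measurePreserving.comp (WithLp.volume_preserving_toLp (Vec 3) (Vec k))
  have h1 := he.prod (MeasurePreserving.id (omega 3))
  have h5 : MeasurePreserving (fun p : (Vec 3 × Vec k) × Sph 3 => (radial (p.1.1, p.2), p.1.2))
      (((volume : Measure (Vec 3)).prod (volume : Measure (Vec k))).prod (omega 3))
      ((volume : Measure (Vec 3)).prod (volume : Measure (Vec k))) := shuffle_mp radial_mp
  have e : (redir (k := k)) = (fun p : Vec 3 × Vec k => (parts k).symm (WithLp.toLp 2 p)) ∘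
      ((fun p : (Vec 3 × Vec k) × Sph 3 => (radial (p.1.1, p.2), p.1.2)) ∘
        Prod.map (fun v : Vec (3 + k) => WithLp.ofLp (parts k v)) id) := by
    funext z
    simp only [redir, Function.comp_apply, Prod.map_fst, Prod.map_snd, id_eq, WithLp.ofLp_fst,
      WithLp.ofLp_snd]
  rw [e]
  exact hs.comp (h5.comp h1)

lemma norm_redir_spin (v : Sph (3 + k)) (t : Sph 3) :
    redir ((v : Vec (3 + k)), t) ∈ sphere (0 : Vec (3 + k)) 1 := by
  rw [mem_sphere_zero_iff_norm, norm_redir]
  exact norm_spin v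

/-- A new direction for the first three components of a spin. -/
noncomputable def redirS (z : Sph (3 + k) × Sph 3) : Sph (3 + k) :=
  ⟨redir ((z.1 : Vec (3 + k)), z.2), norm_redir_spin z.1 z.2⟩

@[fun_prop]
lemma continuous_redirS : Continuous (redirS : Sph (3 + k) × Sph 3 → Sph (3 + k)) := by
  unfold redirS
  fun_prop

omit [NeZero L₁] [NeZero L₂] in
lemma measurableSet_cone {n : ℕ} {s : Set (Sph n)} (hs : MeasurableSet s) :
    MeasurableSet (Set.Ioo (0 : ℝ) 1 • ((↑) '' s : Set (Vec n))) := by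
  have e : Set.Ioo (0 : ℝ) 1 • ((↑) '' s : Set (Vec n)) =
      (↑) '' (homeomorphUnitSphereProd (Vec n) ⁻¹' s ×ˢ Set.Iio (⟨1, Set.mem_Ioi.2 one_pos⟩ : Set.Ioi (0 : ℝ))) := by
    symm
    rw [← Set.image2_smul, Set.image2_image_right, ← Homeomorph.image_symm, Set.image_image,
      show Set.Ioo (0 : ℝ) 1 = Subtype.val '' Set.Iio (⟨1, Set.mem_Ioi.2 one_pos⟩ : Set.Ioi (0 : ℝ)) from
        (Set.image_subtype_val_Ioi_Iio (a := (0 : ℝ)) ⟨1, Set.mem_Ioi.2 one_pos⟩).symm,
      Set.image2_image_left, Set.image2_swap,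
      ← Set.image_prod]
    rfl
  rw [e]
  exact (MeasurableEmbedding.subtype_coe (measurableSet_singleton _).compl).measurableSet_image.2
    ((homeomorphUnitSphereProd (Vec n)).measurable (hs.prod measurableSet_Iio))

lemma redirS_mp : MeasurePreserving (redirS (k := k))
    ((omega (3 + k)).prod (omega 3)) (omega (3 + k)) := by
  have := omega_isProbability (n := 3)
  have := omega_isProbability (n := 3 + k)
  have hm : Measurable (redirS (k := k)) := continuous_redirS.measurable
  refine ⟨hm, Measure.ext fun s hs => ?_⟩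
  set K := Set.Ioo (0 : ℝ) 1 • ((↑) '' s : Set (Vec (3 + k))) with hK
  have key : ∀ t : Sph 3,
      Set.Ioo (0 : ℝ) 1 • ((↑) '' {v : Sph (3 + k) | redirS (v, t) ∈ s} : Set (Vec (3 + k))) =
        {w | redir (w, t) ∈ K} := by
    intro t
    ext w
    simp only [hK, Set.mem_smul, Set.mem_image, Set.mem_ofPred_eq]
    constructor
    · rintro ⟨c, hc, _, ⟨v, hv, rfl⟩, rfl⟩
      exact ⟨c, hc, _, ⟨_, hv, rfl⟩, (redir_smul hc.1.le _ _).symm⟩
    · rintro ⟨c, hc, _, ⟨u, hu, rfl⟩, h⟩
      have hw : ‖w‖ = c := by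
        rw [← norm_redir w t, ← h, norm_smul, norm_spin, mul_one, Real.norm_eq_abs,
          abs_of_pos hc.1]
      have hv : c⁻¹ • w ∈ sphere (0 : Vec (3 + k)) 1 := by
        rw [mem_sphere_zero_iff_norm, norm_smul, hw, Real.norm_eq_abs,
          abs_of_pos (inv_pos.2 hc.1), inv_mul_cancel₀ hc.1.ne']
      refine ⟨c, hc, _, ⟨⟨_, hv⟩, ?_, rfl⟩, smul_inv_smul₀ hc.1.ne' w⟩
      convert hu using 1
      ext1
      simp only [redirS]
      rw [redir_smul (inv_pos.2 hc.1).le, ← h, inv_smul_smul₀ hc.1.ne']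
  rw [Measure.map_apply hm hs, Measure.prod_apply_symm (hm hs)]
  simp only [Set.preimage]
  rw [show omega (3 + k) = ((volume : Measure (Vec (3 + k))).toSphere Set.univ)⁻¹ •
    (volume : Measure (Vec (3 + k))).toSphere from rfl]
  simp only [Measure.smul_apply, smul_eq_mul]
  set c := ((volume : Measure (Vec (3 + k))).toSphere Set.univ)⁻¹ with hc
  have hsl : ∀ t : Sph 3, MeasurableSet {v : Sph (3 + k) | redirS (v, t) ∈ s} := fun t =>
    hs.preimage (hm.comp (measurable_id.prodMk measurable_const))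
  simp only [Set.mem_ofPred_eq, Measure.toSphere_apply' _ (hsl _), key,
    Measure.toSphere_apply' _ hs]
  have hKm : MeasurableSet (redir (k := k) ⁻¹' K) :=
    redir_mp.measurable (measurableSet_cone hs)
  have hmeas : Measurable fun t : Sph 3 =>
      (volume : Measure (Vec (3 + k))) {w | redir (w, t) ∈ K} :=
    measurable_measure_prodMk_right hKm
  rw [lintegral_const_mul _ (hmeas.const_mul _), lintegral_const_mul _ hmeas]
  congr 2
  have h := (redir_mp (k := k)).measure_preimage (s := K) (measurableSet_cone hs).nullMeasurableSet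
  rw [Measure.prod_apply_symm hKm] at h
  exact h

end radial

section split

variable {V : Type*} [Fintype V] {k : ℕ}

/-- New directions for the first three components of all spins. -/
noncomputable def redirAll (z : (V → Sph (3 + k)) × (V → Sph 3)) : V → Sph (3 + k) :=
  fun x => redirS (z.1 x, z.2 x)

omit [Fintype V] in
@[fun_prop]
lemma continuous_redirAll :
    Continuous (redirAll : (V → Sph (3 + k)) × (V → Sph 3) → V → Sph (3 + k)) := by
  unfold redirAll
  fun_prop

lemma redirAll_mp : MeasurePreserving (redirAll (V := V) (k := k))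
    ((freeMeasure (3 + k) V).prod (freeMeasure 3 V)) (freeMeasure (3 + k) V) := by
  have := omega_isProbability (n := 3)
  have := omega_isProbability (n := 3 + k)
  have h1 := (measurePreserving_arrowProdEquivProdArrow (Sph (3 + k)) (Sph 3) V
    (fun _ => omega (3 + k)) (fun _ => omega 3)).symm _
  have h2 := measurePreserving_pi (fun _ : V => (omega (3 + k)).prod (omega 3))
    (fun _ : V => omega (3 + k)) fun _ => redirS_mp
  exact h2.comp h1

lemma integrable_of_continuous {α : Type*} [TopologicalSpace α] [CompactSpace α]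
    [MeasurableSpace α] [OpensMeasurableSpace α] {μ : Measure α} [IsFiniteMeasure μ] {f : α → ℝ}
    (hf : Continuous f) : Integrable f μ :=
  hf.integrable_of_hasCompactSupport (HasCompactSupport.of_compactSpace f)

lemma integral_redirAll {f : (V → Sph (3 + k)) → ℝ} (hf : Continuous f) :
    ∫ σ, f σ ∂freeMeasure (3 + k) V =
      ∫ σ, ∫ τ, f (redirAll (σ, τ)) ∂freeMeasure 3 V ∂freeMeasure (3 + k) V := by
  have := freeMeasure_isProbability (n := 3) (V := V)
  have := freeMeasure_isProbability (n := 3 + k) (V := V)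
  rw [← integral_prod (fun z => f (redirAll z)) (integrable_of_continuous (by fun_prop))]
  conv_lhs => rw [← (redirAll_mp (V := V) (k := k)).map_eq]
  exact integral_map continuous_redirAll.measurable.aemeasurable hf.aestronglyMeasurable

end split

omit [NeZero L₁] [NeZero L₂] in
lemma tip_inj (h₁ : 3 ≤ L₁) :
    Function.Injective fun b : Bond L₁ L₂ => (b.1, tip b) := by
  have : Fact (1 < L₁) := ⟨by omega⟩
  intro b b' h
  simp only [Prod.mk.injEq, tip] at h
  refine Prod.ext h.1 ?_
  have h2 := h.2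
  rw [h.1, add_right_inj] at h2
  have h3 := congrArg Prod.fst h2
  generalize b.2 = i, b'.2 = j at h3
  fin_cases i <;> fin_cases j <;> simp_all [unitVec]

omit [NeZero L₁] [NeZero L₂] in
lemma bil_one (σ : Conf L₁ L₂) (b : Bond L₁ L₂) :
    bil 1 σ b = ⟪(σ b.1 : Vec 3), (σ (tip b) : Vec 3)⟫ := by
  simp [bil, Matrix.one_apply, PiLp.inner_apply, Fin.sum_univ_three, mul_comm]

lemma energy3_eq (J : Bond L₁ L₂ → ℝ) (σ : Conf L₁ L₂) :
    energy3 J σ = ∑ b, J b * ⟪(σ b.1 : Vec 3), (σ (tip b) : Vec 3)⟫ := by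
  simp only [energy3, lin, bil_one]

@[fun_prop]
lemma continuous_wt3 (J : Bond L₁ L₂ → ℝ) : Continuous (wt J) := by
  unfold wt
  simp only [energy3_eq]
  fun_prop

lemma parts_zero {k : ℕ} (v : Sph (3 + k)) (t : Sph 3) :
    (redirS (v, t) : Vec (3 + k)).ofLp (Fin.castAdd k 0) =
      len3 (v : Vec (3 + k)) * (t : Vec 3).ofLp 0 := by
  simp [redirS, redir, parts, radial, len3, Equiv.piCongrLeft']

set_option linter.unusedVariables false in
/-- Three components carry the whole correlation. -/
theorem abs_corr_le_corr3 {n : ℕ} (hn : 3 ≤ n) {β : ℝ} (hβ : 0 ≤ β) (h₁ : 3 ≤ L₁) (h₂ : 3 ≤ L₂)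
    (A : Finset (Bond L₁ L₂)) (x y : Site L₁ L₂) {δ : ℝ}
    (hδ : ∀ J : Bond L₁ L₂ → ℝ, (∀ b, 0 ≤ J b ∧ J b ≤ β) → |corr3 J x y| ≤ δ) :
    |corr n β (pairsOf A) x y| ≤ n * δ := by
  classical
  obtain ⟨k, rfl⟩ := Nat.exists_eq_add_of_le hn
  have := freeMeasure_isProbability (n := 3) (V := Site L₁ L₂)
  have := freeMeasure_isProbability (n := 3 + k) (V := Site L₁ L₂)
  have := omega_isProbability (n := 3 + k)
  set i₀ : Fin (3 + k) := Fin.castAdd k 0 with hi₀
  set μ := freeMeasure (3 + k) (Site L₁ L₂) with hμ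
  have hE : ∀ σ : Site L₁ L₂ → Sph (3 + k), energy (pairsOf A) σ =
      ∑ b ∈ A, ⟪(σ b.1 : Vec (3 + k)), (σ (tip b) : Vec (3 + k))⟫ := fun σ => by
    rw [energy, pairsOf]
    exact Finset.sum_image (tip_inj h₁).injOn
  set w : (Site L₁ L₂ → Sph (3 + k)) → ℝ := weight β (pairsOf A) with hw
  have hwc : Continuous w := by rw [hw]; unfold weight; fun_prop
  set f : Fin (3 + k) → (Site L₁ L₂ → Sph (3 + k)) → ℝ := fun i σ =>
    (σ x : Vec (3 + k)).ofLp i * (σ y : Vec (3 + k)).ofLp i * w σ with hf
  have hfc : ∀ i, Continuous (f i) := fun i => by simp only [hf]; fun_prop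
  have hsym : ∀ i, ∫ σ, f i σ ∂μ = ∫ σ, f i₀ σ ∂μ := by
    intro i
    set R : Vec (3 + k) ≃ₗᵢ[ℝ] Vec (3 + k) :=
      LinearIsometryEquiv.piLpCongrLeft 2 ℝ ℝ (Equiv.swap i₀ i) with hR
    have hmp := measurePreserving_pi (fun _ : Site L₁ L₂ => omega (3 + k))
      (fun _ : Site L₁ L₂ => omega (3 + k)) fun _ => omega_invariant R
    change MeasurePreserving _ μ μ at hmp
    conv_rhs => rw [← hmp.map_eq]
    rw [integral_map hmp.measurable.aemeasurable (hfc i₀).aestronglyMeasurable]
    refine integral_congr_ae (Filter.Eventually.of_forall fun σ => ?_)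
    simp only [hf, hw, weight_eq, energy, sphMap, LinearIsometryEquiv.inner_map_map]
    simp [hR, Equiv.piCongrLeft']
  have hnum : ∫ σ, ⟪(σ x : Vec (3 + k)), (σ y : Vec (3 + k))⟫ * w σ ∂μ =
      ((3 + k : ℕ) : ℝ) * ∫ σ, f i₀ σ ∂μ := by
    simp only [PiLp.inner_apply, RCLike.inner_apply, conj_trivial, Finset.sum_mul]
    rw [integral_finsetSum _ fun i _ => integrable_of_continuous (by fun_prop)]
    rw [Finset.sum_congr rfl fun i _ => (show ∫ σ, (σ y : Vec (3 + k)).ofLp i *
      (σ x : Vec (3 + k)).ofLp i * w σ ∂μ = ∫ σ, f i₀ σ ∂μ by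
        rw [← hsym i]; simp only [hf]; congr 1; funext σ; ring)]
    simp
  have hZ : 0 < ∫ σ, w σ ∂μ := integral_exp_pos (integrable_of_continuous hwc)
  have hmain : |∫ σ, f i₀ σ ∂μ| ≤ δ * ∫ σ, w σ ∂μ := by
    rw [integral_redirAll (hfc i₀), integral_redirAll hwc, ← integral_const_mul,
      ← Real.norm_eq_abs]
    refine norm_integral_le_of_norm_le ((Integrable.integral_prod_left
      (f := fun z : (Site L₁ L₂ → Sph (3 + k)) × (Site L₁ L₂ → Sph 3) => w (redirAll z))
      (integrable_of_continuous (by fun_prop))).const_mul δ)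
      (Filter.Eventually.of_forall fun σ => ?_)
    set r : Site L₁ L₂ → ℝ := fun v => len3 (σ v : Vec (3 + k)) with hr
    have hr01 : ∀ v, 0 ≤ r v ∧ r v ≤ 1 := fun v => by
      refine ⟨norm_nonneg _, ?_⟩
      calc r v ≤ ‖parts k (σ v : Vec (3 + k))‖ := WithLp.norm_fst_le _ _
        _ = 1 := by rw [LinearIsometryEquiv.norm_map, norm_spin]
    set J : Bond L₁ L₂ → ℝ := fun b => if b ∈ A then β * (r b.1 * r (tip b)) else 0 with hJ
    have hJb : ∀ b, 0 ≤ J b ∧ J b ≤ β := fun b => by
      simp only [hJ]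
      split
      · exact ⟨mul_nonneg hβ (mul_nonneg (hr01 _).1 (hr01 _).1),
          mul_le_of_le_one_right hβ (mul_le_one₀ (hr01 _).2 (hr01 _).1 (hr01 _).2)⟩
      · exact ⟨le_rfl, hβ⟩
    set C := Real.exp (β * ∑ b ∈ A, ⟪(parts k (σ b.1 : Vec (3 + k))).snd,
      (parts k (σ (tip b) : Vec (3 + k))).snd⟫) with hC
    have hwe : ∀ τ, w (redirAll (σ, τ)) = C * wt J τ := fun τ => by
      rw [hw, weight_eq, hE, hC, wt, ← Real.exp_add, energy3_eq]
      congr 1
      simp only [hJ, ite_mul, zero_mul, Finset.sum_ite_mem, Finset.univ_inter, redirAll, redirS,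
        inner_redir, hr, Finset.mul_sum, ← Finset.sum_add_distrib]
      exact Finset.sum_congr rfl fun b _ => by ring
    have hwt : 0 < ∫ τ, wt J τ ∂freeMeasure 3 (Site L₁ L₂) :=
      integral_exp_pos (integrable_of_continuous (continuous_wt3 J))
    have hc3 : ∫ τ, wt J τ * ((τ x : Vec 3).ofLp 0 * (τ y : Vec 3).ofLp 0)
        ∂freeMeasure 3 (Site L₁ L₂) = corr3 J x y * ∫ τ, wt J τ ∂freeMeasure 3 (Site L₁ L₂) := by
      rw [corr3, div_mul_cancel₀ _ hwt.ne']
    have hfe : ∀ τ, f i₀ (redirAll (σ, τ)) =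
        C * (r x * r y) * (wt J τ * ((τ x : Vec 3).ofLp 0 * (τ y : Vec 3).ofLp 0)) := fun τ => by
      simp only [hf, hwe]
      simp only [redirAll, hi₀, parts_zero, hr]
      ring
    simp only [hwe, hfe, integral_const_mul, hc3, Real.norm_eq_abs, abs_mul,
      abs_of_pos hwt, abs_of_pos (show (0 : ℝ) < C from Real.exp_pos _), abs_of_nonneg (hr01 _).1]
    have hδ0 : 0 ≤ δ := (abs_nonneg _).trans (hδ J hJb)
    calc C * (r x * r y) * (|corr3 J x y| * ∫ τ, wt J τ ∂freeMeasure 3 (Site L₁ L₂))
        ≤ C * 1 * (δ * ∫ τ, wt J τ ∂freeMeasure 3 (Site L₁ L₂)) := by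
          refine mul_le_mul (mul_le_mul_of_nonneg_left ?_ (Real.exp_pos _).le)
            (mul_le_mul_of_nonneg_right (hδ J hJb) hwt.le)
            (mul_nonneg (abs_nonneg _) hwt.le) (mul_nonneg (Real.exp_pos _).le zero_le_one)
          exact mul_le_one₀ (hr01 _).2 (hr01 _).1 (hr01 _).2
      _ = δ * (C * ∫ τ, wt J τ ∂freeMeasure 3 (Site L₁ L₂)) := by ring
  rw [corr, ← hμ, ← hw, hnum, abs_div, abs_mul, Nat.abs_cast, abs_of_pos hZ, div_le_iff₀ hZ,
    mul_assoc]
  exact mul_le_mul_of_nonneg_left hmain (Nat.cast_nonneg _)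

/-- The correlation on the image of an injective map of vertices. -/
lemma corr_image {V W : Type*} [Fintype V] [Fintype W] [DecidableEq W] {e : V → W}
    (he : Function.Injective e) {n : ℕ} [NeZero n] (β : ℝ) (B : Finset (V × V)) (x y : V) :
    corr n β (B.image (Prod.map e e)) (e x) (e y) = corr n β B x y := by
  classical
  have := omega_isProbability (n := n)
  have hmp : MeasurePreserving (fun σ : W → Sph n => σ ∘ e) (freeMeasure n W) (freeMeasure n V) := by
    have hm : Measurable fun σ : W → Sph n => σ ∘ e := by fun_prop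
    refine ⟨hm, (Measure.pi_eq fun s hs => ?_).symm⟩
    rw [Measure.map_apply hm (.univ_pi hs)]
    have : (fun σ : W → Sph n => σ ∘ e) ⁻¹' Set.univ.pi s =
        Set.univ.pi (Function.extend e s fun _ => Set.univ) := by
      ext σ
      simp only [Set.mem_preimage, Set.mem_univ_pi, Function.comp_apply]
      refine ⟨fun h w => ?_, fun h v => by simpa [he.extend_apply] using h (e v)⟩
      by_cases hw : ∃ v, e v = w
      · obtain ⟨v, rfl⟩ := hw
        simpa [he.extend_apply] using h v
      · simp [Function.extend_apply' _ _ _ hw]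
    rw [this, freeMeasure, Measure.pi_pi]
    refine (Fintype.prod_of_injective e he _ _ (fun w hw => ?_) fun v => ?_).symm
    · rw [Function.extend_apply' _ _ _ (fun h => hw h), measure_univ]
    · rw [he.extend_apply]
  have hsum : ∀ σ : W → Sph n, weight β (B.image (Prod.map e e)) σ = weight β B (σ ∘ e) := by
    intro σ
    unfold weight
    rw [Finset.sum_image (he.prodMap he).injOn]
    rfl
  have hmw : Measurable (weight β B : (V → Sph n) → ℝ) := measurable_weight β B
  have hint : ∀ g : (V → Sph n) → ℝ, Measurable g →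
      ∫ σ, g σ ∂freeMeasure n V = ∫ σ, g (σ ∘ e) ∂freeMeasure n W := fun g hg => by
    conv_lhs => rw [← hmp.map_eq]
    exact integral_map hmp.measurable.aemeasurable hg.aestronglyMeasurable
  unfold corr
  rw [hint (fun σ => ⟪(σ x : Vec n), (σ y : Vec n)⟫ * weight β B σ)
    (((measurable_spin x).inner (measurable_spin y)).mul hmw), hint _ hmw]
  simp [hsum]

lemma intCast_inj_of_small {L : ℕ} {a b : ℤ} (h : (a : ZMod L) = b)
    (hs : (a - b).natAbs < L) : a = b := by
  have hd := (ZMod.intCast_eq_intCast_iff_dvd_sub a b L).1 h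
  have := Int.eq_zero_of_dvd_of_natAbs_lt_natAbs hd (by omega)
  omega

omit [NeZero L₁] [NeZero L₂] in
/-- A free volume is a set of bonds of a large torus. -/
theorem free_eq_torus (Λ : Finset (ℤ × ℤ)) (x y : ↥Λ) (L₀ : ℕ) :
    ∃ (L : ℕ) (_ : NeZero L) (A : Finset (Bond L L)), L₀ ≤ L ∧
      2 * ((y : ℤ × ℤ).1 - (x : ℤ × ℤ).1).natAbs ≤ L ∧
      2 * ((y : ℤ × ℤ).2 - (x : ℤ × ℤ).2).natAbs ≤ L ∧
      ∀ (n : ℕ), 1 ≤ n → ∀ β : ℝ, corr n β (freeBonds Λ) x y =
        corr n β (pairsOf A) (proj L (x : ℤ × ℤ)) (proj L (y : ℤ × ℤ)) := by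
  classical
  set M := Λ.sup supNorm with hM
  have hb : ∀ u : ↥Λ, (u : ℤ × ℤ).1.natAbs ≤ M ∧ (u : ℤ × ℤ).2.natAbs ≤ M := fun u => by
    have h : max (u : ℤ × ℤ).1.natAbs (u : ℤ × ℤ).2.natAbs ≤ M :=
      Finset.le_sup (f := supNorm) u.2
    exact max_le_iff.1 h
  set L := L₀ + 4 * (M + 1) with hL
  have : NeZero L := ⟨by omega⟩
  set e : ↥Λ → Site L L := fun u => proj L u with he
  have hei : Function.Injective e := by
    intro u v h
    simp only [he, proj, Prod.mk.injEq] at h
    have := hb u
    have := hb v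
    exact Subtype.ext (Prod.ext (intCast_inj_of_small h.1 (by omega))
      (intCast_inj_of_small h.2 (by omega)))
  refine ⟨L, ⟨by omega⟩, Finset.univ.filter
    (fun b => (b.1, tip b) ∈ (freeBonds Λ).image (Prod.map e e)), Nat.le_add_right _ _, ?_, ?_, ?_⟩
  · have := hb x; have := hb y; omega
  · have := hb x; have := hb y; omega
  intro n hn β
  have : NeZero n := ⟨by omega⟩
  rw [← corr_image hei β (freeBonds Λ) x y]
  congr 1
  ext p
  simp only [pairsOf, Finset.mem_image, Finset.mem_filter, Finset.mem_univ, true_and]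
  constructor
  · rintro ⟨⟨u, v⟩, huv, rfl⟩
    rcases (Finset.mem_filter.1 huv).2 with h | h
    · refine ⟨(e u, 0), ?_, ?_⟩
      all_goals
        have : tip ((e u, 0) : Bond L L) = e v := by
          simp only at h
          simp [tip, unitVec, he, proj, h]
      · exact ⟨(u, v), huv, by simp [this]⟩
      · simp [this]
    · refine ⟨(e u, 1), ?_, ?_⟩
      all_goals
        have : tip ((e u, 1) : Bond L L) = e v := by
          simp only at h
          simp [tip, unitVec, he, proj, h]
      · exact ⟨(u, v), huv, by simp [this]⟩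
      · simp [this]
  · rintro ⟨b, hb', rfl⟩
    exact hb'

/-- The torus bonds as pairs. -/
theorem torusBonds_eq (L : ℕ) [NeZero L] :
    torusBonds L = pairsOf (Finset.univ : Finset (Bond L L)) := by
  classical
  ext p
  simp [torusBonds, pairsOf, tip, unitVec, Prod.ext_iff, Fin.exists_fin_two, eq_comm]

/-- The distance of two lattice points on a large torus. -/
theorem eDist_le_td (L : ℕ) [NeZero L] (u v : ℤ × ℤ) (h₁ : 2 * (v.1 - u.1).natAbs ≤ L)
    (h₂ : 2 * (v.2 - u.2).natAbs ≤ L) :
    eDist u v ≤ 2 * (td (proj L u) (proj L v) : ℝ) := by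
  refine (eDist_le u v).trans (mul_le_mul_of_nonneg_left (Nat.cast_le.2 ?_) two_pos.le)
  have key : ∀ a : ℤ, 2 * a.natAbs ≤ L → a.natAbs ≤ ((a : ZMod L).valMinAbs).natAbs := fun a ha =>
    ZMod.natAbs_min_of_le_div_two L a _ (by rw [ZMod.coe_valMinAbs]) (by omega)
  simp only [supNorm, td, proj, ← Int.cast_sub]
  exact max_le_max (key _ h₁) (key _ h₂)

end Vale.Agent.P163.Gap
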