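import Vale.Agent.P163.Gap.Contract
import Vale.Agent.P163.Gap.Percolate
import Vale.Agent.P163.Gap.Axis
import Vale.Agent.P163.Gap.Dominate
import Vale.Agent.P163.Gap.AxisBounds
import Vale.Agent.P163.Gap.Split

/-!
Exponential decay of correlations at every inverse temperature.
-/

open MeasureTheory Real Matrix Finset
open scoped BigOperators

namespace Vale.Agent.P163.Gap

variable {L₁ L₂ : ℕ} [NeZero L₁] [NeZero L₂]

theorem abs_corr3_le_one (J : Bond L₁ L₂ → ℝ) (x y : Site L₁ L₂) : |corr3 J x y| ≤ 1 := by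
  have := freeMeasure_isProbability (n := 3) (V := Site L₁ L₂)
  have hc : Continuous (wt J) := by unfold wt energy3 lin bil; fun_prop
  obtain ⟨K, hK⟩ := isCompact_univ.exists_bound_of_continuousOn hc.continuousOn
  have hi : Integrable (wt J) (freeMeasure 3 (Site L₁ L₂)) :=
    Integrable.of_bound hc.aestronglyMeasurable K (.of_forall fun σ => hK σ (Set.mem_univ σ))
  have hp : ∀ σ, 0 < wt J σ := fun σ => Real.exp_pos _
  have hden : 0 ≤ ∫ σ, wt J σ ∂freeMeasure 3 (Site L₁ L₂) := integral_nonneg fun σ => (hp σ).le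
  rw [corr3, abs_div, abs_of_nonneg hden]
  refine div_le_one_of_le₀ ((Real.norm_eq_abs _).symm.le.trans
    (norm_integral_le_of_norm_le hi (.of_forall fun σ => ?_))) (integral_nonneg fun σ => (hp σ).le)
  · rw [norm_mul, Real.norm_eq_abs, Real.norm_eq_abs, abs_of_pos (hp σ)]
    refine mul_le_of_le_one_right (hp σ).le ?_
    have h : ∀ (v : Sph 3), |(v : Vec 3).ofLp 0| ≤ 1 := fun v => by
      simpa using PiLp.norm_apply_le (v : Vec 3) 0
    rw [abs_mul]
    exact mul_le_one₀ (h _) (abs_nonneg _) (h _)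

/-- Exponential decay for the three component model with arbitrary couplings. -/
theorem exists_corr3_decay {β : ℝ} (hβ : 1 ≤ β) : ∃ (κ : ℝ) (W : ℕ), 0 < κ ∧
    ∀ (L₁ L₂ : ℕ) [NeZero L₁] [NeZero L₂], 8 * W < L₁ → 8 * W < L₂ →
      ∀ J : Bond L₁ L₂ → ℝ, (∀ b, 0 ≤ J b ∧ J b ≤ β) → ∀ x y : Site L₁ L₂,
        |corr3 J x y| ≤ 4 * Real.exp (-(κ * td x y)) := by
  obtain ⟨W, hW, hmag⟩ := exists_small_mag β hβ (ε := 1 / 4) (by norm_num)
  set q : ℕ := 4 * W + 1
  refine ⟨Real.log 2 / q, W, by positivity, ?_⟩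
  intro L₁ L₂ _ _ h₁ h₂ J hJ x y
  have hJ0 : ∀ b, 0 ≤ J b := fun b => (hJ b).1
  have hexp : ∀ d : ℕ, Real.exp (-(Real.log 2 / q * d)) = (1 / 2 : ℝ) ^ ((d : ℝ) / q) := by
    intro d
    rw [Real.rpow_def_of_pos (by norm_num), one_div, Real.log_inv]
    congr 1
    ring
  rw [hexp]
  have hq : (0 : ℝ) < q := by positivity
  have half : ∀ {a b : ℝ}, a ≤ b → (1 / 2 : ℝ) ^ b ≤ (1 / 2 : ℝ) ^ a := fun h =>
    Real.rpow_le_rpow_of_exponent_ge (by norm_num) (by norm_num) h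
  by_cases hd : td x y ≤ W
  · refine (abs_corr3_le_one J x y).trans ?_
    have h : ((td x y : ℝ)) / q ≤ 1 := by
      rw [div_le_one hq]; exact_mod_cast hd.trans (by omega)
    have := half h
    rw [Real.rpow_one] at this
    linarith
  set N := (td x y - W - 1) / q
  have hN : N * (4 * W + 1) + W < td x y := by
    have := Nat.div_mul_le_self (td x y - W - 1) q
    change N * q ≤ _ at this
    have e : N * (4 * W + 1) = N * q := rfl
    omega
  have hN' : (td x y : ℝ) / q - 2 ≤ N := by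
    have h : td x y < (N + 2) * q := by
      have := Nat.lt_succ_iff.1 (Nat.lt_succ_self (td x y - W - 1))
      have h2 := Nat.lt_div_mul_add (show 0 < q by omega) (a := td x y - W - 1)
      change _ < N * q + q at h2
      rw [Nat.add_mul]
      omega
    rw [sub_le_iff_le_add, div_le_iff₀ hq]
    exact_mod_cast h.le
  obtain ⟨hAc, c, C, hc, hA⟩ := axisW_nice J
  have hApos : ∀ a, 0 ≤ axisW J a := fun a => hc.le.trans (hA a).1
  have hZ : 0 < ∫ a, axisW J a ∂axes L₁ L₂ := by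
    have hp : IsProbabilityMeasure (axes L₁ L₂) := by unfold axes; infer_instance
    refine hc.trans_le ?_
    have := integral_mono (μ := axes L₁ L₂) (f := fun _ => c) (integrable_const c)
      (Integrable.of_bound hAc.aestronglyMeasurable C (.of_forall fun a => by
        rw [Real.norm_eq_abs, abs_of_nonneg (hApos a)]; exact (hA a).2)) fun a => (hA a).1
    simpa using this
  set ε : ℝ := 1 / (4 * (8 * (W : ℝ) + 5) ^ 2)
  have hε : ∀ z : Site L₁ L₂, ex J (ball z W) (fun _ => pole) (sgn0 z) ≤ ε := by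
    intro z
    refine (le_abs_self _).trans ((le_div_iff₀ (by positivity)).2 ?_)
    nlinarith [hmag L₁ L₂ h₁ h₂ J hJ z (fun _ => pole)]
  have hprob : IsProbabilityMeasure (axes L₁ L₂) := by unfold axes; infer_instance
  have hint : ∀ u : Fin N → Site L₁ L₂, Integrable
      (fun a => (∏ i, armMag J W (u i) a) * axisW J a) (axes L₁ L₂) := by
    intro u
    refine Integrable.of_bound ((continuous_finsetProd _ fun i _ =>
      continuous_armMag J W (u i)).mul hAc).aestronglyMeasurable C (.of_forall fun a => ?_)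
    rw [norm_mul, norm_prod, Real.norm_eq_abs, abs_of_nonneg (hApos a)]
    refine (mul_le_of_le_one_left (hApos a) (prod_le_one (fun i _ => norm_nonneg _)
      fun i _ => ?_)).trans (hA a).2
    exact abs_isE_le _ _ fun s => (abs_sv _).le
  set G : (Site L₁ L₂ → ℝ) → ℝ := fun a => clip (a x) * clip (a y) *
    isE (kIsing J a) 0 (fun s => sv (s x) * sv (s y)) * axisW J a
  have hG : ∀ a, 0 ≤ G a ∧
      G a ≤ ∑ u ∈ chains x W N, 2 ^ N * ((∏ i, armMag J W (u i) a) * axisW J a) := by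
    intro a
    have hK : ∀ b, 0 ≤ kIsing J a b := fun b =>
      mul_nonneg (mul_nonneg (hJ0 b) (clip_mem _).1) (clip_mem _).1
    obtain ⟨h0, h1⟩ := isE_pair_le hK hW h₁ h₂ hN
    refine ⟨mul_nonneg (mul_nonneg (mul_nonneg (clip_mem _).1 (clip_mem _).1) h0) (hApos a), ?_⟩
    calc G a ≤ 1 * isE (kIsing J a) 0 (fun s => sv (s x) * sv (s y)) * axisW J a := by
          refine mul_le_mul_of_nonneg_right (mul_le_mul_of_nonneg_right ?_ h0) (hApos a)
          exact mul_le_one₀ (clip_mem _).2 (clip_mem _).1 (clip_mem _).2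
      _ ≤ (∑ u ∈ chains x W N, ∏ i, (2 * armMag J W (u i) a)) * axisW J a := by
          rw [one_mul]
          refine mul_le_mul_of_nonneg_right (h1.trans (sum_le_sum fun u _ =>
            prod_le_prod (fun i _ => ?_) fun i _ => ?_)) (hApos a)
          · exact mul_nonneg two_pos.le (ball_mag_le J hJ0 W (u i) a).1
          · exact mul_le_mul_of_nonneg_left (ball_mag_le J hJ0 W (u i) a).2 two_pos.le
      _ = _ := by
          rw [sum_mul]
          refine sum_congr rfl fun u _ => ?_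
          rw [prod_mul_distrib, prod_const, card_univ, Fintype.card_fin]
          ring
  have hbound : ∫ a, G a ∂axes L₁ L₂ ≤
      (((8 * W + 3) ^ 2) ^ N : ℕ) * (2 ^ N * (ε ^ N * ∫ a, axisW J a ∂axes L₁ L₂)) := by
    have hi : ∀ u ∈ chains x W N, Integrable
        (fun a => 2 ^ N * ((∏ i, armMag J W (u i) a) * axisW J a)) (axes L₁ L₂) :=
      fun u _ => (hint u).const_mul _
    refine (integral_mono_of_nonneg (.of_forall fun a => (hG a).1) (integrable_finsetSum _ hi)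
      (.of_forall fun a => (hG a).2)).trans ?_
    rw [integral_finsetSum _ hi]
    refine (sum_le_card_nsmul _ _ (2 ^ N * (ε ^ N * ∫ a, axisW J a ∂axes L₁ L₂)) fun u hu => ?_).trans ?_
    · rw [integral_const_mul]
      refine mul_le_mul_of_nonneg_left (integral_prod_armMag_le J hJ0 hW hε u ?_) (by positivity)
      unfold chains at hu
      exact (mem_filter.1 hu).2.2.2
    · rw [nsmul_eq_mul]
      refine mul_le_mul_of_nonneg_right (by exact_mod_cast card_chains_le x W N)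
        (mul_nonneg (by positivity) (mul_nonneg (pow_nonneg (by positivity) _) hZ.le))
  rw [corr3_eq, abs_of_nonneg (div_nonneg (integral_nonneg fun a => (hG a).1) hZ.le)]
  have hr : ((8 * (W : ℝ) + 3) ^ 2) * (2 * ε) ≤ 1 / 2 := by
    have e : ((8 * (W : ℝ) + 3) ^ 2) * (2 * ε) = ((8 * (W : ℝ) + 3) ^ 2) / ((8 * W + 5) ^ 2) / 2 := by
      simp only [ε]; field_simp; ring
    rw [e]
    refine div_le_div_of_nonneg_right ((div_le_one (by positivity)).2 ?_) two_pos.le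
    exact pow_le_pow_left₀ (by positivity) (by linarith) 2
  calc (∫ a, G a ∂axes L₁ L₂) / ∫ a, axisW J a ∂axes L₁ L₂
      ≤ (((8 * W + 3) ^ 2) ^ N : ℕ) * (2 ^ N * ε ^ N) := by
        rw [div_le_iff₀ hZ]
        exact hbound.trans_eq (by ring)
    _ = (((8 * (W : ℝ) + 3) ^ 2) * (2 * ε)) ^ N := by push_cast; rw [mul_pow _ (2 * ε), mul_pow 2 ε]
    _ ≤ (1 / 2 : ℝ) ^ N := pow_le_pow_left₀ (by positivity) hr N
    _ = (1 / 2 : ℝ) ^ (N : ℝ) := (Real.rpow_natCast _ _).symm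
    _ ≤ (1 / 2 : ℝ) ^ ((td x y : ℝ) / q - 2) := half hN'
    _ = 4 * (1 / 2 : ℝ) ^ ((td x y : ℝ) / q) := by
        rw [Real.rpow_sub (by norm_num), Real.rpow_two]; ring

/-- Exponential decay for every number of components at least three. -/
theorem exists_corr_decay (n : ℕ) (hn : 3 ≤ n) (β : ℝ) (hβ : 0 < β) :
    ∃ (C κ : ℝ) (L₀ : ℕ), 0 < κ ∧ 0 ≤ C ∧
      ∀ (L₁ L₂ : ℕ) [NeZero L₁] [NeZero L₂], L₀ ≤ L₁ → L₀ ≤ L₂ →
        ∀ (A : Finset (Bond L₁ L₂)) (x y : Site L₁ L₂),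
          |corr n β (pairsOf A) x y| ≤ C * Real.exp (-(κ * td x y)) := by
  obtain ⟨κ, W, hκ, h⟩ := exists_corr3_decay (le_max_right β 1)
  refine ⟨n * 4, κ, 8 * W + 3, hκ, by positivity, ?_⟩
  intro L₁ L₂ _ _ h₁ h₂ A x y
  refine (abs_corr_le_corr3 hn hβ.le (by omega) (by omega) A x y (δ := 4 * Real.exp (-(κ * td x y)))
    fun J hJ => h L₁ L₂ (by omega) (by omega) J
      (fun b => ⟨(hJ b).1, (hJ b).2.trans (le_max_left _ _)⟩) x y).trans (le_of_eq ?_)
  ring

/-- The nearest neighbour bonds of a rectangular torus. -/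
def rectBonds (L₁ L₂ : ℕ) [NeZero L₁] [NeZero L₂] :
    Finset ((ZMod L₁ × ZMod L₂) × (ZMod L₁ × ZMod L₂)) :=
  Finset.univ.filter fun b => b.2 = b.1 + (1, 0) ∨ b.2 = b.1 + (0, 1)

lemma rectBonds_eq (L₁ L₂ : ℕ) [NeZero L₁] [NeZero L₂] :
    rectBonds L₁ L₂ = pairsOf (Finset.univ : Finset (Bond L₁ L₂)) := by
  classical
  ext b
  obtain ⟨u, v⟩ := b
  simp only [rectBonds, pairsOf, mem_filter, mem_univ, true_and, mem_image, tip, Prod.mk.injEq]
  constructor
  · rintro (h | h)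
    · exact ⟨(u, 0), rfl, by simp [unitVec, h]⟩
    · exact ⟨(u, 1), rfl, by simp [unitVec, h]⟩
  · rintro ⟨⟨w, k⟩, rfl, h⟩
    fin_cases k
    · exact Or.inl (by simpa [unitVec, eq_comm] using h)
    · exact Or.inr (by simpa [unitVec, eq_comm] using h)

lemma natAbs_le_valMinAbs {L : ℕ} [NeZero L] (a : ℤ) (ha : 2 * a.natAbs ≤ L) :
    a.natAbs ≤ ((a : ZMod L).valMinAbs).natAbs :=
  ZMod.natAbs_min_of_le_div_two L a _ (by rw [ZMod.coe_valMinAbs]) (by omega)

lemma eDist_le_td_rect (L₁ L₂ : ℕ) [NeZero L₁] [NeZero L₂] (u v : ℤ × ℤ)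
    (h₁ : 2 * (v.1 - u.1).natAbs ≤ L₁) (h₂ : 2 * (v.2 - u.2).natAbs ≤ L₂) :
    eDist u v ≤ 2 * (td ((u.1 : ZMod L₁), (u.2 : ZMod L₂))
      ((v.1 : ZMod L₁), (v.2 : ZMod L₂)) : ℝ) := by
  refine (eDist_le u v).trans (mul_le_mul_of_nonneg_left (Nat.cast_le.2 ?_) two_pos.le)
  simp only [td, supNorm, Prod.fst_sub, Prod.snd_sub, ← Int.cast_sub]
  exact max_le_max (natAbs_le_valMinAbs _ h₁) (natAbs_le_valMinAbs _ h₂)

/-- Exponential decay in every free volume, on all square tori and on all large rectangular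
tori, at every inverse temperature. -/
theorem mass_gap (n : ℕ) (hn : 3 ≤ n) (β : ℝ) (hβ : 0 < β) :
    ∃ (C m : ℝ) (L₀ : ℕ), 0 < m ∧
      (∀ (Λ : Finset (ℤ × ℤ)) (x y : ↥Λ),
        |corr n β (freeBonds Λ) x y| ≤ C * Real.exp (-(m * eDist x y))) ∧
      (∀ (L : ℕ) [NeZero L] (u v : ℤ × ℤ),
        2 * (v.1 - u.1).natAbs ≤ L → 2 * (v.2 - u.2).natAbs ≤ L →
        |corr n β (torusBonds L) (proj L u) (proj L v)| ≤ C * Real.exp (-(m * eDist u v))) ∧
      ∀ (L₁ L₂ : ℕ) [NeZero L₁] [NeZero L₂] (u v : ℤ × ℤ), L₀ ≤ L₁ → L₀ ≤ L₂ →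
        2 * (v.1 - u.1).natAbs ≤ L₁ → 2 * (v.2 - u.2).natAbs ≤ L₂ →
        |corr n β (rectBonds L₁ L₂) ((u.1 : ZMod L₁), (u.2 : ZMod L₂))
          ((v.1 : ZMod L₁), (v.2 : ZMod L₂))| ≤ C * Real.exp (-(m * eDist u v)) := by
  classical
  obtain ⟨C, κ, L₀, hκ, hC, h⟩ := exists_corr_decay n hn β hβ
  have hn0 : NeZero n := ⟨by omega⟩
  set C' : ℝ := max C (Real.exp (κ / 2 * (2 * L₀))) with hC'
  have key : ∀ (L₁ L₂ : ℕ) [NeZero L₁] [NeZero L₂] (A : Finset (Bond L₁ L₂)) (u v : ℤ × ℤ),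
      L₀ ≤ L₁ → L₀ ≤ L₂ → 2 * (v.1 - u.1).natAbs ≤ L₁ → 2 * (v.2 - u.2).natAbs ≤ L₂ →
      |corr n β (pairsOf A) ((u.1 : ZMod L₁), (u.2 : ZMod L₂))
        ((v.1 : ZMod L₁), (v.2 : ZMod L₂))| ≤ C' * Real.exp (-(κ / 2 * eDist u v)) := by
    intro L₁ L₂ _ _ A u v h₁ h₂ h₁' h₂'
    refine (h L₁ L₂ h₁ h₂ A _ _).trans (mul_le_mul (le_max_left _ _)
      (Real.exp_le_exp.2 ?_) (Real.exp_pos _).le (hC.trans (le_max_left _ _)))
    have := mul_le_mul_of_nonneg_left (eDist_le_td_rect L₁ L₂ u v h₁' h₂') (half_pos hκ).le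
    linarith
  have free : ∀ (Λ : Finset (ℤ × ℤ)) (x y : ↥Λ),
      |corr n β (freeBonds Λ) x y| ≤ C' * Real.exp (-(κ / 2 * eDist x y)) := by
    intro Λ x y
    obtain ⟨L, hL, A, hL₀, h₁, h₂, he⟩ := free_eq_torus Λ x y L₀
    rw [he n (by omega) β]
    exact key L L A x y hL₀ hL₀ h₁ h₂
  have rect : ∀ (L₁ L₂ : ℕ) [NeZero L₁] [NeZero L₂] (u v : ℤ × ℤ), L₀ ≤ L₁ → L₀ ≤ L₂ →
      2 * (v.1 - u.1).natAbs ≤ L₁ → 2 * (v.2 - u.2).natAbs ≤ L₂ →
      |corr n β (rectBonds L₁ L₂) ((u.1 : ZMod L₁), (u.2 : ZMod L₂))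
        ((v.1 : ZMod L₁), (v.2 : ZMod L₂))| ≤ C' * Real.exp (-(κ / 2 * eDist u v)) := by
    intro L₁ L₂ _ _ u v h₁ h₂ h₁' h₂'
    rw [rectBonds_eq]
    exact key L₁ L₂ _ u v h₁ h₂ h₁' h₂'
  refine ⟨C', κ / 2, L₀, half_pos hκ, free, ?_, rect⟩
  · intro L _ u v h₁ h₂
    by_cases hL : L₀ ≤ L
    · exact rect L L u v hL hL h₁ h₂
    · refine (abs_corr_le_one β (torusBonds L) (proj L u) (proj L v)).trans ?_
      calc (1 : ℝ) ≤ Real.exp (κ / 2 * (2 * L₀)) * Real.exp (-(κ / 2 * eDist u v)) := by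
            rw [← Real.exp_add, Real.one_le_exp_iff, ← sub_eq_add_neg, sub_nonneg]
            refine mul_le_mul_of_nonneg_left ((eDist_le u v).trans
              (mul_le_mul_of_nonneg_left (Nat.cast_le.2 ?_) two_pos.le)) (half_pos hκ).le
            simp only [supNorm, Prod.fst_sub, Prod.snd_sub]
            omega
        _ ≤ _ := mul_le_mul_of_nonneg_right (le_max_right _ _) (Real.exp_pos _).le

end Vale.Agent.P163.Gap
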