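import Vale.Agent.P163.Gap.Defs

/-!
Moments of currents under an averaged expectation.
-/

open MeasureTheory Real Matrix Finset
open scoped BigOperators

namespace Vale.Agent.P163.Gap

variable {L₁ L₂ : ℕ} [NeZero L₁] [NeZero L₂]

/-- The symmetrised size of a function at the two ends of a bond. -/
def ends (h : Site L₁ L₂ → ℝ) (b : Bond L₁ L₂) : ℝ := |h b.1| + |h (tip b)|

/-- The size of the derivative of a current. -/
def usz (φ Q : Site L₁ L₂ → ℝ) : ℝ := dsq φ * dsq Q + ∑ b, dd Q b ^ 2 * ends φ b ^ 2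

/-- The absolute row sums are at most one. -/
def RowLe (M : Mat3) : Prop := ∀ p, ∑ q, |M p q| ≤ 1

lemma rowLe_one : RowLe 1 := fun p => by fin_cases p <;> simp [Fin.sum_univ_three, Matrix.one_apply]

lemma rowLe_gen (i : Fin 3) : RowLe (gen i) := fun p => by
  fin_cases i <;> fin_cases p <;> simp [gen, Fin.sum_univ_three]

lemma RowLe.mul {M N : Mat3} (hM : RowLe M) (hN : RowLe N) : RowLe (M * N) := fun p => by
  calc ∑ q, |(M * N) p q| ≤ ∑ q, ∑ r, |M p r| * |N r q| := by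
        refine sum_le_sum fun q _ => ?_
        rw [Matrix.mul_apply]
        exact (abs_sum_le_sum_abs _ _).trans_eq (sum_congr rfl fun r _ => abs_mul _ _)
    _ = ∑ r, |M p r| * ∑ q, |N r q| := by rw [sum_comm]; simp only [mul_sum]
    _ ≤ ∑ r, |M p r| * 1 := sum_le_sum fun r _ => mul_le_mul_of_nonneg_left (hN r) (abs_nonneg _)
    _ ≤ 1 := by simpa using hM p

lemma RowLe.abs_trace_le {M : Mat3} (hM : RowLe M) : |M.trace| ≤ 3 := by
  have h : ∀ p, |M p p| ≤ 1 := fun p =>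
    (single_le_sum (f := fun q => |M p q|) (fun q _ => abs_nonneg _) (mem_univ p)).trans (hM p)
  rw [Matrix.trace_fin_three]
  have := abs_add_three (M 0 0) (M 1 1) (M 2 2)
  linarith [h 0, h 1, h 2]

lemma abs_coord_le (v : Sph 3) (p : Fin 3) : |(v : Vec 3).ofLp p| ≤ 1 := by
  have h : ‖(v : Vec 3)‖ = 1 := by simp
  simpa [h] using PiLp.norm_apply_le (v : Vec 3) p

omit [NeZero L₁] [NeZero L₂] in
lemma abs_bil_le {M : Mat3} (hM : RowLe M) (σ : Conf L₁ L₂) (b : Bond L₁ L₂) :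
    |bil M σ b| ≤ 3 := by
  calc |bil M σ b| ≤ ∑ p : Fin 3, ∑ q, |M p q| := by
        refine (abs_sum_le_sum_abs _ _).trans (sum_le_sum fun p _ => ?_)
        refine (abs_sum_le_sum_abs _ _).trans (sum_le_sum fun q _ => ?_)
        rw [abs_mul, abs_mul]
        exact mul_le_of_le_one_right (by positivity) (abs_coord_le _ _) |>.trans
          (mul_le_of_le_one_right (abs_nonneg _) (abs_coord_le _ _))
    _ ≤ ∑ _p : Fin 3, (1 : ℝ) := sum_le_sum fun p _ => hM p
    _ = 3 := by norm_num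

omit [NeZero L₁] [NeZero L₂] in
lemma bil_smul (c : ℝ) (M : Mat3) (σ : Conf L₁ L₂) (b : Bond L₁ L₂) :
    bil (c • M) σ b = c * bil M σ b := by
  simp only [bil, Matrix.smul_apply, smul_eq_mul, mul_sum]
  refine sum_congr rfl fun p _ => sum_congr rfl fun q _ => ?_
  ring

lemma continuous_form (J : Bond L₁ L₂ → ℝ) (w : Bond L₁ L₂ → Mat3) : Continuous (lin J w) := by
  unfold lin bil
  fun_prop

lemma continuous_current (J : Bond L₁ L₂ → ℝ) (i : Fin 3) (h : Site L₁ L₂ → ℝ) :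
    Continuous (cur J i h) := continuous_form J _

variable {J : Bond L₁ L₂ → ℝ} {β : ℝ} {S : Finset (Site L₁ L₂)}
  {E : (Conf L₁ L₂ → ℝ) → ℝ}

omit [NeZero L₁] [NeZero L₂] in
lemma avg_congr {f g : Conf L₁ L₂ → ℝ} (h : ∀ σ, f σ = g σ) : E f = E g := congrArg E (funext h)

lemma avg_const (hE : Avg J S E) (c : ℝ) : E (fun _ => c) = c := by
  have := hE.smul c (fun _ => 1) continuous_const
  simpa [hE.one] using this

lemma avg_nonneg (hE : Avg J S E) {f : Conf L₁ L₂ → ℝ} (hf : Continuous f)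
    (h : ∀ σ, 0 ≤ f σ) : 0 ≤ E f := by
  have := hE.mono (fun _ => (0 : ℝ)) f continuous_const hf h
  rwa [avg_const hE] at this

lemma avg_mul_sq_le (hE : Avg J S E) {f g : Conf L₁ L₂ → ℝ} (hf : Continuous f)
    (hg : Continuous g) : |E fun σ => f σ * g σ| ≤
      √(E fun σ => f σ ^ 2) * √(E fun σ => g σ ^ 2) := by
  have h : ∀ x : ℝ, 0 ≤ (E fun σ => f σ ^ 2) * (x * x) + 2 * (E fun σ => f σ * g σ) * x +
      E fun σ => g σ ^ 2 := by
    intro x
    have h0 : 0 ≤ E fun σ => (x * x) * f σ ^ 2 + ((2 * x) * (f σ * g σ) + g σ ^ 2) :=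
      avg_nonneg hE (by fun_prop) fun σ => by nlinarith [sq_nonneg (x * f σ + g σ)]
    rw [hE.add (fun σ => (x * x) * f σ ^ 2) (fun σ => (2 * x) * (f σ * g σ) + g σ ^ 2) (by fun_prop)
        (by fun_prop), hE.add (fun σ => (2 * x) * (f σ * g σ)) (fun σ => g σ ^ 2) (by fun_prop)
        (by fun_prop), hE.smul _ (fun σ => f σ ^ 2) (by fun_prop),
      hE.smul _ (fun σ => f σ * g σ) (by fun_prop)] at h0
    linarith
  have hd := discrim_le_zero h
  rw [discrim] at hd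
  rw [← Real.sqrt_mul (avg_nonneg hE (by fun_prop) fun σ => sq_nonneg _), ← Real.sqrt_sq_eq_abs]
  exact Real.sqrt_le_sqrt (by nlinarith)

lemma abs_avg_lin_le (hJ : ∀ b, 0 ≤ J b ∧ J b ≤ β) (hE : Avg J S E) (w : Bond L₁ L₂ → Mat3) :
    |E (lin J w)| ≤ β * ∑ b, |(w b).trace| := by
  rw [hE.trace w]
  set B := β * ∑ b, |(w b).trace|
  have h : ∀ σ : Conf L₁ L₂, |lin J (fun b => ((w b).trace / 3) • (1 : Mat3)) σ| ≤ B := by
    intro σ
    simp only [B, mul_sum]
    refine (abs_sum_le_sum_abs _ _).trans (sum_le_sum fun b _ => ?_)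
    rw [bil_smul, abs_mul, abs_mul, abs_div, abs_of_nonneg (hJ b).1, abs_of_pos (three_pos (α := ℝ))]
    calc J b * (|(w b).trace| / 3 * |bil (1 : Mat3) σ b|)
        ≤ J b * (|(w b).trace| / 3 * 3) := mul_le_mul_of_nonneg_left
          (mul_le_mul_of_nonneg_left (abs_bil_le rowLe_one σ b) (by positivity)) (hJ b).1
      _ = J b * |(w b).trace| := by ring
      _ ≤ β * |(w b).trace| := mul_le_mul_of_nonneg_right (hJ b).2 (abs_nonneg _)
  refine abs_le.2 ⟨?_, ?_⟩
  · have := hE.mono (fun _ => -B) _ continuous_const (continuous_form J _)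
      fun σ => (abs_le.1 (h σ)).1
    rwa [avg_const hE] at this
  · have := hE.mono _ (fun _ => B) (continuous_form J _) continuous_const
      fun σ => (abs_le.1 (h σ)).2
    rwa [avg_const hE] at this

omit [NeZero L₁] [NeZero L₂] in
lemma trace_dw (r : Fin 3) (R : Site L₁ L₂ → ℝ) (w : Bond L₁ L₂ → Mat3) (b : Bond L₁ L₂) :
    (dw r R w b).trace = -dd R b * (w b * gen r).trace := by
  rw [dw, Matrix.trace_sub, Matrix.trace_smul, Matrix.trace_smul, Matrix.trace_mul_comm (gen r),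
    smul_eq_mul, smul_eq_mul, dd]
  ring

omit [NeZero L₁] [NeZero L₂] in
/-- The trace of a second derivative of a current against a third one. -/
lemma abs_trace_dw3 (i p q r : Fin 3) (φ₁ φ₂ Q R : Site L₁ L₂ → ℝ) (b : Bond L₁ L₂) :
    |(dw r R (dw p φ₂ (dw i φ₁ (xw q Q))) b).trace| ≤
      3 * (ends φ₁ b * ends φ₂ b * |dd Q b| * |dd R b|) := by
  have hb : ∀ x y z : Fin 3, |(gen x * gen y * gen z * gen r).trace| ≤ 3 := fun x y z =>
    ((((rowLe_gen x).mul (rowLe_gen y)).mul (rowLe_gen z)).mul (rowLe_gen r)).abs_trace_le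
  have e : (dw p φ₂ (dw i φ₁ (xw q Q)) b * gen r).trace = dd Q b *
      (φ₁ b.1 * φ₂ b.1 * (gen q * gen i * gen p * gen r).trace -
        φ₁ (tip b) * φ₂ b.1 * (gen i * gen q * gen p * gen r).trace -
        φ₁ b.1 * φ₂ (tip b) * (gen p * gen q * gen i * gen r).trace +
        φ₁ (tip b) * φ₂ (tip b) * (gen p * gen i * gen q * gen r).trace) := by
    simp only [dw, xw, Matrix.sub_mul, Matrix.mul_sub, Matrix.smul_mul, Matrix.mul_smul, smul_sub,
      smul_smul, Matrix.trace_sub, Matrix.trace_smul, smul_eq_mul, ← Matrix.mul_assoc]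
    ring
  have ht : ∀ c d t : ℝ, |t| ≤ 3 → |c * d * t| ≤ |c| * |d| * 3 := fun c d t h => by
    rw [abs_mul, abs_mul]; exact mul_le_mul_of_nonneg_left h (by positivity)
  rw [trace_dw, e, abs_mul, abs_neg, abs_mul]
  have h1 := ht (φ₁ b.1) (φ₂ b.1) _ (hb q i p)
  have h2 := ht (φ₁ (tip b)) (φ₂ b.1) _ (hb i q p)
  have h3 := ht (φ₁ b.1) (φ₂ (tip b)) _ (hb p q i)
  have h4 := ht (φ₁ (tip b)) (φ₂ (tip b)) _ (hb p i q)
  calc |dd R b| * (|dd Q b| * |_|)
      ≤ |dd R b| * (|dd Q b| * (3 * (ends φ₁ b * ends φ₂ b))) := by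
        refine mul_le_mul_of_nonneg_left (mul_le_mul_of_nonneg_left ?_ (abs_nonneg _)) (abs_nonneg _)
        refine ((abs_add_le _ _).trans (add_le_add ((abs_sub _ _).trans (add_le_add
          ((abs_sub _ _).trans (add_le_add h1 h2)) h3)) h4)).trans (le_of_eq ?_)
        simp only [ends]
        ring
    _ = 3 * (ends φ₁ b * ends φ₂ b * |dd Q b| * |dd R b|) := by ring

lemma ward_one (hE : Avg J S E) {i : Fin 3} {h : Site L₁ L₂ → ℝ} (hh : ∀ x, x ∉ S → h x = 0)
    (w : Bond L₁ L₂ → Mat3) :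
    E (fun σ => cur J i h σ * lin J w σ) = E (lin J (dw i h w)) := by
  have := hE.ward i h [w] hh (by simp)
  simpa using this

lemma ward_two (hE : Avg J S E) {i : Fin 3} {h : Site L₁ L₂ → ℝ} (hh : ∀ x, x ∉ S → h x = 0)
    (w w' : Bond L₁ L₂ → Mat3) :
    E (fun σ => cur J i h σ * (lin J w σ * lin J w' σ)) =
      E (fun σ => lin J (dw i h w) σ * lin J w' σ) +
        E (fun σ => lin J w σ * lin J (dw i h w') σ) := by
  have := hE.ward i h [w, w'] hh (by simp)
  simp only [List.map_cons, List.map_nil, List.prod_cons, List.prod_nil, mul_one, List.length_cons,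
    List.length_nil, sum_range_succ, sum_range_zero, List.modify_zero_cons, List.modify_succ_cons,
    zero_add] at this
  rw [this, hE.add (fun σ => lin J (dw i h w) σ * lin J w' σ) (fun σ => lin J w σ * lin J (dw i h w') σ)
    ((continuous_form J _).mul (continuous_form J _)) ((continuous_form J _).mul (continuous_form J _))]

/-- The fourth moment of a current. -/
lemma cur_four_le (hJ : ∀ b, 0 ≤ J b ∧ J b ≤ β) (hE : Avg J S E) (i : Fin 3)
    {h : Site L₁ L₂ → ℝ} (hh : ∀ x, x ∉ S → h x = 0) :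
    E (fun σ => (cur J i h σ ^ 2) ^ 2) ≤ 27 * β ^ 2 * dsq h ^ 2 := by
  have hβ0 : ∀ b : Bond L₁ L₂, 0 ≤ β := fun b => (hJ b).1.trans (hJ b).2
  have hd : ∀ b, dw i h (xw i h) b = (-(dd h b ^ 2)) • (gen i * gen i) := by
    intro b
    simp only [dw, xw, Matrix.smul_mul, Matrix.mul_smul, smul_smul, ← sub_smul]
    congr 1
    rw [dd]; ring
  have hpt : ∀ σ, |lin J (dw i h (xw i h)) σ| ≤ 3 * β * dsq h := by
    intro σ
    simp only [dsq, mul_sum]
    refine (abs_sum_le_sum_abs _ _).trans (sum_le_sum fun b _ => ?_)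
    rw [hd, bil_smul, abs_mul, abs_mul, abs_neg, abs_of_nonneg (hJ b).1,
      abs_of_nonneg (sq_nonneg _)]
    calc J b * (dd h b ^ 2 * |bil (gen i * gen i) σ b|)
        ≤ β * (dd h b ^ 2 * 3) := mul_le_mul (hJ b).2 (mul_le_mul_of_nonneg_left
          (abs_bil_le ((rowLe_gen i).mul (rowLe_gen i)) σ b) (sq_nonneg _)) (by positivity)
          (hβ0 b)
      _ = 3 * β * dd h b ^ 2 := by ring
  have hb : 0 ≤ 3 * β * dsq h := (abs_nonneg _).trans (hpt fun _ => pole)
  have h2 : E (fun σ => cur J i h σ ^ 2) ≤ 3 * β * dsq h := by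
    have := ward_one hE (i := i) hh (xw i h)
    simp only [← pow_two, cur] at this ⊢
    rw [this]
    have := hE.mono _ (fun _ => 3 * β * dsq h) (continuous_form J _) continuous_const
      fun σ => (abs_le.1 (hpt σ)).2
    rwa [avg_const hE] at this
  have h4 : E (fun σ => (cur J i h σ ^ 2) ^ 2) =
      E (fun σ => 3 * (lin J (dw i h (xw i h)) σ * cur J i h σ ^ 2)) := by
    have := hE.ward i h [xw i h, xw i h, xw i h] hh (by simp)
    simp only [List.map_cons, List.map_nil, List.prod_cons, List.prod_nil, mul_one,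
      List.length_cons, List.length_nil, sum_range_succ, sum_range_zero, List.modify_zero_cons,
      List.modify_succ_cons, zero_add] at this
    refine ((avg_congr fun σ => ?_).trans this).trans (avg_congr fun σ => ?_)
    · simp only [cur]; ring
    · simp only [cur]; ring
  have hc := continuous_current J i h
  have hl := continuous_form J (dw i h (xw i h))
  rw [h4]
  calc E (fun σ => 3 * (lin J (dw i h (xw i h)) σ * cur J i h σ ^ 2))
      ≤ E (fun σ => (3 * (3 * β * dsq h)) * cur J i h σ ^ 2) :=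
        hE.mono _ _ (by fun_prop) (by fun_prop) fun σ => by
          rw [mul_assoc 3 (3 * β * dsq h)]
          exact mul_le_mul_of_nonneg_left
            (mul_le_mul_of_nonneg_right (abs_le.1 (hpt σ)).2 (sq_nonneg _)) (by norm_num)
    _ = 3 * (3 * β * dsq h) * E (fun σ => cur J i h σ ^ 2) := hE.smul _ _ (by fun_prop)
    _ ≤ 3 * (3 * β * dsq h) * (3 * β * dsq h) := mul_le_mul_of_nonneg_left h2 (by positivity)
    _ = 27 * β ^ 2 * dsq h ^ 2 := by ring

/-- The second moment of the derivative of a current. -/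
theorem sq_deriv_le (hJ : ∀ b, 0 ≤ J b ∧ J b ≤ β) (hβ : 1 ≤ β) (hE : Avg J S E) (i q : Fin 3)
    {φ Q : Site L₁ L₂ → ℝ} (hφ : ∀ x, x ∉ S → φ x = 0) (hQ : ∀ x, x ∉ S → Q x = 0) :
    E (fun σ => lin J (dw i φ (xw q Q)) σ ^ 2) ≤ 100 * β ^ 2 * usz φ Q := by
  have hD : ∀ h : Site L₁ L₂ → ℝ, 0 ≤ dsq h := fun h => sum_nonneg fun b _ => sq_nonneg _
  have hU := continuous_form J (dw i φ (xw q Q))
  have hW := continuous_form J (dw i φ (dw i φ (xw q Q)))
  have hX := continuous_current J i φ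
  have hY := continuous_current J q Q
  set A := ∑ b, dd Q b ^ 2 * ends φ b ^ 2
  have hA : 0 ≤ A := sum_nonneg fun b _ => by positivity
  set t := E (fun σ => lin J (dw i φ (xw q Q)) σ ^ 2)
  have h1 : E (fun σ => cur J i φ σ * (lin J (dw i φ (xw q Q)) σ * cur J q Q σ)) =
      E (fun σ => lin J (dw i φ (dw i φ (xw q Q))) σ * cur J q Q σ) + t := by
    refine (ward_two hE hφ (dw i φ (xw q Q)) (xw q Q)).trans (congrArg₂ (· + ·) rfl ?_)
    exact avg_congr fun σ => (sq _).symm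
  have h2 : |E (fun σ => lin J (dw i φ (dw i φ (xw q Q))) σ * cur J q Q σ)| ≤ 3 * β * A := by
    rw [avg_congr (E := E) (f := fun σ => lin J (dw i φ (dw i φ (xw q Q))) σ * cur J q Q σ)
      (fun σ => mul_comm _ _), ward_one hE hQ]
    refine (abs_avg_lin_le hJ hE _).trans ?_
    rw [show 3 * β * A = β * ∑ b, 3 * (dd Q b ^ 2 * ends φ b ^ 2) by rw [← mul_sum]; ring]
    refine mul_le_mul_of_nonneg_left (sum_le_sum fun b _ =>
      (abs_trace_dw3 i i q q φ φ Q Q b).trans (le_of_eq ?_)) (by linarith)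
    rw [← sq_abs (dd Q b)]
    ring
  have h3 : |E (fun σ => cur J i φ σ * (lin J (dw i φ (xw q Q)) σ * cur J q Q σ))| ≤
      √t * √(27 * β ^ 2 * (dsq φ * dsq Q)) := by
    rw [avg_congr (E := E) (f := fun σ => cur J i φ σ * (lin J (dw i φ (xw q Q)) σ * cur J q Q σ))
      (g := fun σ => lin J (dw i φ (xw q Q)) σ * (cur J i φ σ * cur J q Q σ)) fun σ => by ring]
    refine (avg_mul_sq_le hE hU (hX.mul hY)).trans
      (mul_le_mul_of_nonneg_left (Real.sqrt_le_sqrt ?_) (Real.sqrt_nonneg _))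
    have h := avg_mul_sq_le hE (hX.pow 2) (hY.pow 2)
    refine ((avg_congr fun σ => (mul_pow _ _ 2)).trans_le ((le_abs_self _).trans h)).trans ?_
    refine (mul_le_mul (Real.sqrt_le_sqrt (cur_four_le hJ hE i hφ))
      (Real.sqrt_le_sqrt (cur_four_le hJ hE q hQ)) (Real.sqrt_nonneg _) (Real.sqrt_nonneg _)).trans ?_
    have e : ∀ h : Site L₁ L₂ → ℝ, 27 * β ^ 2 * dsq h ^ 2 = 27 * (β * dsq h) ^ 2 := fun h => by ring
    rw [e, e, Real.sqrt_mul (by norm_num), Real.sqrt_mul (by norm_num),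
      Real.sqrt_sq (mul_nonneg (by linarith) (hD φ)), Real.sqrt_sq (mul_nonneg (by linarith) (hD Q))]
    refine le_of_eq ?_
    linear_combination (β ^ 2 * (dsq φ * dsq Q)) * Real.mul_self_sqrt (show (0 : ℝ) ≤ 27 by norm_num)
  have ht : 0 ≤ t := avg_nonneg hE (hU.pow 2) fun σ => sq_nonneg _
  have hB : (0 : ℝ) ≤ 27 * β ^ 2 * (dsq φ * dsq Q) :=
    mul_nonneg (by positivity) (mul_nonneg (hD _) (hD _))
  have h4 : √t * √(27 * β ^ 2 * (dsq φ * dsq Q)) ≤ t / 2 + 27 * β ^ 2 * (dsq φ * dsq Q) / 2 := by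
    nlinarith [sq_nonneg (√t - √(27 * β ^ 2 * (dsq φ * dsq Q))), Real.mul_self_sqrt ht,
      Real.mul_self_sqrt hB]
  have h5 : t ≤ 27 * β ^ 2 * (dsq φ * dsq Q) + 6 * β * A := by
    linarith [(abs_le.1 h2).1, (abs_le.1 h3).2, h1, h4]
  rw [usz]
  have : β * A ≤ β ^ 2 * A := by
    rw [pow_two, mul_assoc]
    exact le_mul_of_one_le_left (mul_nonneg (by linarith) hA) hβ
  nlinarith [mul_nonneg (pow_nonneg (zero_le_one.trans hβ) 2) (mul_nonneg (hD φ) (hD Q)),
    mul_nonneg (pow_nonneg (zero_le_one.trans hβ) 2) hA]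

/-- The bound on a triple product. -/
theorem triple_le (hJ : ∀ b, 0 ≤ J b ∧ J b ≤ β) (hβ : 1 ≤ β) (hE : Avg J S E)
    (i p q r : Fin 3) {φ₁ φ₂ Q R Q' R' : Site L₁ L₂ → ℝ}
    (h₁ : ∀ x, x ∉ S → φ₁ x = 0) (h₂ : ∀ x, x ∉ S → φ₂ x = 0)
    (hR : ∀ x, x ∉ S → R x = 0)
    (hQ' : ∀ x, x ∉ S → Q' x = 0) (hR' : ∀ x, x ∉ S → R' x = 0)
    (hQloc : ∀ b, ends φ₁ b ≠ 0 → dd Q' b = dd Q b)
    (hRloc : ∀ b, ends φ₂ b ≠ 0 → dd R' b = dd R b) :
    |E (fun σ => cur J p φ₂ σ * (lin J (dw i φ₁ (xw q Q)) σ * cur J r R σ))| ≤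
      100 * β ^ 2 * ((∑ b, ends φ₁ b * ends φ₂ b * |dd Q b| * |dd R b|) +
        Real.sqrt (usz φ₁ Q') * Real.sqrt (usz φ₂ R')) := by
  have loc : ∀ (φ Q Q' : Site L₁ L₂ → ℝ) (i q : Fin 3),
      (∀ b, ends φ b ≠ 0 → dd Q' b = dd Q b) → dw i φ (xw q Q) = dw i φ (xw q Q') := by
    intro φ Q Q' i q h
    funext b
    by_cases he : ends φ b = 0
    · have h0 : |φ b.1| = 0 ∧ |φ (tip b)| = 0 :=
        (add_eq_zero_iff_of_nonneg (abs_nonneg _) (abs_nonneg _)).1 he
      simp [dw, abs_eq_zero.1 h0.1, abs_eq_zero.1 h0.2]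
    · simp [dw, xw, h b he]
  set A := ∑ b, ends φ₁ b * ends φ₂ b * |dd Q b| * |dd R b|
  have hA : 0 ≤ A := sum_nonneg fun b _ => by unfold ends; positivity
  have h1 : |E (fun σ => lin J (dw p φ₂ (dw i φ₁ (xw q Q))) σ * cur J r R σ)| ≤ 3 * β * A := by
    rw [avg_congr (E := E) (f := fun σ => lin J (dw p φ₂ (dw i φ₁ (xw q Q))) σ * cur J r R σ)
      (fun σ => mul_comm _ _), ward_one hE hR]
    refine (abs_avg_lin_le hJ hE _).trans ?_
    rw [show 3 * β * A = β * ∑ b, 3 * (ends φ₁ b * ends φ₂ b * |dd Q b| * |dd R b|) by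
      rw [← mul_sum]; ring]
    exact mul_le_mul_of_nonneg_left (sum_le_sum fun b _ => abs_trace_dw3 i p q r φ₁ φ₂ Q R b)
      (by linarith)
  have h2 : |E (fun σ => lin J (dw i φ₁ (xw q Q)) σ * lin J (dw p φ₂ (xw r R)) σ)| ≤
      100 * β ^ 2 * (√(usz φ₁ Q') * √(usz φ₂ R')) := by
    rw [loc φ₁ Q Q' i q hQloc, loc φ₂ R R' p r hRloc]
    refine (avg_mul_sq_le hE (continuous_form J _) (continuous_form J _)).trans ?_
    refine (mul_le_mul (Real.sqrt_le_sqrt (sq_deriv_le hJ hβ hE i q h₁ hQ'))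
      (Real.sqrt_le_sqrt (sq_deriv_le hJ hβ hE p r h₂ hR')) (Real.sqrt_nonneg _)
      (Real.sqrt_nonneg _)).trans (le_of_eq ?_)
    rw [Real.sqrt_mul (show (0 : ℝ) ≤ 100 * β ^ 2 by positivity),
      Real.sqrt_mul (show (0 : ℝ) ≤ 100 * β ^ 2 by positivity)]
    linear_combination (√(usz φ₁ Q') * √(usz φ₂ R')) *
      Real.mul_self_sqrt (show (0 : ℝ) ≤ 100 * β ^ 2 by positivity)
  rw [avg_congr (E := E) (f := fun σ => cur J p φ₂ σ * (lin J (dw i φ₁ (xw q Q)) σ * cur J r R σ))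
    (g := fun σ => cur J p φ₂ σ * (lin J (dw i φ₁ (xw q Q)) σ * lin J (xw r R) σ)) fun σ => rfl,
    ward_two hE h₂]
  refine (abs_add_le _ _).trans ((add_le_add h1 h2).trans ?_)
  rw [mul_add]
  gcongr
  · norm_num
  · exact le_self_pow₀ hβ two_ne_zero

/-- The current of the twist is orthogonal to an antisymmetrised pair. -/
theorem cur_pair_eq_zero (hE : Avg J S E) {f h g : Site L₁ L₂ → ℝ}
    (hf : ∀ x, x ∉ S → f x = 0) (hh : ∀ x, x ∉ S → h x = 0) (hg : ∀ x, x ∉ S → g x = 0) :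
    E (fun σ => cur J 2 f σ * (cur J 0 h σ * cur J 1 g σ - cur J 1 h σ * cur J 0 g σ)) = 0 := by
  have key : ∀ (q r : Fin 3) (u v : Site L₁ L₂ → ℝ), (∀ x, x ∉ S → u x = 0) →
      (∀ x, x ∉ S → v x = 0) →
      E (fun σ => cur J 2 f σ * (cur J q u σ * cur J r v σ)) =
        E (lin J (dw r v (dw 2 f (xw q u)))) + E (lin J (dw q u (dw 2 f (xw r v)))) := by
    intro q r u v hu hv
    refine (ward_two hE hf (xw q u) (xw r v)).trans (congrArg₂ (· + ·) ?_ ?_)
    · exact (avg_congr fun σ => mul_comm _ _).trans (ward_one hE hv _)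
    · exact ward_one hE hu _
  have c2 : ∀ q r : Fin 3, ∀ u v : Site L₁ L₂ → ℝ,
      Continuous fun σ => cur J 2 f σ * (cur J q u σ * cur J r v σ) := fun q r u v =>
    (continuous_current J _ _).mul ((continuous_current J _ _).mul (continuous_current J _ _))
  have e : E (fun σ => cur J 2 f σ * (cur J 0 h σ * cur J 1 g σ - cur J 1 h σ * cur J 0 g σ)) =
      E (fun σ => cur J 2 f σ * (cur J 0 h σ * cur J 1 g σ)) +
        (-1) * E (fun σ => cur J 2 f σ * (cur J 1 h σ * cur J 0 g σ)) := by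
    rw [← hE.smul _ _ (c2 1 0 h g), ← hE.add _ _ (c2 0 1 h g) ((c2 1 0 h g).const_smul (-1 : ℝ) |>.congr
      fun σ => by simp)]
    exact avg_congr fun σ => by ring
  rw [e, key 0 1 h g hh hg, key 1 0 h g hh hg, hE.trace (dw 1 g (dw 2 f (xw 0 h))),
    hE.trace (dw 0 h (dw 2 f (xw 1 g))), hE.trace (dw 0 g (dw 2 f (xw 1 h))),
    hE.trace (dw 1 h (dw 2 f (xw 0 g))), ← hE.add _ _ (continuous_form J _) (continuous_form J _),
    ← hE.add _ _ (continuous_form J _) (continuous_form J _), neg_one_mul, ← sub_eq_add_neg,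
    sub_eq_zero]
  refine avg_congr fun σ => ?_
  simp only [lin, ← sum_add_distrib]
  refine sum_congr rfl fun b _ => ?_
  rw [bil_smul, bil_smul, bil_smul, bil_smul, trace_dw, trace_dw, trace_dw, trace_dw, ← mul_add,
    ← mul_add, ← add_mul, ← add_mul]
  congr 2
  simp [dw, xw, gen, Matrix.trace_fin_three]
  ring

end Vale.Agent.P163.Gap
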