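import Vale.Agent.P163.Gap.Main

/-!
Infinite volume states: local weak limits of finite free or periodic volumes.
-/

open MeasureTheory Filter
open scoped Topology

namespace Vale.Agent.P163.Gap

/-- A continuous observable depending on finitely many spins. -/
def IsLocal {n : ℕ} (G : (ℤ × ℤ → Sph n) → ℝ) : Prop :=
  Continuous G ∧ ∃ S : Finset (ℤ × ℤ), ∀ σ τ, (∀ z ∈ S, σ z = τ z) → G σ = G τ

/-- The free finite volume expectation of an observable, with any spins `η` outside the volume. -/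
noncomputable def freeExp (n : ℕ) (β : ℝ) (Λ : Finset (ℤ × ℤ)) (η : ℤ × ℤ → Sph n)
    (G : (ℤ × ℤ → Sph n) → ℝ) : ℝ :=
  (∫ σ, G (fun z => if h : z ∈ Λ then σ ⟨z, h⟩ else η z) * weight β (freeBonds Λ) σ
      ∂freeMeasure n ↥Λ) /
    ∫ σ, weight β (freeBonds Λ) σ ∂freeMeasure n ↥Λ

/-- The periodic finite volume expectation of an observable. -/
noncomputable def torusExp (n : ℕ) (β : ℝ) (L₁ L₂ : ℕ) [NeZero L₁] [NeZero L₂]
    (G : (ℤ × ℤ → Sph n) → ℝ) : ℝ :=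
  (∫ σ, G (fun z => σ ((z.1 : ZMod L₁), (z.2 : ZMod L₂))) * weight β (rectBonds L₁ L₂) σ
      ∂freeMeasure n (ZMod L₁ × ZMod L₂)) /
    ∫ σ, weight β (rectBonds L₁ L₂) σ ∂freeMeasure n (ZMod L₁ × ZMod L₂)

/-- An infinite volume state: a local weak limit of free volumes exhausting the lattice, or of
periodic volumes with both sides tending to infinity. -/
def IsState (n : ℕ) (β : ℝ) (μ : Measure (ℤ × ℤ → Sph n)) : Prop :=
  (∃ (Λ : ℕ → Finset (ℤ × ℤ)) (η : ℤ × ℤ → Sph n), (∀ z, ∀ᶠ k in atTop, z ∈ Λ k) ∧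
      ∀ G, IsLocal G → Tendsto (fun k => freeExp n β (Λ k) η G) atTop (𝓝 (∫ σ, G σ ∂μ))) ∨
    ∃ a b : ℕ → ℕ, Tendsto a atTop atTop ∧ Tendsto b atTop atTop ∧
      ∀ G, IsLocal G → Tendsto (fun k => torusExp n β (a k + 1) (b k + 1) G) atTop
        (𝓝 (∫ σ, G σ ∂μ))

/-- Question 2: exponential decay in every infinite volume state and in all finite volumes. -/
theorem mass_gap_states (n : ℕ) (hn : 3 ≤ n) (β : ℝ) (hβ : 0 < β) :
    ∃ C m : ℝ, 0 < m ∧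
      (∀ μ : Measure (ℤ × ℤ → Sph n), IsState n β μ → ∀ x y : ℤ × ℤ,
        |∫ σ, inner ℝ (σ x : Vec n) (σ y : Vec n) ∂μ| ≤ C * Real.exp (-(m * eDist x y))) ∧
      (∀ (Λ : Finset (ℤ × ℤ)) (x y : ↥Λ),
        |corr n β (freeBonds Λ) x y| ≤ C * Real.exp (-(m * eDist x y))) ∧
      (∀ (L : ℕ) [NeZero L] (u v : ℤ × ℤ),
        2 * (v.1 - u.1).natAbs ≤ L → 2 * (v.2 - u.2).natAbs ≤ L →
        |corr n β (torusBonds L) (proj L u) (proj L v)| ≤ C * Real.exp (-(m * eDist u v))) ∧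
      ∃ L₀ : ℕ, ∀ (L₁ L₂ : ℕ) [NeZero L₁] [NeZero L₂] (u v : ℤ × ℤ), L₀ ≤ L₁ → L₀ ≤ L₂ →
        2 * (v.1 - u.1).natAbs ≤ L₁ → 2 * (v.2 - u.2).natAbs ≤ L₂ →
        |corr n β (rectBonds L₁ L₂) ((u.1 : ZMod L₁), (u.2 : ZMod L₂))
          ((v.1 : ZMod L₁), (v.2 : ZMod L₂))| ≤ C * Real.exp (-(m * eDist u v)) := by
  obtain ⟨C, m, L₀, hm, hfree, hsq, hrect⟩ := mass_gap n hn β hβ
  refine ⟨C, m, hm, ?_, hfree, hsq, L₀, hrect⟩
  intro μ hμ x y
  have hloc : IsLocal fun σ : ℤ × ℤ → Sph n => inner ℝ (σ x : Vec n) (σ y : Vec n) :=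
    ⟨by fun_prop, {x, y}, fun σ τ h => by simp only [h x (by simp), h y (by simp)]⟩
  rcases hμ with ⟨Λ, η, hΛ, h⟩ | ⟨a, b, ha, hb, h⟩
  · refine le_of_tendsto (h _ hloc).abs ?_
    filter_upwards [hΛ x, hΛ y] with k hx hy
    have := hfree (Λ k) ⟨x, hx⟩ ⟨y, hy⟩
    simpa only [freeExp, corr, dif_pos hx, dif_pos hy] using this
  · refine le_of_tendsto (h _ hloc).abs ?_
    filter_upwards [ha.eventually_ge_atTop L₀, hb.eventually_ge_atTop L₀,
      ha.eventually_ge_atTop (2 * (y.1 - x.1).natAbs),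
      hb.eventually_ge_atTop (2 * (y.2 - x.2).natAbs)] with k h₁ h₂ h₁' h₂'
    exact hrect (a k + 1) (b k + 1) x y (by omega) (by omega) (by omega) (by omega)

end Vale.Agent.P163.Gap
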