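import Vale.Agent.P163.Gap.Moments
import Vale.Agent.P163.Gap.Window

/-!
The local part of the stiffness bound: cut-off observables and the cost of a pair of windows.
-/

open MeasureTheory Real Matrix Finset
open scoped BigOperators

namespace Vale.Agent.P163.Gap

variable {L₁ L₂ : ℕ} [NeZero L₁] [NeZero L₂]

/-- The window at `z`, times the centred profile of the annulus if `g`. -/
noncomputable def sel (c : Site L₁ L₂) (r ℓ : ℕ) (g : Bool) (z x : Site L₁ L₂) : ℝ :=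
  if g then win ℓ z x * (prof c r x - prof c r z) else win ℓ z x

/-- The size of a factor of a window. -/
noncomputable def selSup (r ℓ : ℕ) (g : Bool) : ℝ := if g then ℓ / r else 1

/-- The Lipschitz constant of a factor of a window. -/
noncomputable def selLip (r ℓ : ℕ) (g : Bool) : ℝ := if g then 3 / r else 2 / ℓ

lemma tent_sub_le {L : ℕ} [NeZero L] (ℓ : ℕ) (a b : ZMod L) :
    |tent ℓ a - tent ℓ b| ≤ ((a - b).valMinAbs.natAbs : ℝ) / ℓ := by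
  have h1 : ∀ u v : ZMod L, u.valMinAbs.natAbs ≤ v.valMinAbs.natAbs + (u - v).valMinAbs.natAbs :=
    fun u v => by
      have := ((ZMod.natAbs_valMinAbs_add_le v (u - v)).trans (Int.natAbs_add_le _ _))
      simpa using this
  have h2 := h1 a b
  have h3 := h1 b a
  rw [← neg_sub a b, ZMod.natAbs_valMinAbs_neg] at h3
  have h2' : (a.valMinAbs.natAbs : ℝ) ≤ b.valMinAbs.natAbs + (a - b).valMinAbs.natAbs := by
    exact_mod_cast h2
  have h3' : (b.valMinAbs.natAbs : ℝ) ≤ a.valMinAbs.natAbs + (a - b).valMinAbs.natAbs := by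
    exact_mod_cast h3
  refine (abs_max_sub_max_le_max _ _ _ _).trans (max_le (by simp; positivity) ?_)
  rw [show (1 : ℝ) - a.valMinAbs.natAbs / ℓ - (1 - b.valMinAbs.natAbs / ℓ) =
    ((b.valMinAbs.natAbs : ℝ) - a.valMinAbs.natAbs) / ℓ by ring, abs_div, Nat.abs_cast]
  exact div_le_div_of_nonneg_right (abs_sub_le_iff.2 ⟨by linarith, by linarith⟩) (Nat.cast_nonneg _)

lemma tent_mem {L : ℕ} (ℓ : ℕ) (a : ZMod L) : 0 ≤ tent ℓ a ∧ tent ℓ a ≤ 1 := by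
  refine ⟨le_max_left _ _, max_le zero_le_one ?_⟩
  have : (0 : ℝ) ≤ (a.valMinAbs.natAbs : ℝ) / ℓ := by positivity
  linarith

lemma win_sub_le (ℓ : ℕ) (z x y : Site L₁ L₂) :
    |win ℓ z x - win ℓ z y| ≤ 2 / ℓ * (td x y : ℝ) := by
  have hA := tent_mem ℓ (x.2 - z.2)
  have hB := tent_mem ℓ (y.1 - z.1)
  have h1 := tent_sub_le ℓ (x.1 - z.1) (y.1 - z.1)
  have h2 := tent_sub_le ℓ (x.2 - z.2) (y.2 - z.2)
  rw [sub_sub_sub_cancel_right, ← neg_sub y.1, ZMod.natAbs_valMinAbs_neg] at h1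
  rw [sub_sub_sub_cancel_right, ← neg_sub y.2, ZMod.natAbs_valMinAbs_neg] at h2
  have h1' : ((y.1 - x.1).valMinAbs.natAbs : ℝ) ≤ td x y := by exact_mod_cast le_max_left _ _
  have h2' : ((y.2 - x.2).valMinAbs.natAbs : ℝ) ≤ td x y := by exact_mod_cast le_max_right _ _
  have e1 : ((y.1 - x.1).valMinAbs.natAbs : ℝ) / ℓ ≤ td x y / ℓ :=
    div_le_div_of_nonneg_right h1' (Nat.cast_nonneg _)
  have e2 : ((y.2 - x.2).valMinAbs.natAbs : ℝ) / ℓ ≤ td x y / ℓ :=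
    div_le_div_of_nonneg_right h2' (Nat.cast_nonneg _)
  have e3 : win ℓ z x - win ℓ z y = (tent ℓ (x.1 - z.1) - tent ℓ (y.1 - z.1)) * tent ℓ (x.2 - z.2)
      + tent ℓ (y.1 - z.1) * (tent ℓ (x.2 - z.2) - tent ℓ (y.2 - z.2)) := by
    simp only [win]; ring
  rw [e3]
  refine (abs_add_le _ _).trans ?_
  rw [abs_mul, abs_mul, abs_of_nonneg hA.1, abs_of_nonneg hB.1]
  refine (add_le_add (mul_le_of_le_one_right (abs_nonneg _) hA.2)
    (mul_le_of_le_one_left (abs_nonneg _) hB.2)).trans ?_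
  calc _ ≤ (td x y : ℝ) / ℓ + td x y / ℓ := add_le_add (h1.trans e1) (h2.trans e2)
    _ = _ := by ring

section sel

variable (c : Site L₁ L₂) (r ℓ : ℕ) (g : Bool) (z : Site L₁ L₂)

lemma selSup_nonneg : 0 ≤ selSup r ℓ g := by unfold selSup; split_ifs <;> positivity

lemma selLip_nonneg : 0 ≤ selLip r ℓ g := by unfold selLip; split_ifs <;> positivity

lemma sel_ne_zero (hℓ : 1 ≤ ℓ) {x : Site L₁ L₂} (h : sel c r ℓ g z x ≠ 0) : td z x ≤ ℓ := by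
  refine ((win_bounds ℓ hℓ z).1 x).2.2 fun h0 => h ?_
  cases g <;> simp [sel, h0]

lemma prof_near (hr : 1 ≤ r) {x : Site L₁ L₂} (hx : td z x ≤ ℓ) :
    |prof c r x - prof c r z| ≤ (ℓ : ℝ) / r := by
  refine ((prof_bounds c r hr).2.1 x z).trans (div_le_div_of_nonneg_right ?_ (Nat.cast_nonneg _))
  rw [td_comm]; exact_mod_cast hx

lemma abs_sel_le (hℓ : 1 ≤ ℓ) (hr : 1 ≤ r) (x : Site L₁ L₂) :
    |sel c r ℓ g z x| ≤ selSup r ℓ g := by
  obtain ⟨h0, h1, h2⟩ := (win_bounds ℓ hℓ z).1 x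
  cases g
  · simpa [sel, selSup, abs_of_nonneg h0] using h1
  · simp only [sel, selSup, if_true, abs_mul, abs_of_nonneg h0]
    rcases eq_or_ne (win ℓ z x) 0 with h | h
    · rw [h, zero_mul]; positivity
    · exact (mul_le_of_le_one_left (abs_nonneg _) h1).trans (prof_near c r ℓ z hr (h2 h))

lemma sel_sub_le (hℓ : 1 ≤ ℓ) (hr : 1 ≤ r) (x y : Site L₁ L₂) :
    |sel c r ℓ g z x - sel c r ℓ g z y| ≤ selLip r ℓ g * (td x y : ℝ) := by
  cases g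
  · simpa [sel, selLip] using win_sub_le ℓ z x y
  simp only [sel, selLip, if_true]
  have key : ∀ x y, win ℓ z x ≠ 0 →
      |win ℓ z x * (prof c r x - prof c r z) - win ℓ z y * (prof c r y - prof c r z)| ≤
        3 / (r : ℝ) * (td x y : ℝ) := by
    intro x y hx
    obtain ⟨h0, h1, -⟩ := (win_bounds ℓ hℓ z).1 y
    have hp := prof_near c r ℓ z hr (((win_bounds ℓ hℓ z).1 x).2.2 hx)
    have e : win ℓ z x * (prof c r x - prof c r z) - win ℓ z y * (prof c r y - prof c r z) =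
        (win ℓ z x - win ℓ z y) * (prof c r x - prof c r z) +
          win ℓ z y * (prof c r x - prof c r y) := by ring
    rw [e]
    refine (abs_add_le _ _).trans ?_
    rw [abs_mul, abs_mul, abs_of_nonneg h0]
    refine (add_le_add (mul_le_mul (win_sub_le ℓ z x y) hp (abs_nonneg _) (by positivity))
      ((mul_le_of_le_one_left (abs_nonneg _) h1).trans ((prof_bounds c r hr).2.1 x y))).trans
      (le_of_eq ?_)
    have hℓ' : (ℓ : ℝ) ≠ 0 := by positivity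
    field_simp
    ring
  by_cases hx : win ℓ z x = 0
  · by_cases hy : win ℓ z y = 0
    · rw [hx, hy]; simp; positivity
    · rw [abs_sub_comm, td_comm]; exact key y x hy
  · exact key x y hx

lemma sel_supp (hℓ : 1 ≤ ℓ) {S : Finset (Site L₁ L₂)} (hS : ball c (4 * r) ⊆ S)
    (hℓr : ℓ ≤ r) (hz : td c z ≤ 3 * r) {x : Site L₁ L₂} (hx : x ∉ S) :
    sel c r ℓ g z x = 0 := by
  by_contra h
  refine hx (hS (Finset.mem_filter.2 ⟨Finset.mem_univ _, ?_⟩))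
  have := sel_ne_zero c r ℓ g z hℓ h
  have := td_triangle c z x
  omega

lemma sel_true_eq_zero (hℓ : 1 ≤ ℓ) (hr : 1 ≤ r) (hz : 2 * r + ℓ < td c z) :
    sel c r ℓ true z = 0 := by
  funext x
  by_contra h
  refine h ?_
  have hx := sel_ne_zero c r ℓ true z hℓ h
  have h1 := td_triangle c x z
  rw [td_comm x z] at h1
  simp only [sel, if_true]
  rw [((prof_bounds c r hr).1 x).2.2.2 (by omega), ((prof_bounds c r hr).1 z).2.2.2 (by omega),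
    sub_self, mul_zero]
  rfl

end sel

/-- A function localised near `z`. -/
structure LocFn (z : Site L₁ L₂) (ℓ : ℕ) (s lp : ℝ) (φ : Site L₁ L₂ → ℝ) : Prop where
  supp : ∀ x, φ x ≠ 0 → td z x ≤ ℓ
  sup : ∀ x, |φ x| ≤ s
  lip : ∀ x y, |φ x - φ y| ≤ lp * (td x y : ℝ)

lemma locFn_sel (c : Site L₁ L₂) {r ℓ : ℕ} (hℓ : 1 ≤ ℓ) (hr : 1 ≤ r) (g : Bool)
    (z : Site L₁ L₂) : LocFn z ℓ (selSup r ℓ g) (selLip r ℓ g) (sel c r ℓ g z) :=
  ⟨fun _ h => sel_ne_zero c r ℓ g z hℓ h, abs_sel_le c r ℓ g z hℓ hr, sel_sub_le c r ℓ g z hℓ hr⟩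

lemma abs_dd_le {lp : ℝ} {φ : Site L₁ L₂ → ℝ} (hlp : 0 ≤ lp)
    (h : ∀ x y, |φ x - φ y| ≤ lp * (td x y : ℝ)) (b : Bond L₁ L₂) : |dd φ b| ≤ lp := by
  refine (h _ _).trans (mul_le_of_le_one_right hlp ?_)
  rw [td_comm]; exact_mod_cast td_tip b

lemma near_of_end {z : Site L₁ L₂} {ℓ : ℕ} {φ : Site L₁ L₂ → ℝ}
    (hsupp : ∀ x, φ x ≠ 0 → td z x ≤ ℓ) {b : Bond L₁ L₂} (h : φ b.1 ≠ 0 ∨ φ (tip b) ≠ 0) :
    td z b.1 ≤ ℓ + 1 := by
  rcases h with h | h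
  · exact (hsupp _ h).trans (Nat.le_succ _)
  · have h1 := td_tip b
    rw [td_comm] at h1
    have := td_triangle z (tip b) b.1
    have := hsupp _ h
    omega

lemma LocFn.ends_le {z : Site L₁ L₂} {ℓ : ℕ} {s lp : ℝ} {φ : Site L₁ L₂ → ℝ}
    (h : LocFn z ℓ s lp φ) (b : Bond L₁ L₂) :
    ends φ b ≤ 2 * s ∧ (ends φ b ≠ 0 → td z b.1 ≤ ℓ + 1) := by
  refine ⟨by unfold ends; linarith [h.sup b.1, h.sup (tip b)], fun hne => near_of_end h.supp ?_⟩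
  by_contra h'
  push Not at h'
  exact hne (by simp [ends, h'.1, h'.2])

lemma sum_near_le (z : Site L₁ L₂) (k : ℕ) (F : Bond L₁ L₂ → ℝ) {M : ℝ} (hM : 0 ≤ M)
    (hF : ∀ b, td z b.1 ≤ k → F b ≤ M) (h0 : ∀ b, k < td z b.1 → F b = 0) :
    ∑ b, F b ≤ 2 * (2 * (k : ℝ) + 1) ^ 2 * M := by
  classical
  rw [← sum_filter_add_sum_filter_not univ (fun b => td z b.1 ≤ k),
    sum_eq_zero (s := univ.filter fun b => ¬ td z b.1 ≤ k)
      (fun b hb => h0 b (not_le.1 (mem_filter.1 hb).2)), add_zero]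
  refine (sum_le_sum fun b hb => hF b (mem_filter.1 hb).2).trans ?_
  rw [sum_const, nsmul_eq_mul]
  refine mul_le_mul_of_nonneg_right ?_ hM
  exact_mod_cast card_bonds_le z k

lemma LocFn.dsq_le {z : Site L₁ L₂} {ℓ : ℕ} {s lp : ℝ} {φ : Site L₁ L₂ → ℝ}
    (h : LocFn z ℓ s lp φ) (hlp : 0 ≤ lp) :
    dsq φ ≤ 2 * (2 * ((ℓ + 1 : ℕ) : ℝ) + 1) ^ 2 * lp ^ 2 := by
  refine sum_near_le z (ℓ + 1) _ (sq_nonneg _) (fun b _ => ?_) fun b hb => ?_
  · exact sq_le_sq' (abs_le.1 (abs_dd_le hlp h.lip b)).1 (abs_le.1 (abs_dd_le hlp h.lip b)).2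
  · by_contra hne
    refine absurd (near_of_end h.supp (b := b) ?_) (not_le.2 hb)
    by_contra h'
    push Not at h'
    exact hne (by simp [dd, h'.1, h'.2])

/-- The observable cut off around `z`, centred at `z`. -/
noncomputable def cutAt (z : Site L₁ L₂) (ℓ : ℕ) (Q : Site L₁ L₂ → ℝ) (x : Site L₁ L₂) : ℝ :=
  (Q x - Q z) * prof z (2 * ℓ) x

lemma cutAt_loc {z : Site L₁ L₂} {ℓ : ℕ} (hℓ : 1 ≤ ℓ) {lp : ℝ} (hlp : 0 ≤ lp)
    {Q : Site L₁ L₂ → ℝ} (h : ∀ x y, |Q x - Q y| ≤ lp * (td x y : ℝ)) :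
    LocFn z (4 * ℓ) (4 * ℓ * lp) (3 * lp) (cutAt z ℓ Q) := by
  obtain ⟨hp, hl, -⟩ := prof_bounds z (2 * ℓ) (by omega)
  have hsupp : ∀ x, prof z (2 * ℓ) x ≠ 0 → td z x ≤ 4 * ℓ := fun x hx => by
    by_contra h'
    exact hx ((hp x).2.2.2 (by omega))
  have hnear : ∀ x, prof z (2 * ℓ) x ≠ 0 → |Q x - Q z| ≤ 4 * ℓ * lp := fun x hx => by
    have h1 : (td z x : ℝ) ≤ 4 * ℓ := by exact_mod_cast hsupp x hx
    rw [abs_sub_comm]
    refine (h z x).trans ((mul_le_mul_of_nonneg_left h1 hlp).trans_eq (mul_comm _ _))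
  refine ⟨fun x hx => hsupp x fun h0 => hx (by simp [cutAt, h0]), fun x => ?_, fun x y => ?_⟩
  · rcases eq_or_ne (prof z (2 * ℓ) x) 0 with h0 | h0
    · simp [cutAt, h0]; positivity
    · rw [cutAt, abs_mul, abs_of_nonneg (hp x).1]
      exact (mul_le_of_le_one_right (abs_nonneg _) (hp x).2.1).trans (hnear x h0)
  have key : ∀ x y, prof z (2 * ℓ) x ≠ 0 →
      |cutAt z ℓ Q x - cutAt z ℓ Q y| ≤ 3 * lp * (td x y : ℝ) := by
    intro x y hx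
    have e : cutAt z ℓ Q x - cutAt z ℓ Q y =
        (Q x - Q z) * (prof z (2 * ℓ) x - prof z (2 * ℓ) y) +
          prof z (2 * ℓ) y * (Q x - Q y) := by
      simp only [cutAt]; ring
    rw [e]
    refine (abs_add_le _ _).trans ?_
    rw [abs_mul, abs_mul, abs_of_nonneg (hp y).1]
    refine (add_le_add (mul_le_mul (hnear x hx) (hl x y) (abs_nonneg _) (by positivity))
      ((mul_le_of_le_one_left (abs_nonneg _) (hp y).2.1).trans (h x y))).trans (le_of_eq ?_)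
    have hℓ' : (ℓ : ℝ) ≠ 0 := by positivity
    push_cast
    field_simp
    ring
  by_cases hx : prof z (2 * ℓ) x = 0
  · by_cases hy : prof z (2 * ℓ) y = 0
    · simp [cutAt, hx, hy]; positivity
    · rw [abs_sub_comm, td_comm]; exact key y x hy
  · exact key x y hx

lemma cutAt_dd {z : Site L₁ L₂} {ℓ : ℕ} (hℓ : 1 ≤ ℓ) (Q : Site L₁ L₂ → ℝ) {b : Bond L₁ L₂}
    (hb : td z b.1 ≤ ℓ + 1) (hb' : td z (tip b) ≤ ℓ + 1) :
    dd (cutAt z ℓ Q) b = dd Q b := by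
  obtain ⟨hp, -, -⟩ := prof_bounds z (2 * ℓ) (by omega)
  simp only [dd, cutAt, (hp b.1).2.2.1 (by omega), (hp (tip b)).2.2.1 (by omega)]
  ring

lemma usz_cut_le {z : Site L₁ L₂} {ℓ : ℕ} (hℓ : 1 ≤ ℓ) {s lp lq : ℝ} (hlp : 0 ≤ lp) (hlq : 0 ≤ lq)
    {φ Q : Site L₁ L₂ → ℝ} (hφ : LocFn z ℓ s lp φ) (hs : (ℓ : ℝ) * lp ≤ 3 * s)
    (hQ : ∀ x y, |Q x - Q y| ≤ lq * (td x y : ℝ)) :
    usz φ (cutAt z ℓ Q) ≤ 2000000 * (s * ℓ * lq) ^ 2 := by
  have hs0 : 0 ≤ s := (abs_nonneg _).trans (hφ.sup z)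
  have hℓ' : (1 : ℝ) ≤ ℓ := by exact_mod_cast hℓ
  have hC := cutAt_loc (z := z) hℓ hlq hQ
  have h1 := hφ.dsq_le hlp
  have h2 := hC.dsq_le (by positivity)
  have h3 : ∑ b, dd (cutAt z ℓ Q) b ^ 2 * ends φ b ^ 2 ≤
      2 * (2 * ((ℓ + 1 : ℕ) : ℝ) + 1) ^ 2 * ((3 * lq) ^ 2 * (2 * s) ^ 2) := by
    refine sum_near_le z (ℓ + 1) _ (by positivity) (fun b _ => ?_) fun b hb => ?_
    · have hd := abs_dd_le (by positivity) hC.lip b
      refine mul_le_mul (sq_le_sq' (abs_le.1 hd).1 (abs_le.1 hd).2)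
        (pow_le_pow_left₀ (by unfold ends; positivity) (hφ.ends_le b).1 2) (sq_nonneg _)
        (sq_nonneg _)
    · have : ends φ b = 0 := by_contra fun hne => absurd ((hφ.ends_le b).2 hne) (not_le.2 hb)
      simp [this]
  push_cast at h1 h2 h3
  have k1 : (2 * ((ℓ : ℝ) + 1) + 1) ^ 2 ≤ 25 * (ℓ : ℝ) ^ 2 := by nlinarith
  have k2 : (2 * (4 * (ℓ : ℝ) + 1) + 1) ^ 2 ≤ 121 * (ℓ : ℝ) ^ 2 := by nlinarith
  have m1 : dsq φ ≤ 450 * s ^ 2 := by
    refine h1.trans ?_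
    calc 2 * (2 * ((ℓ : ℝ) + 1) + 1) ^ 2 * lp ^ 2 ≤ 2 * (25 * (ℓ : ℝ) ^ 2) * lp ^ 2 := by gcongr
      _ = 50 * ((ℓ : ℝ) * lp) ^ 2 := by ring
      _ ≤ 50 * (3 * s) ^ 2 := by gcongr
      _ = _ := by ring
  have m2 : dsq (cutAt z ℓ Q) ≤ 2178 * ((ℓ : ℝ) * lq) ^ 2 := by
    refine h2.trans ?_
    calc 2 * (2 * (4 * (ℓ : ℝ) + 1) + 1) ^ 2 * (3 * lq) ^ 2
        ≤ 2 * (121 * (ℓ : ℝ) ^ 2) * (3 * lq) ^ 2 := by gcongr
      _ = _ := by ring
  have m3 : 2 * (2 * ((ℓ : ℝ) + 1) + 1) ^ 2 * ((3 * lq) ^ 2 * (2 * s) ^ 2) ≤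
      1800 * (s * ℓ * lq) ^ 2 := by
    calc _ ≤ 2 * (25 * (ℓ : ℝ) ^ 2) * ((3 * lq) ^ 2 * (2 * s) ^ 2) := by gcongr
      _ = _ := by ring
  unfold usz
  calc _ ≤ 450 * s ^ 2 * (2178 * ((ℓ : ℝ) * lq) ^ 2) + 1800 * (s * ℓ * lq) ^ 2 := by
        refine add_le_add (mul_le_mul m1 m2 (sum_nonneg fun b _ => sq_nonneg _) (by positivity))
          (h3.trans m3)
    _ ≤ _ := by nlinarith [sq_nonneg (s * ℓ * lq)]

variable {J : Bond L₁ L₂ → ℝ} {β : ℝ} {S : Finset (Site L₁ L₂)}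
  {E : (Conf L₁ L₂ → ℝ) → ℝ}

lemma avg_zero (hE : Avg J S E) : E (fun _ => 0) = 0 := by
  simpa using hE.smul 0 (fun _ => 0) continuous_const

/-- Twists do not move the currents of windows far away. -/
lemma dw_xw_eq_zero {z w : Site L₁ L₂} {ℓ k : ℕ} {φ Q : Site L₁ L₂ → ℝ}
    (hφ : ∀ x, φ x ≠ 0 → td z x ≤ ℓ) (hQ : ∀ x, Q x ≠ 0 → td w x ≤ k)
    (hfar : ℓ + k + 2 < td z w) (i q : Fin 3) : dw i φ (xw q Q) = 0 := by
  funext b
  by_cases hd : dd Q b = 0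
  · simp [dw, xw, hd]
  have h1 : φ b.1 = 0 ∧ φ (tip b) = 0 := by
    by_contra h'
    have hz := near_of_end hφ (b := b) (by tauto)
    have hw := near_of_end hQ (b := b) (by
      by_contra hq
      push Not at hq
      exact hd (by simp [dd, hq.1, hq.2]))
    have := td_triangle z b.1 w
    rw [td_comm b.1 w] at this
    omega
  simp [dw, h1.1, h1.2]

/-- One pair of windows. -/
theorem local_triple_le (hJ : ∀ b, 0 ≤ J b ∧ J b ≤ β) (hβ : 1 ≤ β) (hE : Avg J S E)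
    (i p q t : Fin 3) {z : Site L₁ L₂} {ℓ : ℕ} (hℓ : 1 ≤ ℓ)
    (hS : ∀ x, td z x ≤ 4 * ℓ → x ∈ S) {s₁ s₂ p₁ p₂ lq lr : ℝ}
    {φ₁ φ₂ Q R : Site L₁ L₂ → ℝ} (h₁ : LocFn z ℓ s₁ p₁ φ₁) (h₂ : LocFn z ℓ s₂ p₂ φ₂)
    (hp₁ : 0 ≤ p₁) (hp₂ : 0 ≤ p₂) (hs₁ : (ℓ : ℝ) * p₁ ≤ 3 * s₁) (hs₂ : (ℓ : ℝ) * p₂ ≤ 3 * s₂)
    (hlq : 0 ≤ lq) (hlr : 0 ≤ lr) (hQ : ∀ x y, |Q x - Q y| ≤ lq * (td x y : ℝ))
    (hR : ∀ x y, |R x - R y| ≤ lr * (td x y : ℝ)) (hRS : ∀ x, x ∉ S → R x = 0) :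
    |E (fun σ => cur J p φ₂ σ * (lin J (dw i φ₁ (xw q Q)) σ * cur J t R σ))| ≤
      300000000 * β ^ 2 * (s₁ * s₂ * (ℓ : ℝ) ^ 2 * (lq * lr)) := by
  have hz : ∀ {φ : Site L₁ L₂ → ℝ} {n : ℕ}, n ≤ 4 * ℓ → (∀ x, φ x ≠ 0 → td z x ≤ n) →
      ∀ x, x ∉ S → φ x = 0 := fun hn h x hx => by
    by_contra h0
    exact hx (hS x ((h x h0).trans hn))
  have hloc : ∀ {φ : Site L₁ L₂ → ℝ} (Q : Site L₁ L₂ → ℝ), (∀ x, φ x ≠ 0 → td z x ≤ ℓ) →
      ∀ b, ends φ b ≠ 0 → dd (cutAt z ℓ Q) b = dd Q b := by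
    intro φ Q hφ b hne
    have hend : φ b.1 ≠ 0 ∨ φ (tip b) ≠ 0 := by
      by_contra h'
      push Not at h'
      exact hne (by simp [ends, h'.1, h'.2])
    refine cutAt_dd hℓ Q (near_of_end hφ hend) ?_
    have := td_tip b
    rcases hend with h | h
    · have := hφ _ h
      have := td_triangle z b.1 (tip b)
      omega
    · exact (hφ _ h).trans (Nat.le_succ _)
  have hs₁0 : 0 ≤ s₁ := (abs_nonneg _).trans (h₁.sup z)
  have hs₂0 : 0 ≤ s₂ := (abs_nonneg _).trans (h₂.sup z)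
  have hℓ' : (1 : ℝ) ≤ ℓ := by exact_mod_cast hℓ
  refine (triple_le hJ hβ hE i p q t (hz (by omega) h₁.supp) (hz (by omega) h₂.supp) hRS
    (hz le_rfl (cutAt_loc hℓ hlq hQ).supp) (hz le_rfl (cutAt_loc hℓ hlr hR).supp)
    (hloc Q h₁.supp) (hloc R h₂.supp)).trans ?_
  have hsum : ∑ b, ends φ₁ b * ends φ₂ b * |dd Q b| * |dd R b| ≤
      200 * (s₁ * s₂ * (ℓ : ℝ) ^ 2 * (lq * lr)) := by
    refine (sum_near_le z (ℓ + 1) _ (by positivity : (0 : ℝ) ≤ (2 * s₁) * (2 * s₂) * lq * lr)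
      (fun b _ => ?_) fun b hb => ?_).trans ?_
    · have e1 : 0 ≤ ends φ₁ b := by unfold ends; positivity
      have e2 : 0 ≤ ends φ₂ b := by unfold ends; positivity
      exact mul_le_mul (mul_le_mul (mul_le_mul (h₁.ends_le b).1 (h₂.ends_le b).1 e2 (by positivity))
        (abs_dd_le hlq hQ b) (abs_nonneg _) (by positivity)) (abs_dd_le hlr hR b) (abs_nonneg _)
        (by positivity)
    · have : ends φ₁ b = 0 := by_contra fun hne => absurd ((h₁.ends_le b).2 hne) (not_le.2 hb)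
      simp [this]
    · push_cast
      have k : (2 * ((ℓ : ℝ) + 1) + 1) ^ 2 ≤ 25 * (ℓ : ℝ) ^ 2 := by nlinarith
      calc _ ≤ 2 * (25 * (ℓ : ℝ) ^ 2) * ((2 * s₁) * (2 * s₂) * lq * lr) := by gcongr
        _ = _ := by ring
  have hu : ∀ {φ Q : Site L₁ L₂ → ℝ} {s lp l : ℝ}, 0 ≤ lp → 0 ≤ l → 0 ≤ s → LocFn z ℓ s lp φ →
      (ℓ : ℝ) * lp ≤ 3 * s → (∀ x y, |Q x - Q y| ≤ l * (td x y : ℝ)) →
      Real.sqrt (usz φ (cutAt z ℓ Q)) ≤ 1500 * (s * ℓ * l) := by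
    intro φ Q s lp l hlp hl hs0 hφ hs hQ'
    refine Real.sqrt_le_iff.2 ⟨by positivity, (usz_cut_le hℓ hlp hl hφ hs hQ').trans ?_⟩
    nlinarith [sq_nonneg (s * ℓ * l)]
  have hprod : Real.sqrt (usz φ₁ (cutAt z ℓ Q)) * Real.sqrt (usz φ₂ (cutAt z ℓ R)) ≤
      2250000 * (s₁ * s₂ * (ℓ : ℝ) ^ 2 * (lq * lr)) :=
    (mul_le_mul (hu hp₁ hlq hs₁0 h₁ hs₁ hQ) (hu hp₂ hlr hs₂0 h₂ hs₂ hR) (Real.sqrt_nonneg _)
      (by positivity)).trans_eq (by ring)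
  have hX : 0 ≤ s₁ * s₂ * (ℓ : ℝ) ^ 2 * (lq * lr) := by positivity
  have hb : 0 ≤ β ^ 2 := sq_nonneg _
  calc 100 * β ^ 2 * _ ≤ 100 * β ^ 2 * (2250200 * (s₁ * s₂ * (ℓ : ℝ) ^ 2 * (lq * lr))) :=
        mul_le_mul_of_nonneg_left (by linarith) (by positivity)
    _ ≤ _ := by nlinarith [mul_nonneg hb hX]

/-- The cost of all pairs of windows of two scales. -/
theorem pair_sum_le : ∃ C : ℝ, 0 ≤ C ∧ ∀ (L₁ L₂ : ℕ) [NeZero L₁] [NeZero L₂]
    (J : Bond L₁ L₂ → ℝ) (β : ℝ), (∀ b, 0 ≤ J b ∧ J b ≤ β) → 1 ≤ β →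
    ∀ (S : Finset (Site L₁ L₂)) (E : (Conf L₁ L₂ → ℝ) → ℝ), Avg J S E →
    ∀ (c : Site L₁ L₂) (r ℓ L : ℕ), ball c (4 * r) ⊆ S → 4 ≤ ℓ → ℓ ≤ L → 4 * L ≤ r →
    ∀ (i p q t : Fin 3) (a b : Bool),
      ∑ z ∈ ball c (3 * r), ∑ w ∈ ball c (3 * r),
        |E (fun σ => cur J p (sel c r ℓ (!a) z) σ *
          (lin J (dw i (sel c r ℓ a z) (xw q (sel c r L b w))) σ *
            cur J t (sel c r L (!b) w) σ))| ≤ C * β ^ 2 * (ℓ : ℝ) ^ 3 * L := by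
  refine ⟨300000000 * 6 * (49 * 49), by norm_num, ?_⟩
  intro L₁ L₂ _ _ J β hJ hβ S E hE c r ℓ L hS hℓ hℓL hLr i p q t a b
  classical
  have hr : 1 ≤ r := by omega
  set T := 300000000 * β ^ 2 * (6 * (ℓ : ℝ) ^ 3 / (L * r ^ 2))
  have hT : 0 ≤ T := by positivity
  have hpair : ∀ z ∈ ball c (3 * r), ∀ w ∈ ball c (3 * r),
      |E (fun σ => cur J p (sel c r ℓ (!a) z) σ *
          (lin J (dw i (sel c r ℓ a z) (xw q (sel c r L b w))) σ *
            cur J t (sel c r L (!b) w) σ))| ≤ if td z w ≤ 3 * L then T else 0 := by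
    intro z hz w hw
    have hz' : td c z ≤ 3 * r := (mem_filter.1 hz).2
    have hw' : td c w ≤ 3 * r := (mem_filter.1 hw).2
    have hA := locFn_sel c (show 1 ≤ ℓ by omega) hr a z
    have hB := locFn_sel c (show 1 ≤ L by omega) hr b w
    split_ifs with h
    · have hs : ∀ g : Bool, (ℓ : ℝ) * selLip r ℓ g ≤ 3 * selSup r ℓ g := fun g => by
        have hℓ' : (ℓ : ℝ) ≠ 0 := by positivity
        cases g
        · simp only [selLip, selSup, Bool.false_eq_true, if_false]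
          rw [mul_div_cancel₀ _ hℓ']; norm_num
        · simp only [selLip, selSup, if_true]
          exact le_of_eq (by ring)
      refine (local_triple_le hJ hβ hE i p q t (show 1 ≤ ℓ by omega) (fun x hx => hS ?_) hA
        (locFn_sel c (show 1 ≤ ℓ by omega) hr (!a) z) (selLip_nonneg _ _ _) (selLip_nonneg _ _ _)
        (hs a) (hs (!a)) (selLip_nonneg _ _ _) (selLip_nonneg _ _ _) hB.lip
        (locFn_sel c (show 1 ≤ L by omega) hr (!b) w).lip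
        fun x hx => sel_supp c r L (!b) w (by omega) hS (by omega) hw' hx).trans (le_of_eq ?_)
      · have := td_triangle c z x
        exact mem_filter.2 ⟨mem_univ _, by omega⟩
      · cases a <;> cases b <;>
          (simp only [selSup, selLip, Bool.not_true, Bool.not_false, Bool.false_eq_true, if_false,
            if_true, T]
           field_simp
           ring)
    · rw [dw_xw_eq_zero hA.supp hB.supp (by omega)]
      have : (fun σ => cur J p (sel c r ℓ (!a) z) σ *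
          (lin J (0 : Bond L₁ L₂ → Mat3) σ * cur J t (sel c r L (!b) w) σ)) = fun _ => 0 := by
        funext σ; simp [lin, bil]
      rw [this, avg_zero hE, abs_zero]
  refine (sum_le_sum fun z hz => sum_le_sum fun w hw => hpair z hz w hw).trans ?_
  have hin : ∀ z ∈ ball c (3 * r), ∑ w ∈ ball c (3 * r), (if td z w ≤ 3 * L then T else 0) ≤
      49 * (L : ℝ) ^ 2 * T := by
    intro z _
    rw [← sum_filter, sum_const, nsmul_eq_mul]
    refine mul_le_mul_of_nonneg_right ?_ hT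
    have h1 : ((ball c (3 * r)).filter fun w => td z w ≤ 3 * L).card ≤ (ball z (3 * L)).card :=
      card_le_card fun w hw => mem_filter.2 ⟨mem_univ _, (mem_filter.1 hw).2⟩
    have h2 : (((ball c (3 * r)).filter fun w => td z w ≤ 3 * L).card : ℝ) ≤
        (2 * (3 * (L : ℝ)) + 1) ^ 2 := by exact_mod_cast h1.trans (card_ball_le z (3 * L))
    have hL' : (1 : ℝ) ≤ L := by exact_mod_cast (show 1 ≤ L by omega)
    nlinarith
  refine (sum_le_sum hin).trans ?_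
  rw [sum_const, nsmul_eq_mul]
  have h3 : ((ball c (3 * r)).card : ℝ) ≤ 49 * (r : ℝ) ^ 2 := by
    have h2 : ((ball c (3 * r)).card : ℝ) ≤ (2 * (3 * (r : ℝ)) + 1) ^ 2 := by
      exact_mod_cast card_ball_le c (3 * r)
    have hr' : (1 : ℝ) ≤ r := by exact_mod_cast hr
    nlinarith
  refine (mul_le_mul_of_nonneg_right h3 (by positivity)).trans (le_of_eq ?_)
  have hL0 : (L : ℝ) ≠ 0 := by
    have : (1 : ℝ) ≤ L := by exact_mod_cast (show 1 ≤ L by omega)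
    linarith
  have hr0 : (r : ℝ) ≠ 0 := by positivity
  simp only [T]
  field_simp

end Vale.Agent.P163.Gap
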