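import Vale.Agent.P163.Gap.Ward
import Vale.Agent.P163.Gap.Moments
import Vale.Agent.P163.Gap.Window
import Vale.Agent.P163.Gap.StiffLocal

/-!
Vanishing stiffness: windowed bilinears of two currents at every scale of an annulus.
-/

open MeasureTheory Real Matrix Finset
open scoped BigOperators

namespace Vale.Agent.P163.Gap

variable {L₁ L₂ : ℕ} [NeZero L₁] [NeZero L₂]
variable {J : Bond L₁ L₂ → ℝ} {β : ℝ} {S : Finset (Site L₁ L₂)}
  {E : (Conf L₁ L₂ → ℝ) → ℝ}

omit [NeZero L₁] [NeZero L₂] in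
lemma bil_add' (M N : Mat3) (σ : Conf L₁ L₂) (b : Bond L₁ L₂) :
    bil (M + N) σ b = bil M σ b + bil N σ b := by
  simp only [bil, Matrix.add_apply, add_mul, sum_add_distrib]

omit [NeZero L₁] [NeZero L₂] in
lemma bil_sub' (M N : Mat3) (σ : Conf L₁ L₂) (b : Bond L₁ L₂) :
    bil (M - N) σ b = bil M σ b - bil N σ b := by
  simp only [bil, Matrix.sub_apply, sub_mul, sum_sub_distrib]

lemma avg_sum (hE : Avg J S E) {α : Type*} (s : Finset α) (f : α → Conf L₁ L₂ → ℝ)
    (hf : ∀ a, Continuous (f a)) :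
    E (fun σ => ∑ a ∈ s, f a σ) = ∑ a ∈ s, E (f a) := by
  classical
  induction s using Finset.induction_on with
  | empty => simp [avg_zero hE]
  | insert a s ha ih =>
    simp only [sum_insert ha]
    rw [hE.add _ _ (hf a) (continuous_finsetSum _ fun b _ => hf b), ih]

lemma avg_sub (hE : Avg J S E) {f g : Conf L₁ L₂ → ℝ} (hf : Continuous f) (hg : Continuous g) :
    E (fun σ => f σ - g σ) = E f - E g := by
  have h := hE.add (fun σ => f σ - g σ) g (hf.sub hg) hg
  simp only [sub_add_cancel] at h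
  linarith

lemma avg_add_sub (hE : Avg J S E) {a b a' b' : Conf L₁ L₂ → ℝ} (ha : Continuous a)
    (hb : Continuous b) (ha' : Continuous a') (hb' : Continuous b') :
    E (fun σ => a σ + b σ - (a' σ + b' σ)) = E a + E b - (E a' + E b') := by
  rw [← hE.add a b ha hb, ← hE.add a' b' ha' hb']
  exact avg_sub hE (ha.add hb) (ha'.add hb')

lemma ward_three (hE : Avg J S E) {i : Fin 3} {h : Site L₁ L₂ → ℝ} (hh : ∀ x, x ∉ S → h x = 0)
    (u v w : Bond L₁ L₂ → Mat3) :
    E (fun σ => cur J i h σ * (lin J u σ * (lin J v σ * lin J w σ))) =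
      E (fun σ => lin J (dw i h u) σ * (lin J v σ * lin J w σ)) +
        E (fun σ => lin J u σ * (lin J (dw i h v) σ * lin J w σ)) +
        E (fun σ => lin J u σ * (lin J v σ * lin J (dw i h w) σ)) := by
  have := hE.ward i h [u, v, w] hh (by simp)
  simp only [List.map_cons, List.map_nil, List.prod_cons, List.prod_nil, mul_one, List.length_cons,
    List.length_nil, sum_range_succ, sum_range_zero, List.modify_zero_cons, List.modify_succ_cons,
    zero_add] at this
  rw [this]
  have c : ∀ a b d : Bond L₁ L₂ → Mat3,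
      Continuous fun σ : Conf L₁ L₂ => lin J a σ * (lin J b σ * lin J d σ) := fun a b d =>
    (continuous_lin J _).mul ((continuous_lin J _).mul (continuous_lin J _))
  rw [← hE.add _ _ (c (dw i h u) v w) (c u (dw i h v) w)]
  exact hE.add _ _ ((c _ _ _).add (c _ _ _)) (c _ _ _)

/-- The four orders of the two twists leave the twist of the overlap about the third axis. -/
lemma lin_orders (J : Bond L₁ L₂ → ℝ) (h g : Site L₁ L₂ → ℝ) (σ : Conf L₁ L₂) :
    lin J (dw 0 h (xw 1 g)) σ + lin J (dw 1 g (xw 0 h)) σ - lin J (dw 1 h (xw 0 g)) σ -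
        lin J (dw 0 g (xw 1 h)) σ =
      2 * lin J (fun b => (h (tip b) * g b.1 - h b.1 * g (tip b)) • gen 2) σ := by
  simp only [lin, ← sum_add_distrib, ← sum_sub_distrib, mul_sum]
  refine sum_congr rfl fun b _ => ?_
  rw [← mul_add, ← mul_sub, ← mul_sub, mul_left_comm, ← bil_add', ← bil_sub', ← bil_sub',
    ← bil_smul (2 : ℝ)]
  congr 2
  ext p q
  fin_cases p <;> fin_cases q <;>
    simp [dw, xw, dd, gen, Matrix.mul_apply, Fin.sum_univ_three] <;> ring

section pieces

variable (J) (c : Site L₁ L₂) (r ℓ : ℕ)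

/-- The antisymmetrised product of the currents of one window. -/
noncomputable def winPair (z : Site L₁ L₂) (σ : Conf L₁ L₂) : ℝ :=
  cur J 0 (sel c r ℓ false z) σ * cur J 1 (sel c r ℓ true z) σ -
    cur J 1 (sel c r ℓ false z) σ * cur J 0 (sel c r ℓ true z) σ

/-- What the Ward identity turns it into. -/
noncomputable def winTurn (z : Site L₁ L₂) (σ : Conf L₁ L₂) : ℝ :=
  lin J (fun b => (sel c r ℓ false z (tip b) * sel c r ℓ true z b.1 -
    sel c r ℓ false z b.1 * sel c r ℓ true z (tip b)) • gen 2) σ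

lemma continuous_winPair (z : Site L₁ L₂) : Continuous (winPair J c r ℓ z) :=
  ((continuous_cur J _ _).mul (continuous_cur J _ _)).sub
    ((continuous_cur J _ _).mul (continuous_cur J _ _))

lemma continuous_winTurn (z : Site L₁ L₂) : Continuous (winTurn J c r ℓ z) :=
  continuous_lin J _

lemma sum_winTurn (hℓ : 1 ≤ ℓ) (hℓr : ℓ + 1 ≤ r) {K : ℝ}
    (hK : ∀ b : Bond L₁ L₂, ∑ z, win ℓ z b.1 * win ℓ z (tip b) = K) (σ : Conf L₁ L₂) :
    ∑ z ∈ ball c (3 * r), winTurn J c r ℓ z σ = -K * cur J 2 (prof c r) σ := by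
  simp only [winTurn, cur, lin]
  rw [sum_comm, mul_sum]
  refine sum_congr rfl fun b _ => ?_
  simp only [bil_smul, xw]
  rw [← mul_sum, ← sum_mul]
  have e : ∀ z, sel c r ℓ false z (tip b) * sel c r ℓ true z b.1 -
      sel c r ℓ false z b.1 * sel c r ℓ true z (tip b) =
        -dd (prof c r) b * (win ℓ z b.1 * win ℓ z (tip b)) := fun z => by
    simp [sel, dd]; ring
  simp only [e]
  rw [← mul_sum]
  rcases eq_or_ne (dd (prof c r) b) 0 with hd | hd
  · simp [hd]
  have hb := ((prof_bounds c r (by omega)).2.2 b hd).2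
  rw [sum_subset (subset_univ (ball c (3 * r))) fun z _ hz => ?_, hK b]
  · ring
  · by_contra hne
    refine hz (mem_filter.2 ⟨mem_univ _, ?_⟩)
    have h1 := ((win_bounds ℓ hℓ z).1 b.1).2.2 (left_ne_zero_of_mul hne)
    have h2 := td_triangle c b.1 z
    rw [td_comm b.1 z] at h2
    omega

end pieces

variable {c : Site L₁ L₂} {r : ℕ}

lemma nice_lin (J : Bond L₁ L₂ → ℝ) (w : Bond L₁ L₂ → Mat3) : Nice (lin J w) :=
  nice_of_continuous (continuous_lin J w)

lemma ex_sum' (η : Conf L₁ L₂) {α : Type*} (s : Finset α) (f : α → Conf L₁ L₂ → ℝ)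
    (hf : ∀ a, Continuous (f a)) {F : Conf L₁ L₂ → ℝ} (hF : Nice F) :
    ex J S η (fun σ => F σ * ∑ a ∈ s, f a σ) = ∑ a ∈ s, ex J S η (fun σ => F σ * f a σ) := by
  classical
  induction s using Finset.induction_on with
  | empty => simp [ex_def]
  | insert a s ha ih =>
    simp only [sum_insert ha, mul_add]
    rw [ex_add J S η (hF.mul (nice_of_continuous (hf a)))
      (hF.mul (nice_of_continuous (continuous_finsetSum _ fun b _ => hf b))), ih]

/-- Against an observable of the inner ball a window is its turn. -/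
lemma ex_winPair (η : Conf L₁ L₂) {ℓ : ℕ} (hℓ : 1 ≤ ℓ) (hℓr : 8 * ℓ ≤ r)
    (hS : ball c (4 * r) ⊆ S) {z : Site L₁ L₂} (hz : td c z ≤ 3 * r) {F : Conf L₁ L₂ → ℝ}
    (hF : Nice F) (hdep : DepOn {x | td c x ≤ r / 4} F) :
    ex J S η (fun σ => F σ * winPair J c r ℓ z σ) =
      ex J S η (fun σ => F σ * winTurn J c r ℓ z σ) := by
  set h := sel c r ℓ false z with hh
  set g := sel c r ℓ true z with hg
  by_cases hin : td c z + ℓ ≤ r
  · have hg0 : g = 0 := by
      funext x
      by_contra hne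
      have hx := sel_ne_zero c r ℓ true z hℓ hne
      have := td_triangle c z x
      refine hne ?_
      simp only [g, sel, if_true, Pi.zero_apply]
      rw [((prof_bounds c r (by omega)).1 x).2.2.1 (by omega),
        ((prof_bounds c r (by omega)).1 z).2.2.1 (by omega), sub_self, mul_zero]
    have hc : ∀ i σ, cur J i g σ = 0 := fun i σ => by simp [hg0, cur, lin, xw, dd, bil]
    have h1 : ∀ σ, winPair J c r ℓ z σ = 0 := fun σ => by
      simp only [winPair, ← hh, ← hg, hc, mul_zero, sub_zero]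
    have h2 : ∀ σ, winTurn J c r ℓ z σ = 0 := fun σ => by
      simp [winTurn, ← hh, ← hg, hg0, lin, bil]
    simp only [h1, h2]
  have hout : ∀ (b : Bool) x, td c x ≤ r / 4 → sel c r ℓ b z x = 0 := fun b x hx => by
    by_contra hne
    have := sel_ne_zero c r ℓ b z hℓ hne
    have h2 := td_triangle c x z
    rw [td_comm x z] at h2
    omega
  have W : ∀ (i k : Fin 3) (a b : Bool),
      ex J S η (fun σ => F σ * (cur J i (sel c r ℓ a z) σ * cur J k (sel c r ℓ b z) σ)) =
        ex J S η (fun σ => F σ * lin J (dw i (sel c r ℓ a z) (xw k (sel c r ℓ b z))) σ) :=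
    fun i k a b => ward_mul J S η i k (fun x hx => sel_supp c r ℓ a z hℓ hS (by omega) hz hx) hF
      fun σ σ' hσ => hdep σ σ' fun x hx => hσ x (hout a x hx)
  set A := fun σ => F σ * (cur J 0 h σ * cur J 1 g σ) with hA
  set B := fun σ => F σ * (cur J 1 h σ * cur J 0 g σ) with hB
  have nA : Nice A := hF.mul (nice_of_continuous ((continuous_cur J _ _).mul (continuous_cur J _ _)))
  have nB : Nice B := hF.mul (nice_of_continuous ((continuous_cur J _ _).mul (continuous_cur J _ _)))
  have nL : ∀ w, Nice fun σ => F σ * lin J w σ := fun w => hF.mul (nice_lin J w)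
  have exsub : ∀ f k : Conf L₁ L₂ → ℝ, Nice (fun σ => f σ - k σ) → Nice k →
      ex J S η (fun σ => f σ - k σ) = ex J S η f - ex J S η k := fun f k h1 h2 => by
    have := ex_add J S η h1 h2
    simp only [sub_add_cancel] at this
    linarith
  have nP : Nice fun σ => F σ * winPair J c r ℓ z σ :=
    hF.mul (nice_of_continuous (continuous_winPair J c r ℓ z))
  have e1 : ex J S η (fun σ => F σ * winPair J c r ℓ z σ) = ex J S η A - ex J S η B := by
    rw [show (fun σ => F σ * winPair J c r ℓ z σ) = fun σ => A σ - B σ by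
      funext σ; simp only [winPair, A, B, h, g]; ring]
    refine exsub A B ?_ nB
    convert nP using 1
    funext σ; simp only [winPair, A, B, h, g]; ring
  have a1 : ex J S η A = ex J S η (fun σ => F σ * lin J (dw 0 h (xw 1 g)) σ) := W 0 1 false true
  have b1 : ex J S η B = ex J S η (fun σ => F σ * lin J (dw 1 h (xw 0 g)) σ) := W 1 0 false true
  have a2 : ex J S η A = ex J S η (fun σ => F σ * lin J (dw 1 g (xw 0 h)) σ) := by
    rw [← W 1 0 true false]; congr 1; funext σ; simp only [A, h, g]; ring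
  have b2 : ex J S η B = ex J S η (fun σ => F σ * lin J (dw 0 g (xw 1 h)) σ) := by
    rw [← W 0 1 true false]; congr 1; funext σ; simp only [B, h, g]; ring
  have e2 : ex J S η (fun σ => F σ * lin J (dw 0 h (xw 1 g)) σ) +
      ex J S η (fun σ => F σ * lin J (dw 1 g (xw 0 h)) σ) =
      2 * ex J S η (fun σ => F σ * winTurn J c r ℓ z σ) +
        (ex J S η (fun σ => F σ * lin J (dw 1 h (xw 0 g)) σ) +
          ex J S η (fun σ => F σ * lin J (dw 0 g (xw 1 h)) σ)) := by
    rw [← ex_add J S η (nL _) (nL _), ← ex_add J S η (nL _) (nL _), ← ex_smul J S η 2,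
      ← ex_add J S η ((nice_of_continuous continuous_const).mul
        (hF.mul (nice_of_continuous (continuous_winTurn J c r ℓ z))))
        (by
          have := hF.mul (nice_of_continuous ((continuous_lin J (dw 1 h (xw 0 g))).add
            (continuous_lin J (dw 0 g (xw 1 h)))))
          simpa only [Pi.add_apply, mul_add] using this)]
    congr 1
    funext σ
    have := lin_orders J h g σ
    simp only [winTurn, ← hh, ← hg]
    linear_combination (F σ) * this
  linarith

section scales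

variable (hJ : ∀ b, 0 ≤ J b ∧ J b ≤ β) (hE : Avg J S E) (hS : ball c (4 * r) ⊆ S)

include hE hS in
/-- Two windows: twice their product is twice the turn against the pair, up to local terms. -/
lemma two_pair_le {ℓ L : ℕ} (hℓ : 1 ≤ ℓ) (hℓr : ℓ ≤ r) {z w : Site L₁ L₂}
    (hz : td c z ≤ 3 * r) :
    |2 * E (fun σ => winPair J c r ℓ z σ * winPair J c r L w σ) -
        2 * E (fun σ => winTurn J c r ℓ z σ * winPair J c r L w σ)| ≤
      16 * ∑ i : Fin 3, ∑ p : Fin 3, ∑ q : Fin 3, ∑ t : Fin 3, ∑ a : Bool, ∑ b : Bool,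
        |E (fun σ => cur J p (sel c r ℓ (!a) z) σ *
          (lin J (dw i (sel c r ℓ a z) (xw q (sel c r L b w))) σ *
            cur J t (sel c r L (!b) w) σ))| := by
  classical
  set U := fun (i p q t : Fin 3) (a b : Bool) => |E (fun σ => cur J p (sel c r ℓ (!a) z) σ *
          (lin J (dw i (sel c r ℓ a z) (xw q (sel c r L b w))) σ *
            cur J t (sel c r L (!b) w) σ))| with hU
  set T := ∑ i, ∑ p, ∑ q, ∑ t, ∑ a, ∑ b, U i p q t a b with hT
  have n0 : ∀ i p q t a b, 0 ≤ U i p q t a b := fun _ _ _ _ _ _ => abs_nonneg _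
  have hle : ∀ i p q t a b, U i p q t a b ≤ T := by
    intro i p q t a b
    calc U i p q t a b ≤ ∑ b, U i p q t a b :=
          single_le_sum (fun y _ => n0 _ _ _ _ _ y) (mem_univ b)
      _ ≤ ∑ a, ∑ b, U i p q t a b :=
          single_le_sum (f := fun a => ∑ b, U i p q t a b)
            (fun y _ => sum_nonneg fun _ _ => n0 _ _ _ _ _ _) (mem_univ a)
      _ ≤ ∑ t, ∑ a, ∑ b, U i p q t a b :=
          single_le_sum (f := fun t => ∑ a, ∑ b, U i p q t a b)
            (fun y _ => sum_nonneg fun _ _ => sum_nonneg fun _ _ => n0 _ _ _ _ _ _) (mem_univ t)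
      _ ≤ ∑ q, ∑ t, ∑ a, ∑ b, U i p q t a b :=
          single_le_sum (f := fun q => ∑ t, ∑ a, ∑ b, U i p q t a b)
            (fun y _ => sum_nonneg fun _ _ => sum_nonneg fun _ _ => sum_nonneg fun _ _ =>
              n0 _ _ _ _ _ _) (mem_univ q)
      _ ≤ ∑ p, ∑ q, ∑ t, ∑ a, ∑ b, U i p q t a b :=
          single_le_sum (f := fun p => ∑ q, ∑ t, ∑ a, ∑ b, U i p q t a b)
            (fun y _ => sum_nonneg fun _ _ => sum_nonneg fun _ _ => sum_nonneg fun _ _ =>
              sum_nonneg fun _ _ => n0 _ _ _ _ _ _) (mem_univ p)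
      _ ≤ T :=
          single_le_sum (f := fun i => ∑ p, ∑ q, ∑ t, ∑ a, ∑ b, U i p q t a b)
            (fun y _ => sum_nonneg fun _ _ => sum_nonneg fun _ _ => sum_nonneg fun _ _ =>
              sum_nonneg fun _ _ => sum_nonneg fun _ _ => n0 _ _ _ _ _ _) (mem_univ i)
  have cp := continuous_winPair J c r L w
  have cl := continuous_lin J
  have cc := continuous_cur J
  -- one order of the first window against one product of the second
  have err : ∀ (i p q t : Fin 3) (a : Bool),
      |E (fun σ => cur J i (sel c r ℓ a z) σ * (cur J p (sel c r ℓ (!a) z) σ *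
          (cur J q (sel c r L false w) σ * cur J t (sel c r L true w) σ))) -
        E (fun σ => lin J (dw i (sel c r ℓ a z) (xw p (sel c r ℓ (!a) z))) σ *
          (cur J q (sel c r L false w) σ * cur J t (sel c r L true w) σ))| ≤ 2 * T := by
    intro i p q t a
    have hw3 := ward_three hE (i := i) (fun x hx => sel_supp c r ℓ a z hℓ hS hℓr hz hx)
      (xw p (sel c r ℓ (!a) z)) (xw q (sel c r L false w)) (xw t (sel c r L true w))
    simp only [cur] at hw3 ⊢
    rw [hw3, add_assoc, add_sub_cancel_left]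
    refine (abs_add_le _ _).trans ((add_le_add (le_of_eq ?_) (le_of_eq ?_)).trans
      ((add_le_add (hle i p q t a false) (hle i p t q a true)).trans_eq (two_mul T).symm))
    · rfl
    · simp only [U, cur, Bool.not_true]
      congr 2
      funext σ; ring
  -- one order against the antisymmetrised product
  have ord : ∀ (i p : Fin 3) (a : Bool),
      |E (fun σ => cur J i (sel c r ℓ a z) σ * cur J p (sel c r ℓ (!a) z) σ *
          winPair J c r L w σ) -
        E (fun σ => lin J (dw i (sel c r ℓ a z) (xw p (sel c r ℓ (!a) z))) σ *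
          winPair J c r L w σ)| ≤ 4 * T := by
    intro i p a
    have e : ∀ f : Conf L₁ L₂ → ℝ, Continuous f → E (fun σ => f σ * winPair J c r L w σ) =
        E (fun σ => f σ * (cur J 0 (sel c r L false w) σ * cur J 1 (sel c r L true w) σ)) -
          E (fun σ => f σ * (cur J 1 (sel c r L false w) σ * cur J 0 (sel c r L true w) σ)) :=
      fun f hf => by
        refine (avg_congr fun σ => ?_).trans
          (avg_sub hE (hf.mul ((cc _ _).mul (cc _ _))) (hf.mul ((cc _ _).mul (cc _ _))))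
        simp only [winPair, Pi.mul_apply]; ring
    rw [e (fun σ => cur J i (sel c r ℓ a z) σ * cur J p (sel c r ℓ (!a) z) σ)
      ((cc _ _).mul (cc _ _)), e _ (cl _)]
    simp only [mul_assoc]
    have h1 := abs_le.1 (err i p 0 1 a)
    have h2 := abs_le.1 (err i p 1 0 a)
    exact abs_le.2 ⟨by linarith, by linarith⟩
  have o1 := abs_le.1 (ord 0 1 false)
  have o2 := abs_le.1 (ord 1 0 true)
  have o3 := abs_le.1 (ord 1 0 false)
  have o4 := abs_le.1 (ord 0 1 true)
  simp only [Bool.not_false, Bool.not_true] at o1 o2 o3 o4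
  have c3 : ∀ (i p : Fin 3) (a b : Bool), Continuous fun σ =>
      cur J i (sel c r ℓ a z) σ * cur J p (sel c r ℓ b z) σ * winPair J c r L w σ :=
    fun i p a b => ((cc _ _).mul (cc _ _)).mul cp
  have eA : 2 * E (fun σ => winPair J c r ℓ z σ * winPair J c r L w σ) =
      E (fun σ => cur J 0 (sel c r ℓ false z) σ * cur J 1 (sel c r ℓ true z) σ *
          winPair J c r L w σ) +
        E (fun σ => cur J 1 (sel c r ℓ true z) σ * cur J 0 (sel c r ℓ false z) σ *
          winPair J c r L w σ) -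
        (E (fun σ => cur J 1 (sel c r ℓ false z) σ * cur J 0 (sel c r ℓ true z) σ *
          winPair J c r L w σ) +
        E (fun σ => cur J 0 (sel c r ℓ true z) σ * cur J 1 (sel c r ℓ false z) σ *
          winPair J c r L w σ)) := by
    rw [← avg_add_sub hE (c3 0 1 false true) (c3 1 0 true false) (c3 1 0 false true)
      (c3 0 1 true false),
      ← hE.smul 2 (fun σ => winPair J c r ℓ z σ * winPair J c r L w σ)
        ((continuous_winPair J c r ℓ z).mul cp)]
    exact avg_congr fun σ => by simp only [winPair]; ring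
  have eT : 2 * E (fun σ => winTurn J c r ℓ z σ * winPair J c r L w σ) =
      E (fun σ => lin J (dw 0 (sel c r ℓ false z) (xw 1 (sel c r ℓ true z))) σ *
          winPair J c r L w σ) +
        E (fun σ => lin J (dw 1 (sel c r ℓ true z) (xw 0 (sel c r ℓ false z))) σ *
          winPair J c r L w σ) -
        (E (fun σ => lin J (dw 1 (sel c r ℓ false z) (xw 0 (sel c r ℓ true z))) σ *
          winPair J c r L w σ) +
        E (fun σ => lin J (dw 0 (sel c r ℓ true z) (xw 1 (sel c r ℓ false z))) σ *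
          winPair J c r L w σ)) := by
    have k : ∀ u, Continuous fun σ => lin J u σ * winPair J c r L w σ := fun u => (cl u).mul cp
    rw [← avg_add_sub hE (k _) (k _) (k _) (k _),
      ← hE.smul 2 (fun σ => winTurn J c r ℓ z σ * winPair J c r L w σ)
        ((continuous_winTurn J c r ℓ z).mul cp)]
    exact avg_congr fun σ => by
      have := lin_orders J (sel c r ℓ false z) (sel c r ℓ true z) σ
      simp only [winTurn]
      linear_combination (-(winPair J c r L w σ)) * this
  rw [eA, eT]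
  exact abs_le.2 ⟨by linarith, by linarith⟩

end scales

/-- The second moment of one pair of scales. -/
theorem scale_pair_le : ∃ C : ℝ, 0 ≤ C ∧ ∀ (L₁ L₂ : ℕ) [NeZero L₁] [NeZero L₂]
    (J : Bond L₁ L₂ → ℝ) (β : ℝ), (∀ b, 0 ≤ J b ∧ J b ≤ β) → 1 ≤ β →
    ∀ (S : Finset (Site L₁ L₂)) (E : (Conf L₁ L₂ → ℝ) → ℝ), Avg J S E →
    ∀ (c : Site L₁ L₂) (r ℓ L : ℕ) (K : ℝ), ball c (4 * r) ⊆ S → 4 ≤ ℓ → ℓ ≤ L → 4 * L ≤ r →
    (∀ b : Bond L₁ L₂, ∑ z, win ℓ z b.1 * win ℓ z (tip b) = K) →
      |E (fun σ => (∑ z ∈ ball c (3 * r), winPair J c r ℓ z σ) *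
        ∑ w ∈ ball c (3 * r), winPair J c r L w σ)| ≤ C * β ^ 2 * (ℓ : ℝ) ^ 3 * L := by
  obtain ⟨C, hC, hp⟩ := pair_sum_le
  refine ⟨8 * 324 * C, by positivity, ?_⟩
  intro L₁ L₂ _ _ J β hJ hβ S E hE c r ℓ L K hS hℓ hℓL hLr hK
  classical
  set Z := ball c (3 * r) with hZ
  have hr : 1 ≤ r := by omega
  have hf : ∀ x, x ∉ S → prof c r x = 0 := fun x hx => by
    refine ((prof_bounds c r hr).1 x).2.2.2 ?_
    by_contra h
    exact hx (hS (mem_filter.2 ⟨mem_univ _, by omega⟩))
  have hzero : ∀ w ∈ Z, ∑ z ∈ Z, E (fun σ => winTurn J c r ℓ z σ * winPair J c r L w σ) = 0 := by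
    intro w hw
    rw [← avg_sum hE Z (fun z σ => winTurn J c r ℓ z σ * winPair J c r L w σ)
      fun z => (continuous_winTurn J c r ℓ z).mul (continuous_winPair J c r L w)]
    have hw' : td c w ≤ 3 * r := (mem_filter.1 hw).2
    have h0 := cur_pair_eq_zero hE hf
      (fun x hx => sel_supp c r L false w (by omega) hS (by omega) hw' hx)
      (fun x hx => sel_supp c r L true w (by omega) hS (by omega) hw' hx)
    calc E (fun σ => ∑ z ∈ Z, winTurn J c r ℓ z σ * winPair J c r L w σ)
        = E (fun σ => (-K) * (cur J 2 (prof c r) σ * winPair J c r L w σ)) := by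
          refine avg_congr fun σ => ?_
          rw [← sum_mul, hZ, sum_winTurn J c r ℓ (by omega) (by omega) hK σ, mul_assoc]
      _ = (-K) * E (fun σ => cur J 2 (prof c r) σ * winPair J c r L w σ) :=
          hE.smul _ _ ((continuous_cur J _ _).mul (continuous_winPair J c r L w))
      _ = 0 := by
          rw [show E (fun σ => cur J 2 (prof c r) σ * winPair J c r L w σ) = 0 from h0, mul_zero]
  have hexp : E (fun σ => (∑ z ∈ Z, winPair J c r ℓ z σ) * ∑ w ∈ Z, winPair J c r L w σ) =
      ∑ w ∈ Z, ∑ z ∈ Z, E (fun σ => winPair J c r ℓ z σ * winPair J c r L w σ) := by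
    rw [← sum_congr rfl fun w _ => avg_sum hE Z
      (fun z σ => winPair J c r ℓ z σ * winPair J c r L w σ)
      fun z => (continuous_winPair J c r ℓ z).mul (continuous_winPair J c r L w),
      ← avg_sum hE Z (fun w σ => ∑ z ∈ Z, winPair J c r ℓ z σ * winPair J c r L w σ)
        fun w => continuous_finsetSum _ fun z _ =>
        (continuous_winPair J c r ℓ z).mul (continuous_winPair J c r L w)]
    refine avg_congr fun σ => ?_
    rw [mul_sum]
    exact sum_congr rfl fun w _ => sum_mul _ _ _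
  rw [hexp]
  have hdiff : ∑ w ∈ Z, ∑ z ∈ Z, E (fun σ => winPair J c r ℓ z σ * winPair J c r L w σ) =
      ∑ w ∈ Z, ∑ z ∈ Z, (E (fun σ => winPair J c r ℓ z σ * winPair J c r L w σ) -
        E (fun σ => winTurn J c r ℓ z σ * winPair J c r L w σ)) := by
    refine sum_congr rfl fun w hw => ?_
    rw [sum_sub_distrib, hzero w hw, sub_zero]
  rw [hdiff]
  refine (abs_sum_le_sum_abs _ _).trans ((sum_le_sum fun w _ => abs_sum_le_sum_abs _ _).trans ?_)
  rw [sum_comm]
  refine le_trans (b := 8 * ∑ i : Fin 3, ∑ p : Fin 3,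
    ∑ q : Fin 3, ∑ t : Fin 3, ∑ a : Bool, ∑ b : Bool, ∑ z ∈ Z, ∑ w ∈ Z,
      |E (fun σ => cur J p (sel c r ℓ (!a) z) σ *
        (lin J (dw i (sel c r ℓ a z) (xw q (sel c r L b w))) σ *
          cur J t (sel c r L (!b) w) σ))|) ?_ ?_
  refine (sum_le_sum fun z hz => sum_le_sum fun w _ => ?_).trans
    (b := ∑ z ∈ Z, ∑ w ∈ Z, 8 * ∑ i : Fin 3, ∑ p : Fin 3,
    ∑ q : Fin 3, ∑ t : Fin 3, ∑ a : Bool, ∑ b : Bool,
      |E (fun σ => cur J p (sel c r ℓ (!a) z) σ *
        (lin J (dw i (sel c r ℓ a z) (xw q (sel c r L b w))) σ *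
          cur J t (sel c r L (!b) w) σ))|) ?_
  · have h := two_pair_le (L := L) (w := w) hE hS (show 1 ≤ ℓ by omega) (by omega)
      (mem_filter.1 hz).2
    rw [← mul_sub, abs_mul, abs_two] at h
    exact (by linarith : |E (fun σ => winPair J c r ℓ z σ * winPair J c r L w σ) -
      E (fun σ => winTurn J c r ℓ z σ * winPair J c r L w σ)| ≤ 8 * _)
  · refine le_of_eq ?_
    simp only [mul_sum]
    simp only [sum_comm (s := Z) (t := (univ : Finset (Fin 3))),
      sum_comm (s := Z) (t := (univ : Finset Bool))]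
  calc _ ≤ 8 * ∑ _i : Fin 3, ∑ _p : Fin 3, ∑ _q : Fin 3, ∑ _t : Fin 3, ∑ _a : Bool, ∑ _b : Bool,
        C * β ^ 2 * (ℓ : ℝ) ^ 3 * L := by
        refine mul_le_mul_of_nonneg_left (sum_le_sum fun i _ => sum_le_sum fun p _ =>
          sum_le_sum fun q _ => sum_le_sum fun t _ => sum_le_sum fun a _ => sum_le_sum fun b _ =>
            hp L₁ L₂ J β hJ hβ S E hE c r ℓ L hS hℓ hℓL hLr i p q t a b) (by norm_num)
    _ = _ := by
        simp only [sum_const, card_univ, Fintype.card_fin, Fintype.card_bool, nsmul_eq_mul]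
        ring

/-- Geometric decay in the difference of two scales sums to a constant. -/
lemma sum_ratio_le (m k : ℕ) :
    ∑ j ∈ range m, (1 / 2 : ℝ) ^ (max j k - min j k) ≤ 4 := by
  have geo : ∀ n, ∑ i ∈ range n, (1 / 2 : ℝ) ^ i ≤ 2 := fun n => sum_geometric_two_le n
  have hs : ∀ j, (1 / 2 : ℝ) ^ (max j k - min j k) ≤
      (if j ≤ k then (1 / 2 : ℝ) ^ (k - j) else 0) + if k ≤ j then (1 / 2) ^ (j - k) else 0 := by
    intro j
    rcases le_total j k with h | h
    · rw [max_eq_right h, min_eq_left h, if_pos h]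
      exact le_add_of_nonneg_right (by split_ifs <;> positivity)
    · rw [max_eq_left h, min_eq_right h, if_pos h]
      exact le_add_of_nonneg_left (by split_ifs <;> positivity)
  refine (sum_le_sum fun j _ => hs j).trans ?_
  rw [sum_add_distrib, ← sum_filter, ← sum_filter]
  have h1 : ∑ j ∈ (range m).filter (fun j => j ≤ k), (1 / 2 : ℝ) ^ (k - j) ≤ 2 := by
    refine le_trans (le_of_eq ?_) (le_trans (sum_le_sum_of_subset_of_nonneg
      (s := ((range m).filter fun j => j ≤ k).image fun j => k - j) (t := range (k + 1))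
      ?_ fun _ _ _ => by positivity) (geo (k + 1)))
    · rw [sum_image]
      intro a ha b hb e
      simp only [coe_filter, Set.mem_setOf_eq] at ha hb e
      omega
    · intro x hx
      obtain ⟨j, -, rfl⟩ := mem_image.1 hx
      exact mem_range.2 (by omega)
  have h2 : ∑ j ∈ (range m).filter (fun j => k ≤ j), (1 / 2 : ℝ) ^ (j - k) ≤ 2 := by
    refine le_trans (le_of_eq ?_) (le_trans (sum_le_sum_of_subset_of_nonneg
      (s := ((range m).filter fun j => k ≤ j).image fun j => j - k) (t := range m)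
      ?_ fun _ _ _ => by positivity) (geo m))
    · rw [sum_image]
      intro a ha b hb e
      simp only [coe_filter, Set.mem_setOf_eq] at ha hb e
      omega
    · intro x hx
      obtain ⟨j, hj, rfl⟩ := mem_image.1 hx
      have := mem_range.1 (mem_filter.1 hj).1
      exact mem_range.2 (by omega)
  linarith

/-- The response to the twist of an annulus decreases with the number of scales. -/
theorem exists_stiff : ∃ C : ℝ, 0 ≤ C ∧ ∀ (L₁ L₂ : ℕ) [NeZero L₁] [NeZero L₂]
    (J : Bond L₁ L₂ → ℝ) (β : ℝ), 1 ≤ β → (∀ b, 0 ≤ J b ∧ J b ≤ β) →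
    ∀ (r m : ℕ), 1 ≤ m → 64 * 2 ^ m ≤ r → 16 * r < L₁ → 16 * r < L₂ →
    ∀ (c : Site L₁ L₂) (S : Finset (Site L₁ L₂)), ball c (4 * r) ⊆ S →
    ∀ (η : Conf L₁ L₂) (F : Conf L₁ L₂ → ℝ), Nice F →
      DepOn {x | td c x ≤ r / 4} F → (∀ σ, |F σ| ≤ 1) →
      |ex J S η (fun σ => F σ * cur J 2 (prof c r) σ)| ≤ C * β / Real.sqrt m := by
  obtain ⟨C, hC, hsp⟩ := scale_pair_le
  refine ⟨1 + 24 * (65536 * C), by positivity, ?_⟩
  intro L₁ L₂ _ _ J β hβ hJ r m hm hmr hL₁ hL₂ c S hS η F hF hdep hF1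
  classical
  obtain ⟨E, hE, hdom⟩ := exists_avg J S η
  set ℓ : ℕ → ℕ := fun k => 4 * 2 ^ k with hℓ
  have hℓ4 : ∀ k, 4 ≤ ℓ k := fun k => Nat.le_mul_of_pos_right 4 (Nat.two_pow_pos k)
  have hℓr : ∀ k ∈ range m, 16 * ℓ k ≤ r := fun k hk => by
    have := Nat.pow_le_pow_right two_pos (mem_range.1 hk).le
    simp only [ℓ]; omega
  have hov : ∀ k, ∃ K : ℝ, k ∈ range m → ((ℓ k : ℝ) ^ 2 / 256 ≤ K ∧
      ∀ b : Bond L₁ L₂, ∑ z, win (ℓ k) z b.1 * win (ℓ k) z (tip b) = K) := by
    intro k
    by_cases hk : k ∈ range m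
    · obtain ⟨K, hK⟩ := exists_overlap (ℓ k) (hℓ4 k) (L₁ := L₁) (L₂ := L₂)
        (by have := hℓr k hk; omega) (by have := hℓr k hk; omega)
      exact ⟨K, fun _ => hK⟩
    · exact ⟨1, fun h => absurd h hk⟩
  choose K hK using hov
  have hKpos : ∀ k ∈ range m, 0 < K k := fun k hk => by
    have : (4 : ℝ) ≤ ℓ k := by exact_mod_cast hℓ4 k
    exact lt_of_lt_of_le (by positivity) (hK k hk).1
  set Zs := ball c (3 * r) with hZs
  set P : ℕ → Conf L₁ L₂ → ℝ := fun k σ => ∑ z ∈ Zs, winPair J c r (ℓ k) z σ with hP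
  have cP : ∀ k, Continuous (P k) := fun k => continuous_finsetSum _ fun z _ =>
    continuous_winPair J c r (ℓ k) z
  set G : Conf L₁ L₂ → ℝ := fun σ => ∑ k ∈ range m, (K k)⁻¹ * P k σ with hG
  have cG : Continuous G := continuous_finsetSum _ fun k _ => (cP k).const_mul _
  set X := ex J S η (fun σ => F σ * cur J 2 (prof c r) σ) with hX
  -- the signal
  have hsig : ex J S η (fun σ => F σ * G σ) = -(m : ℝ) * X := by
    rw [hG]
    rw [ex_sum' η (range m) (fun k σ => (K k)⁻¹ * P k σ) (fun k => (cP k).const_mul _) hF]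
    rw [sum_congr rfl (g := fun _ => -X) fun k hk => ?_]
    · simp [sum_const, nsmul_eq_mul]
    have h1 : ex J S η (fun σ => F σ * P k σ) = -(K k) * X := by
      simp only [P]
      rw [ex_sum' η Zs _ (fun z => continuous_winPair J c r (ℓ k) z) hF]
      rw [sum_congr (s₁ := Zs) rfl (g := fun z => ex J S η fun σ => F σ * winTurn J c r (ℓ k) z σ)
        fun z hz => ex_winPair (ℓ := ℓ k) η (by have := hℓ4 k; omega)
          (by have := hℓr k hk; omega) hS (mem_filter.1 hz).2 hF hdep]
      rw [← ex_sum' η Zs _ (fun z => continuous_winTurn J c r (ℓ k) z) hF, hX,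
        ← ex_smul J S η (-(K k))]
      congr 1
      funext σ
      rw [hZs, sum_winTurn J c r (ℓ k) (by have := hℓ4 k; omega) (by have := hℓr k hk; have := hℓ4 k; omega)
        (hK k hk).2 σ]
      ring
    rw [show (fun σ => F σ * ((K k)⁻¹ * P k σ)) = fun σ => (K k)⁻¹ * (F σ * P k σ) by
      funext σ; ring, ex_smul, h1, ← mul_assoc, mul_neg,
      inv_mul_cancel₀ (hKpos k hk).ne', neg_mul, one_mul]
  -- the second moment
  have hpair : ∀ k ∈ range m, ∀ j ∈ range m, |(K k)⁻¹ * (K j)⁻¹ * E (fun σ => P k σ * P j σ)| ≤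
      65536 * C * β ^ 2 * (1 / 2 : ℝ) ^ (max j k - min j k) := by
    have main : ∀ a ∈ range m, ∀ b ∈ range m, a ≤ b →
        |(K a)⁻¹ * (K b)⁻¹ * E (fun σ => P a σ * P b σ)| ≤
          65536 * C * β ^ 2 * (1 / 2 : ℝ) ^ (b - a) := by
      intro a ha b hb hab
      have hle : ℓ a ≤ ℓ b := Nat.mul_le_mul_left 4 (Nat.pow_le_pow_right two_pos hab)
      have h := hsp L₁ L₂ J β hJ hβ S E hE c r (ℓ a) (ℓ b) (K a) hS (hℓ4 a) hle
        (by have := hℓr b hb; omega) (hK a ha).2
      have Ka := hKpos a ha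
      have Kb := hKpos b hb
      have la : (0 : ℝ) < ℓ a := by exact_mod_cast (show 0 < ℓ a by have := hℓ4 a; omega)
      have lb : (0 : ℝ) < ℓ b := by exact_mod_cast (show 0 < ℓ b by have := hℓ4 b; omega)
      rw [abs_mul, abs_of_pos (by positivity : 0 < (K a)⁻¹ * (K b)⁻¹), ← mul_inv,
        inv_mul_le_iff₀ (by positivity)]
      refine h.trans ?_
      have hq : (ℓ b : ℝ) * (1 / 2 : ℝ) ^ (b - a) = ℓ a := by
        simp only [ℓ, Nat.cast_mul, Nat.cast_pow, Nat.cast_ofNat, one_div]
        rw [inv_pow, ← div_eq_mul_inv, div_eq_iff (by positivity), mul_assoc, ← pow_add,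
          Nat.add_sub_cancel' hab]
      calc C * β ^ 2 * (ℓ a : ℝ) ^ 3 * ℓ b
          = C * β ^ 2 * (ℓ a : ℝ) ^ 2 * ℓ b * ((ℓ b : ℝ) * (1 / 2 : ℝ) ^ (b - a)) := by
            rw [hq]; ring
        _ = ((ℓ a : ℝ) ^ 2 / 256 * ((ℓ b : ℝ) ^ 2 / 256)) *
            (65536 * C * β ^ 2 * (1 / 2 : ℝ) ^ (b - a)) := by ring
        _ ≤ _ := mul_le_mul_of_nonneg_right
            (mul_le_mul (hK a ha).1 (hK b hb).1 (by positivity) Ka.le) (by positivity)
    intro k hk j hj
    rcases le_total k j with h | h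
    · rw [max_eq_left h, min_eq_right h]; exact main k hk j hj h
    · rw [max_eq_right h, min_eq_left h, mul_comm (K k)⁻¹,
        avg_congr (E := E) (f := fun σ => P k σ * P j σ) (g := fun σ => P j σ * P k σ)
          fun σ => mul_comm _ _]
      exact main j hj k hk h
  have hsq : E (fun σ => G σ * G σ) ≤ 4 * (65536 * C) * β ^ 2 * m := by
    have e : E (fun σ => G σ * G σ) =
        ∑ k ∈ range m, ∑ j ∈ range m, (K k)⁻¹ * (K j)⁻¹ * E (fun σ => P k σ * P j σ) := by
      have ce : ∀ k j, Continuous fun σ => (K k)⁻¹ * (K j)⁻¹ * (P k σ * P j σ) :=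
        fun k j => ((cP k).mul (cP j)).const_mul _
      refine Eq.trans ?_ (sum_congr rfl fun k _ => sum_congr rfl fun j _ =>
        hE.smul ((K k)⁻¹ * (K j)⁻¹) (fun σ => P k σ * P j σ) ((cP k).mul (cP j)))
      refine Eq.trans ?_ (sum_congr rfl fun k _ =>
        avg_sum hE (range m) (fun j σ => (K k)⁻¹ * (K j)⁻¹ * (P k σ * P j σ)) (ce k))
      refine Eq.trans ?_ (avg_sum hE (range m)
        (fun k σ => ∑ j ∈ range m, (K k)⁻¹ * (K j)⁻¹ * (P k σ * P j σ))
        fun k => continuous_finsetSum _ fun j _ => ce k j)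
      refine avg_congr fun σ => ?_
      simp only [G, sum_mul_sum]
      exact sum_congr rfl fun k _ => sum_congr rfl fun j _ => by ring
    rw [e]
    refine (sum_le_sum fun k hk => sum_le_sum fun j hj =>
      (le_abs_self _).trans (hpair k hk j hj)).trans ?_
    refine (sum_le_sum fun k _ => (mul_sum (range m) _ (65536 * C * β ^ 2)).symm.trans_le
      (mul_le_mul_of_nonneg_left (sum_ratio_le m k) (by positivity))).trans (le_of_eq ?_)
    simp only [sum_const, card_range, nsmul_eq_mul]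
    ring
  -- Cauchy-Schwarz
  have hm' : (0 : ℝ) < m := by exact_mod_cast hm
  set t := β * Real.sqrt m with ht
  have ht0 : 0 < t := by positivity
  have nFG : Nice fun σ => F σ * G σ := hF.mul (nice_of_continuous cG)
  have hbound : ∀ e : ℝ, |e| = 1 →
      e * ex J S η (fun σ => F σ * G σ) ≤ t / 2 + 12 * E (fun σ => G σ * G σ) / (2 * t) := by
    intro e he
    have cq : Continuous fun σ => t / 2 + 1 / (2 * t) * (G σ * G σ) :=
      ((cG.mul cG).const_mul _).const_add _
    rw [← ex_smul J S η e]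
    refine (ex_mono J S η ((nice_of_continuous continuous_const).mul nFG) (nice_of_continuous cq)
      fun σ => ?_).trans ?_
    · have h1 : e * (F σ * G σ) ≤ |G σ| := by
        refine (le_abs_self _).trans ?_
        rw [abs_mul, abs_mul, he, one_mul]
        exact mul_le_of_le_one_left (abs_nonneg _) (hF1 σ)
      have h2 : t / 2 + 1 / (2 * t) * (G σ * G σ) - |G σ| = (|G σ| - t) ^ 2 / (2 * t) := by
        rw [← abs_mul_abs_self (G σ)]
        field_simp
        ring
      have h3 : 0 ≤ (|G σ| - t) ^ 2 / (2 * t) := by positivity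
      linarith
    · have n2 : Nice fun σ => 1 / (2 * t) * (G σ * G σ) :=
        nice_of_continuous ((cG.mul cG).const_mul _)
      rw [ex_add J S η (f := fun _ => t / 2) (g := fun σ => 1 / (2 * t) * (G σ * G σ))
        (nice_of_continuous continuous_const) n2, ex_smul,
        show ex J S η (fun _ => t / 2) = t / 2 by
          simpa [ex_one] using ex_smul J S η (t / 2) (fun _ => (1 : ℝ))]
      refine add_le_add_right ?_ _
      rw [one_div_mul_eq_div]
      exact div_le_div_of_nonneg_right (hdom _ (cG.mul cG) fun σ => mul_self_nonneg _)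
        (by positivity)
  have hfin : (m : ℝ) * |X| ≤ (1 + 24 * (65536 * C)) * β * Real.sqrt m := by
    have h1 := hbound 1 abs_one
    have h2 := hbound (-1) (by simp)
    rw [hsig] at h1 h2
    have h3 : 12 * E (fun σ => G σ * G σ) / (2 * t) ≤ 24 * (65536 * C) * β * Real.sqrt m := by
      rw [div_le_iff₀ (by positivity)]
      calc 12 * E (fun σ => G σ * G σ) ≤ 12 * (4 * (65536 * C) * β ^ 2 * m) := by linarith
        _ = 24 * (65536 * C) * β ^ 2 * (Real.sqrt m * Real.sqrt m) * 2 := by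
            rw [Real.mul_self_sqrt hm'.le]; ring
        _ = _ := by rw [ht]; ring
    have h4 : (m : ℝ) * |X| = |(m : ℝ) * X| := by rw [abs_mul, abs_of_pos hm']
    rw [h4]
    refine abs_le.2 ⟨?_, ?_⟩ <;> linarith
  rw [le_div_iff₀ (Real.sqrt_pos.2 hm')]
  refine le_of_mul_le_mul_right ?_ (Real.sqrt_pos.2 hm')
  rw [mul_assoc, Real.mul_self_sqrt hm'.le]
  linarith

end Vale.Agent.P163.Gap
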