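import Vale.Agent.P163.Gap.Defs

/-!
Twists, the Ward identity, and the average of an expectation over the symmetries of the cube.
-/

open MeasureTheory Real Matrix Finset
open scoped BigOperators

namespace Vale.Agent.P163.Gap

set_option linter.unusedSectionVars false

variable {L₁ L₂ : ℕ} [NeZero L₁] [NeZero L₂]

/-- A function of the spins determined by those in `A`. -/
def DepOn (A : Set (Site L₁ L₂)) (F : Conf L₁ L₂ → ℝ) : Prop :=
  ∀ σ σ', (∀ x ∈ A, σ x = σ' x) → F σ = F σ'

/-! ### Rotations about the axes and twists -/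

/-- The rotation about an axis, applied to a vector. -/
noncomputable def axRotFun (i : Fin 3) (t : ℝ) (v : Vec 3) : Vec 3 :=
  WithLp.toLp 2 fun p => v.ofLp p + Real.sin t * (∑ q, gen i p q * v.ofLp q) +
    (1 - Real.cos t) * ∑ q, gen i p q * ∑ r, gen i q r * v.ofLp r

theorem norm_axRotFun (i : Fin 3) (t : ℝ) (v : Vec 3) : ‖axRotFun i t v‖ = ‖v‖ := by
  have h := Real.sin_sq_add_cos_sq t
  rw [EuclideanSpace.norm_eq, EuclideanSpace.norm_eq]
  congr 1
  fin_cases i <;>
    simp [axRotFun, gen, Fin.sum_univ_three] <;>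
    first
      | linear_combination (v.ofLp 1 ^ 2 + v.ofLp 2 ^ 2) * h
      | linear_combination (v.ofLp 0 ^ 2 + v.ofLp 2 ^ 2) * h
      | linear_combination (v.ofLp 0 ^ 2 + v.ofLp 1 ^ 2) * h

/-- The rotation as a linear isometry. -/
noncomputable def axRot (i : Fin 3) (t : ℝ) : Vec 3 ≃ₗᵢ[ℝ] Vec 3 :=
  LinearIsometry.toLinearIsometryEquiv
    { toFun := axRotFun i t
      map_add' := fun v w => by
        ext p; simp [axRotFun, mul_add, Finset.sum_add_distrib]; ring
      map_smul' := fun c v => by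
        ext p; fin_cases i <;> fin_cases p <;> simp [axRotFun, gen, Fin.sum_univ_three] <;> ring
      norm_map' := norm_axRotFun i t } rfl

theorem axRot_apply (i : Fin 3) (t : ℝ) (v : Vec 3) (p : Fin 3) :
    (axRot i t v).ofLp p = v.ofLp p + Real.sin t * (∑ q, gen i p q * v.ofLp q) +
      (1 - Real.cos t) * ∑ q, gen i p q * ∑ r, gen i q r * v.ofLp r := by
  simp [axRot, axRotFun]

theorem axRot_add (i : Fin 3) (s t : ℝ) (v : Vec 3) :
    axRot i s (axRot i t v) = axRot i (s + t) v := by
  ext p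
  fin_cases i <;> fin_cases p <;>
    simp [axRot_apply, gen, Fin.sum_univ_three, Real.sin_add, Real.cos_add] <;> ring

theorem hasDerivAt_axRot (i : Fin 3) (t : ℝ) (v : Vec 3) (p : Fin 3) :
    HasDerivAt (fun s => (axRot i s v).ofLp p)
      (∑ q, gen i p q * (axRot i t v).ofLp q) t := by
  simp only [axRot_apply]
  have h := (((Real.hasDerivAt_sin t).mul_const (∑ q, gen i p q * v.ofLp q)).const_add
    (v.ofLp p)).add (((Real.hasDerivAt_cos t).const_sub 1).mul_const
      (∑ q, gen i p q * ∑ r, gen i q r * v.ofLp r))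
  refine h.congr_deriv ?_
  fin_cases i <;> fin_cases p <;> simp [gen, Fin.sum_univ_three] <;> ring

/-- The configuration twisted about an axis by the angles `t * h`. -/
noncomputable def twist (i : Fin 3) (h : Site L₁ L₂ → ℝ) (t : ℝ) (σ : Conf L₁ L₂) : Conf L₁ L₂ :=
  fun x => sphMap (axRot i (t * h x)) (σ x)

theorem twist_zero (i : Fin 3) (h : Site L₁ L₂ → ℝ) (σ : Conf L₁ L₂) : twist i h 0 σ = σ := by
  funext x; apply Subtype.ext; ext p
  simp [twist, sphMap, axRot_apply]

theorem twist_add (i : Fin 3) (h : Site L₁ L₂ → ℝ) (s t : ℝ) (σ : Conf L₁ L₂) :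
    twist i h s (twist i h t σ) = twist i h (s + t) σ := by
  funext x; apply Subtype.ext
  simp [twist, sphMap, axRot_add, add_mul]

theorem twist_merge (i : Fin 3) {h : Site L₁ L₂ → ℝ} {S : Finset (Site L₁ L₂)}
    (hS : ∀ x, x ∉ S → h x = 0) (t : ℝ) (η ζ : Conf L₁ L₂) :
    twist i h t (merge S η ζ) = merge S η (twist i h t ζ) := by
  funext x
  by_cases hx : x ∈ S
  · simp [twist, merge, hx]
  · apply Subtype.ext; ext p
    simp [twist, merge, hx, hS x hx, sphMap, axRot_apply]

theorem twist_eq_self (i : Fin 3) {h : Site L₁ L₂ → ℝ} (t : ℝ) (σ : Conf L₁ L₂) {x : Site L₁ L₂}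
    (hx : h x = 0) : twist i h t σ x = σ x := by
  apply Subtype.ext; ext p
  simp [twist, hx, sphMap, axRot_apply]

theorem measurePreserving_twist (i : Fin 3) (h : Site L₁ L₂ → ℝ) (t : ℝ) :
    MeasurePreserving (twist i h t) (freeMeasure 3 (Site L₁ L₂))
      (freeMeasure 3 (Site L₁ L₂)) := by
  have := omega_isProbability (n := 3)
  exact measurePreserving_pi _ _ fun x => omega_invariant _

/-! ### Continuity and boundedness -/

theorem continuous_coord (x : Site L₁ L₂) (p : Fin 3) :
    Continuous fun σ : Conf L₁ L₂ => (σ x : Vec 3).ofLp p :=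
  (EuclideanSpace.proj p).continuous.comp (continuous_subtype_val.comp (continuous_apply x))

theorem continuous_lin (J : Bond L₁ L₂ → ℝ) (w : Bond L₁ L₂ → Mat3) : Continuous (lin J w) := by
  unfold lin bil
  exact continuous_finsetSum _ fun b _ => continuous_const.mul (continuous_finsetSum _ fun p _ =>
    continuous_finsetSum _ fun q _ =>
      (continuous_const.mul (continuous_coord _ p)).mul (continuous_coord _ q))

theorem continuous_cur (J : Bond L₁ L₂ → ℝ) (i : Fin 3) (h : Site L₁ L₂ → ℝ) :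
    Continuous (cur J i h) := continuous_lin J _

theorem continuous_wt (J : Bond L₁ L₂ → ℝ) : Continuous (wt J) :=
  Real.continuous_exp.comp (continuous_lin J _)

theorem continuous_twist (i : Fin 3) (h : Site L₁ L₂ → ℝ) (t : ℝ) :
    Continuous (twist i h t : Conf L₁ L₂ → Conf L₁ L₂) :=
  continuous_pi fun x => ((axRot i (t * h x)).continuous.comp
    (continuous_subtype_val.comp (continuous_apply x))).subtype_mk _

theorem continuous_merge_right (S : Finset (Site L₁ L₂)) (η : Conf L₁ L₂) :
    Continuous fun ζ : Conf L₁ L₂ => merge S η ζ := by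
  refine continuous_pi fun x => ?_
  by_cases hx : x ∈ S <;> simp [merge, hx, continuous_const, continuous_apply]

theorem nice_of_continuous {f : Conf L₁ L₂ → ℝ} (hf : Continuous f) : Nice f := by
  obtain ⟨C, hC⟩ := isCompact_univ.exists_bound_of_continuousOn hf.continuousOn
  exact ⟨hf.measurable, C, fun σ => hC σ (Set.mem_univ σ)⟩

theorem _root_.Vale.Agent.P163.Nice.mul {α : Type*} [MeasurableSpace α] {f g : α → ℝ} (hf : Nice f) (hg : Nice g) :
    Nice fun a => f a * g a := by
  obtain ⟨C, hC⟩ := hf.2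
  obtain ⟨D, hD⟩ := hg.2
  exact ⟨hf.1.mul hg.1, C * D, fun a => by
    rw [norm_mul]
    exact mul_le_mul (hC a) (hD a) (norm_nonneg _) ((norm_nonneg _).trans (hC a))⟩

/-! ### Derivatives along twists -/

theorem gen_antisymm (i p q : Fin 3) : gen i p q = -gen i q p := by
  fin_cases i <;> fin_cases p <;> fin_cases q <;> simp [gen]

theorem hasDerivAt_lin (J : Bond L₁ L₂ → ℝ) (i : Fin 3) (h : Site L₁ L₂ → ℝ)
    (w : Bond L₁ L₂ → Mat3) (σ : Conf L₁ L₂) (t : ℝ) :
    HasDerivAt (fun s => lin J w (twist i h s σ)) (lin J (dw i h w) (twist i h t σ)) t := by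
  unfold lin bil
  refine HasDerivAt.fun_sum fun b _ => HasDerivAt.const_mul (J b) ?_
  have hc : ∀ x p, HasDerivAt (fun s => (twist i h s σ x : Vec 3).ofLp p)
      ((∑ q, gen i p q * (twist i h t σ x : Vec 3).ofLp q) * h x) t := by
    intro x p
    have h1 : HasDerivAt (fun s : ℝ => s * h x) (h x) t := by
      simpa using (hasDerivAt_id t).mul_const (h x)
    exact (hasDerivAt_axRot i (t * h x) (σ x : Vec 3) p).comp t h1
  refine (HasDerivAt.fun_sum fun p _ => HasDerivAt.fun_sum fun q _ =>
    ((hc (tip b) p).const_mul (w b p q)).fun_mul (hc b.1 q)).congr_deriv ?_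
  simp only [dw, Matrix.sub_apply, Matrix.smul_apply, Matrix.mul_apply, smul_eq_mul,
    Fin.sum_univ_three]
  fin_cases i <;> simp [gen] <;> ring

theorem dw_one (i : Fin 3) (h : Site L₁ L₂ → ℝ) :
    dw i h (fun _ => (1 : Mat3)) = fun b => -xw i h b := by
  funext b
  simp [dw, xw, dd, ← sub_smul, ← neg_smul]

theorem lin_neg (J : Bond L₁ L₂ → ℝ) (w : Bond L₁ L₂ → Mat3) (σ : Conf L₁ L₂) :
    lin J (fun b => -w b) σ = -lin J w σ := by
  simp [lin, bil, Finset.sum_neg_distrib]

theorem hasDerivAt_wt (J : Bond L₁ L₂ → ℝ) (i : Fin 3) (h : Site L₁ L₂ → ℝ) (σ : Conf L₁ L₂)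
    (t : ℝ) :
    HasDerivAt (fun s => wt J (twist i h s σ))
      (-(cur J i h (twist i h t σ) * wt J (twist i h t σ))) t := by
  refine ((hasDerivAt_lin J i h (fun _ => (1 : Mat3)) σ t).exp).congr_deriv ?_
  rw [dw_one, lin_neg]
  simp only [wt, energy3, cur]
  ring

/-- The product of the forms of a list of weights. -/
def linProd (J : Bond L₁ L₂ → ℝ) (ws : List (Bond L₁ L₂ → Mat3)) (σ : Conf L₁ L₂) : ℝ :=
  (ws.map fun w => lin J w σ).prod

/-- The derivative of a product of forms. -/
def linProdDeriv (J : Bond L₁ L₂ → ℝ) (i : Fin 3) (h : Site L₁ L₂ → ℝ)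
    (ws : List (Bond L₁ L₂ → Mat3)) (σ : Conf L₁ L₂) : ℝ :=
  ∑ k ∈ Finset.range ws.length, ((ws.modify k (dw i h)).map fun w => lin J w σ).prod

theorem linProdDeriv_cons (J : Bond L₁ L₂ → ℝ) (i : Fin 3) (h : Site L₁ L₂ → ℝ)
    (a : Bond L₁ L₂ → Mat3) (ws : List (Bond L₁ L₂ → Mat3)) (σ : Conf L₁ L₂) :
    linProdDeriv J i h (a :: ws) σ =
      lin J (dw i h a) σ * linProd J ws σ + lin J a σ * linProdDeriv J i h ws σ := by
  simp only [linProdDeriv, linProd, List.length_cons, Finset.sum_range_succ',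
    List.modify_succ_cons, List.modify_zero_cons, List.map_cons, List.prod_cons, Finset.mul_sum]
  ring

theorem hasDerivAt_linProd (J : Bond L₁ L₂ → ℝ) (i : Fin 3) (h : Site L₁ L₂ → ℝ)
    (ws : List (Bond L₁ L₂ → Mat3)) (σ : Conf L₁ L₂) (t : ℝ) :
    HasDerivAt (fun s => linProd J ws (twist i h s σ))
      (linProdDeriv J i h ws (twist i h t σ)) t := by
  induction ws with
  | nil => simpa [linProd, linProdDeriv] using hasDerivAt_const t (1 : ℝ)
  | cons a ws ih =>
    rw [linProdDeriv_cons]
    simpa [linProd] using (hasDerivAt_lin J i h a σ t).fun_mul ih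

theorem continuous_linProd (J : Bond L₁ L₂ → ℝ) (ws : List (Bond L₁ L₂ → Mat3)) :
    Continuous (linProd J ws) := by
  induction ws with
  | nil => exact continuous_const (y := (1 : ℝ))
  | cons a ws ih =>
    exact ((continuous_lin J a).mul ih).congr fun σ => by simp [linProd]

theorem continuous_linProdDeriv (J : Bond L₁ L₂ → ℝ) (i : Fin 3) (h : Site L₁ L₂ → ℝ)
    (ws : List (Bond L₁ L₂ → Mat3)) : Continuous (linProdDeriv J i h ws) :=
  continuous_finsetSum _ fun _ _ => continuous_linProd J _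

/-! ### The expectation given the outside -/

variable (J : Bond L₁ L₂ → ℝ) (S : Finset (Site L₁ L₂))

/-- The normalisation. -/
noncomputable def zex (η : Conf L₁ L₂) : ℝ :=
  ∫ ζ, wt J (merge S η ζ) ∂freeMeasure 3 (Site L₁ L₂)

theorem integrable_slice {g : Conf L₁ L₂ → ℝ} (hg : Nice g) (η : Conf L₁ L₂) :
    Integrable (fun ζ => g (merge S η ζ)) (freeMeasure 3 (Site L₁ L₂)) := by
  have := freeMeasure_isProbability (n := 3) (V := Site L₁ L₂)
  exact (hg.comp (measurable_slice S η)).integrable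

theorem integrable_wt_slice {g : Conf L₁ L₂ → ℝ} (hg : Nice g) (η : Conf L₁ L₂) :
    Integrable (fun ζ => wt J (merge S η ζ) * g (merge S η ζ)) (freeMeasure 3 (Site L₁ L₂)) :=
  integrable_slice S ((nice_of_continuous (continuous_wt J)).mul hg) η

theorem zex_pos (η : Conf L₁ L₂) : 0 < zex J S η := by
  have := freeMeasure_isProbability (n := 3) (V := Site L₁ L₂)
  exact integral_exp_pos (integrable_slice S (nice_of_continuous (continuous_wt J)) η)

theorem ex_def (η : Conf L₁ L₂) (g : Conf L₁ L₂ → ℝ) :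
    ex J S η g =
      (∫ ζ, wt J (merge S η ζ) * g (merge S η ζ) ∂freeMeasure 3 (Site L₁ L₂)) / zex J S η := rfl

theorem ex_one (η : Conf L₁ L₂) : ex J S η (fun _ => 1) = 1 := by
  rw [ex_def]; simp only [mul_one]; exact div_self (zex_pos J S η).ne'

theorem ex_add (η : Conf L₁ L₂) {f g : Conf L₁ L₂ → ℝ} (hf : Nice f) (hg : Nice g) :
    ex J S η (fun σ => f σ + g σ) = ex J S η f + ex J S η g := by
  simp only [ex_def, mul_add]
  rw [integral_add (integrable_wt_slice J S hf η) (integrable_wt_slice J S hg η), add_div]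

theorem ex_smul (η : Conf L₁ L₂) (c : ℝ) (f : Conf L₁ L₂ → ℝ) :
    ex J S η (fun σ => c * f σ) = c * ex J S η f := by
  simp only [ex_def, mul_left_comm _ c, integral_const_mul, mul_div_assoc]

theorem ex_mono (η : Conf L₁ L₂) {f g : Conf L₁ L₂ → ℝ} (hf : Nice f) (hg : Nice g)
    (h : ∀ σ, f σ ≤ g σ) : ex J S η f ≤ ex J S η g := by
  rw [ex_def, ex_def]
  refine div_le_div_of_nonneg_right ?_ (zex_pos J S η).le
  exact integral_mono (integrable_wt_slice J S hf η) (integrable_wt_slice J S hg η) fun ζ =>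
    mul_le_mul_of_nonneg_left (h _) (Real.exp_pos _).le

/-! ### Differentiation under the integral -/

theorem hasDerivAt_slice (η : Conf L₁ L₂) (i : Fin 3) (h : Site L₁ L₂ → ℝ) {F : Conf L₁ L₂ → ℝ}
    (hF : Nice F) {φ φ' : Conf L₁ L₂ → ℝ} (hφ : Continuous φ) (hφ' : Continuous φ')
    (hd : ∀ σ t, HasDerivAt (fun s => φ (twist i h s σ)) (φ' (twist i h t σ)) t) (t : ℝ) :
    HasDerivAt
      (fun s => ∫ ζ, F (merge S η ζ) * φ (twist i h s (merge S η ζ))
        ∂freeMeasure 3 (Site L₁ L₂))
      (∫ ζ, F (merge S η ζ) * φ' (twist i h t (merge S η ζ)) ∂freeMeasure 3 (Site L₁ L₂)) t := by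
  have := freeMeasure_isProbability (n := 3) (V := Site L₁ L₂)
  have hn : ∀ {ψ : Conf L₁ L₂ → ℝ}, Continuous ψ → ∀ s,
      Nice fun σ => F σ * ψ (twist i h s σ) := fun hψ s =>
    hF.mul (nice_of_continuous (hψ.comp (continuous_twist i h s)))
  obtain ⟨C, hC⟩ := hF.2
  obtain ⟨D, hD⟩ := (nice_of_continuous hφ').2
  refine (hasDerivAt_integral_of_dominated_loc_of_deriv_le (s := Set.univ) (bound := fun _ => C * D)
    (F' := fun s ζ => F (merge S η ζ) * φ' (twist i h s (merge S η ζ))) Filter.univ_mem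
    (Filter.Eventually.of_forall fun s => (integrable_slice S (hn hφ s) η).aestronglyMeasurable)
    (integrable_slice S (hn hφ t) η) (integrable_slice S (hn hφ' t) η).aestronglyMeasurable
    ?_ (integrable_const _) ?_).2
  · refine Filter.Eventually.of_forall fun ζ s _ => ?_
    rw [norm_mul]
    exact mul_le_mul (hC _) (hD _) (norm_nonneg _) ((norm_nonneg _).trans (hC (merge S η ζ)))
  · exact Filter.Eventually.of_forall fun ζ s _ => (hd _ s).const_mul _

theorem integral_slice_twist (η : Conf L₁ L₂) (i : Fin 3) {h : Site L₁ L₂ → ℝ}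
    (hS : ∀ x, x ∉ S → h x = 0) {k : Conf L₁ L₂ → ℝ} (hk : Nice k) (t : ℝ) :
    ∫ ζ, k (twist i h t (merge S η ζ)) ∂freeMeasure 3 (Site L₁ L₂) =
      ∫ ζ, k (merge S η ζ) ∂freeMeasure 3 (Site L₁ L₂) := by
  have hmp := measurePreserving_twist (L₁ := L₁) (L₂ := L₂) i h t
  simp only [twist_merge i hS]
  conv_rhs => rw [← hmp.map_eq]
  exact (integral_map (f := fun ζ => k (merge S η ζ)) hmp.measurable.aemeasurable
    (hk.1.comp (measurable_slice S η)).aestronglyMeasurable).symm

/-- Integration by parts against a function the twist does not move. -/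
theorem ward_general (η : Conf L₁ L₂) (i : Fin 3) {h : Site L₁ L₂ → ℝ}
    (hS : ∀ x, x ∉ S → h x = 0) {F : Conf L₁ L₂ → ℝ} (hF : Nice F)
    (hdep : DepOn {x | h x = 0} F) (ws : List (Bond L₁ L₂ → Mat3)) :
    ex J S η (fun σ => F σ * (cur J i h σ * linProd J ws σ)) =
      ex J S η (fun σ => F σ * linProdDeriv J i h ws σ) := by
  set φ : Conf L₁ L₂ → ℝ := fun σ => wt J σ * linProd J ws σ with hφd
  set φ' : Conf L₁ L₂ → ℝ := fun σ =>
    -(cur J i h σ * wt J σ) * linProd J ws σ + wt J σ * linProdDeriv J i h ws σ with hφd'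
  have hφ : Continuous φ := (continuous_wt J).mul (continuous_linProd J ws)
  have hφ' : Continuous φ' :=
    ((((continuous_cur J i h).mul (continuous_wt J)).neg).mul (continuous_linProd J ws)).add
      ((continuous_wt J).mul (continuous_linProdDeriv J i h ws))
  have hd : ∀ σ t, HasDerivAt (fun s => φ (twist i h s σ)) (φ' (twist i h t σ)) t := fun σ t =>
    (hasDerivAt_wt J i h σ t).fun_mul (hasDerivAt_linProd J i h ws σ t)
  have h0 := hasDerivAt_slice S η i h hF hφ hφ' hd 0
  have hconst : (fun s => ∫ ζ, F (merge S η ζ) * φ (twist i h s (merge S η ζ))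
      ∂freeMeasure 3 (Site L₁ L₂)) =
      fun _ => ∫ ζ, F (merge S η ζ) * φ (merge S η ζ) ∂freeMeasure 3 (Site L₁ L₂) := by
    funext s
    rw [← integral_slice_twist S η i hS (hF.mul (nice_of_continuous hφ)) s]
    refine integral_congr_ae (Filter.Eventually.of_forall fun ζ => ?_)
    simp only
    rw [hdep (twist i h s (merge S η ζ)) (merge S η ζ) fun x hx => twist_eq_self i s _ hx]
  rw [hconst] at h0
  have hz := h0.unique (hasDerivAt_const _ _)
  simp only [twist_zero] at hz
  have hn1 : Nice fun σ => wt J σ * (F σ * (cur J i h σ * linProd J ws σ)) :=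
    (nice_of_continuous (continuous_wt J)).mul
      (hF.mul (nice_of_continuous ((continuous_cur J i h).mul (continuous_linProd J ws))))
  have hn2 : Nice fun σ => wt J σ * (F σ * linProdDeriv J i h ws σ) :=
    (nice_of_continuous (continuous_wt J)).mul
      (hF.mul (nice_of_continuous (continuous_linProdDeriv J i h ws)))
  rw [ex_def, ex_def]
  congr 1
  refine sub_eq_zero.1 ?_
  rw [← integral_sub (integrable_slice S hn1 η) (integrable_slice S hn2 η)]
  rw [← neg_eq_zero, ← integral_neg]
  refine Eq.trans (integral_congr_ae (Filter.Eventually.of_forall fun ζ => ?_)) hz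
  simp only [hφd']
  ring

/-- The Ward identity against a function the twist does not move. -/
theorem ward_mul (η : Conf L₁ L₂) (i k : Fin 3) {h g : Site L₁ L₂ → ℝ}
    (hS : ∀ x, x ∉ S → h x = 0) {F : Conf L₁ L₂ → ℝ} (hF : Nice F)
    (hdep : DepOn {x | h x = 0} F) :
    ex J S η (fun σ => F σ * (cur J i h σ * cur J k g σ)) =
      ex J S η (fun σ => F σ * lin J (dw i h (xw k g)) σ) := by
  simpa [linProd, linProdDeriv, cur] using ward_general J S η i hS hF hdep [xw k g]

/-! ### The average over the rotations of the tetrahedron -/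

/-- The signs of the diagonal rotations. -/
def tetSign : Fin 4 → Fin 3 → ℝ :=
  ![![1, 1, 1], ![1, -1, -1], ![-1, 1, -1], ![-1, -1, 1]]

/-- A rotation of the tetrahedron, applied to a vector. -/
noncomputable def tetFun (a : Fin 4) (b : Fin 3) (v : Vec 3) : Vec 3 :=
  WithLp.toLp 2 fun p => tetSign a p * v.ofLp (p + b)

theorem norm_tetFun (a : Fin 4) (b : Fin 3) (v : Vec 3) : ‖tetFun a b v‖ = ‖v‖ := by
  rw [EuclideanSpace.norm_eq, EuclideanSpace.norm_eq]
  congr 1
  fin_cases a <;> fin_cases b <;> simp [tetFun, tetSign, Fin.sum_univ_three] <;> ring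

/-- A rotation of the tetrahedron. -/
noncomputable def tet (a : Fin 4) (b : Fin 3) : Vec 3 ≃ₗᵢ[ℝ] Vec 3 :=
  LinearIsometry.toLinearIsometryEquiv
    { toFun := tetFun a b
      map_add' := fun v w => by ext p; simp [tetFun]; ring
      map_smul' := fun c v => by ext p; simp [tetFun]; ring
      norm_map' := norm_tetFun a b } rfl

/-- The rotated configuration. -/
noncomputable def spinTurn (a : Fin 4) (b : Fin 3) (σ : Conf L₁ L₂) : Conf L₁ L₂ :=
  fun x => sphMap (tet a b) (σ x)

theorem tet_apply (a : Fin 4) (b : Fin 3) (σ : Conf L₁ L₂) (x : Site L₁ L₂) (p : Fin 3) :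
    (spinTurn a b σ x : Vec 3).ofLp p = tetSign a p * (σ x : Vec 3).ofLp (p + b) := by
  simp [spinTurn, sphMap, tet, tetFun]

theorem continuous_spinTurn (a : Fin 4) (b : Fin 3) :
    Continuous (spinTurn a b : Conf L₁ L₂ → Conf L₁ L₂) :=
  continuous_pi fun x => ((tet a b).continuous.comp
    (continuous_subtype_val.comp (continuous_apply x))).subtype_mk _

theorem sum_bil_spinTurn (M : Mat3) (σ : Conf L₁ L₂) (e : Bond L₁ L₂) :
    ∑ a, ∑ b, bil M (spinTurn a b σ) e = 12 * bil ((M.trace / 3) • (1 : Mat3)) σ e := by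
  simp only [bil, tet_apply]
  simp [Matrix.trace, tetSign, Fin.sum_univ_three, Fin.sum_univ_four]
  ring

theorem wt_spinTurn (a : Fin 4) (b : Fin 3) (σ : Conf L₁ L₂) :
    wt J (spinTurn a b σ) = wt J σ := by
  simp only [wt, energy3, lin]
  congr 1
  refine Finset.sum_congr rfl fun e _ => ?_
  congr 1
  simp only [bil, tet_apply]
  fin_cases a <;> fin_cases b <;> simp [tetSign, Fin.sum_univ_three, Matrix.one_apply] <;> ring

theorem ex_spinTurn (η : Conf L₁ L₂) (a : Fin 4) (b : Fin 3) {f : Conf L₁ L₂ → ℝ} (hf : Nice f) :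
    ex J S (spinTurn a b η) f = ex J S η (fun σ => f (spinTurn a b σ)) := by
  have := omega_isProbability (n := 3)
  have hmp : MeasurePreserving (spinTurn (L₁ := L₁) (L₂ := L₂) a b)
      (freeMeasure 3 (Site L₁ L₂)) (freeMeasure 3 (Site L₁ L₂)) :=
    measurePreserving_pi _ _ fun x => omega_invariant _
  have hm : ∀ ζ : Conf L₁ L₂,
      merge S (spinTurn a b η) (spinTurn a b ζ) = spinTurn a b (merge S η ζ) := fun ζ => by
    funext x
    by_cases hx : x ∈ S <;> simp [merge, spinTurn, hx]
  have key : ∀ k : Conf L₁ L₂ → ℝ, Nice k →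
      ∫ ζ, wt J (merge S (spinTurn a b η) ζ) * k (merge S (spinTurn a b η) ζ)
        ∂freeMeasure 3 (Site L₁ L₂) =
      ∫ ζ, wt J (merge S η ζ) * k (spinTurn a b (merge S η ζ))
        ∂freeMeasure 3 (Site L₁ L₂) := by
    intro k hk
    have := integral_map (μ := freeMeasure 3 (Site L₁ L₂)) hmp.measurable.aemeasurable
      (f := fun ζ => wt J (merge S (spinTurn a b η) ζ) * k (merge S (spinTurn a b η) ζ))
      ((((continuous_wt J).measurable.mul hk.1).comp
        (measurable_slice S (spinTurn a b η))).aestronglyMeasurable)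
    rw [hmp.map_eq] at this
    rw [this]
    simp only [hm, wt_spinTurn]
  have hz : zex J S (spinTurn a b η) = zex J S η := by
    simpa [zex] using key (fun _ => 1) ⟨measurable_const, 1, fun _ => by simp⟩
  rw [ex_def, ex_def, key f hf, hz]

/-- An averaged expectation which controls the given one. -/
theorem exists_avg (η : Conf L₁ L₂) : ∃ E : (Conf L₁ L₂ → ℝ) → ℝ, Avg J S E ∧
    ∀ f, Continuous f → (∀ σ, 0 ≤ f σ) → ex J S η f ≤ 12 * E f := by
  refine ⟨fun f => (∑ a, ∑ b, ex J S (spinTurn a b η) f) / 12, ⟨?_, ?_, ?_, ?_, ?_, ?_⟩, ?_⟩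
  · intro f g hf hg
    simp only [ex_add J S _ (nice_of_continuous hf) (nice_of_continuous hg),
      Finset.sum_add_distrib, add_div]
  · intro c f _
    simp only [ex_smul, ← Finset.mul_sum, mul_div_assoc]
  · intro f g hf hg hfg
    refine div_le_div_of_nonneg_right ?_ (by norm_num)
    exact Finset.sum_le_sum fun a _ => Finset.sum_le_sum fun b _ =>
      ex_mono J S _ (nice_of_continuous hf) (nice_of_continuous hg) hfg
  · simp [ex_one]; norm_num
  · intro i h ws hS _
    have h1 : Nice fun _ : Conf L₁ L₂ => (1 : ℝ) := ⟨measurable_const, 1, fun _ => by simp⟩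
    congr 1
    refine Finset.sum_congr rfl fun a _ => Finset.sum_congr rfl fun b _ => ?_
    simpa [linProd, linProdDeriv] using
      ward_general J S (spinTurn a b η) i hS h1 (fun _ _ _ => rfl) ws
  · intro w
    congr 1
    have hn : ∀ w' (a : Fin 4) (b : Fin 3),
        Integrable (fun ζ => wt J (merge S η ζ) * lin J w' (spinTurn a b (merge S η ζ)))
          (freeMeasure 3 (Site L₁ L₂)) := fun w' a b =>
      integrable_wt_slice J S
        (nice_of_continuous ((continuous_lin J w').comp (continuous_spinTurn a b))) η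
    have hsum : ∀ w', ∑ a, ∑ b, ex J S (spinTurn a b η) (lin J w') =
        ex J S η (fun σ => 12 * lin J (fun e => ((w' e).trace / 3) • (1 : Mat3)) σ) := by
      intro w'
      simp only [ex_spinTurn J S η _ _ (nice_of_continuous (continuous_lin J w'))]
      simp only [ex_def, ← Finset.sum_div]
      simp only [← integral_finsetSum _ (fun b _ => hn w' _ b)]
      rw [← integral_finsetSum _ (fun a _ => integrable_finsetSum _ fun b _ => hn w' a b)]
      congr 1
      refine integral_congr_ae (Filter.Eventually.of_forall fun ζ => ?_)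
      simp only [← Finset.mul_sum]
      congr 1
      simp only [lin]
      rw [Finset.sum_congr rfl (fun a _ => Finset.sum_comm), Finset.sum_comm, Finset.mul_sum]
      refine Finset.sum_congr rfl fun e _ => ?_
      simp only [← Finset.mul_sum, sum_bil_spinTurn]
      ring
    rw [hsum, hsum]
    congr 1
    funext σ
    congr 1
    simp [lin, Matrix.trace_smul, Matrix.trace_one]
  · intro f hf h0
    have hid : spinTurn 0 0 η = η := by
      funext x; apply Subtype.ext; ext p
      rw [tet_apply]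
      fin_cases p <;> simp [tetSign]
    have hnn : ∀ a b, 0 ≤ ex J S (spinTurn a b η) f := fun a b =>
      div_nonneg (integral_nonneg fun ζ => mul_nonneg (Real.exp_pos _).le (h0 _))
        (zex_pos J S _).le
    calc ex J S η f = ex J S (spinTurn 0 0 η) f := by rw [hid]
      _ ≤ ∑ b, ex J S (spinTurn 0 b η) f :=
          Finset.single_le_sum (fun b _ => hnn 0 b) (Finset.mem_univ 0)
      _ ≤ ∑ a, ∑ b, ex J S (spinTurn a b η) f :=
          Finset.single_le_sum (f := fun a => ∑ b, ex J S (spinTurn a b η) f)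
            (fun a _ => Finset.sum_nonneg fun b _ => hnn a b) (Finset.mem_univ 0)
      _ = 12 * ((∑ a, ∑ b, ex J S (spinTurn a b η) f) / 12) := by ring

/-! ### The half turn -/

theorem axRot_pi (v : Sph 3) : sphMap (axRot 2 Real.pi) v = turn v := by
  apply Subtype.ext; ext p
  fin_cases p <;> simp [sphMap, turn, axRot_apply, gen, Fin.sum_univ_three] <;> ring

/-- A bound on the response to a twist bounds the effect of a half turn. -/
theorem abs_ex_sub_turn_le (η : Conf L₁ L₂) {f : Site L₁ L₂ → ℝ} (hS : ∀ x, x ∉ S → f x = 0)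
    {A : Set (Site L₁ L₂)} (hA : ∀ x ∈ A, f x = 1)
    {B : ℝ} (hB : ∀ G, Nice G → DepOn A G → (∀ σ, |G σ| ≤ 1) →
      |ex J S η (fun σ => G σ * cur J 2 f σ)| ≤ B)
    {F : Conf L₁ L₂ → ℝ} (hF : Nice F) (hdep : DepOn A F) (h1 : ∀ σ, |F σ| ≤ 1) :
    |ex J S η F - ex J S η (fun σ => F fun x => turn (σ x))| ≤ Real.pi * B := by
  -- the expectation of `F` turned by the twist at angle `s`
  set ψ : ℝ → ℝ := fun s =>
    (∫ ζ, F (merge S η ζ) * wt J (twist 2 f s (merge S η ζ))
      ∂freeMeasure 3 (Site L₁ L₂)) / zex J S η with hψ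
  have hw : Continuous fun σ => -(cur J 2 f σ * wt J σ) :=
    ((continuous_cur J 2 f).mul (continuous_wt J)).neg
  have hder : ∀ s, HasDerivAt ψ ((∫ ζ, F (merge S η ζ) *
      (-(cur J 2 f (twist 2 f s (merge S η ζ)) * wt J (twist 2 f s (merge S η ζ))))
      ∂freeMeasure 3 (Site L₁ L₂)) / zex J S η) s := fun s =>
    (hasDerivAt_slice S η 2 f hF (continuous_wt J) hw
      (fun σ t => hasDerivAt_wt J 2 f σ t) s).div_const _
  -- move the twist onto `F`
  have hGn : ∀ s, Nice fun σ => F (twist 2 f s σ) := fun s =>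
    hF.comp (continuous_twist 2 f s).measurable
  have hcomp : ∀ s {k : Conf L₁ L₂ → ℝ}, Nice k →
      ∫ ζ, F (merge S η ζ) * k (twist 2 f s (merge S η ζ)) ∂freeMeasure 3 (Site L₁ L₂) =
      ∫ ζ, F (twist 2 f (-s) (merge S η ζ)) * k (merge S η ζ)
        ∂freeMeasure 3 (Site L₁ L₂) := by
    intro s k hk
    rw [← integral_slice_twist S η 2 hS ((hGn (-s)).mul hk) s]
    simp [twist_add, twist_zero]
  have hbound : ∀ s, |(∫ ζ, F (merge S η ζ) *
      (-(cur J 2 f (twist 2 f s (merge S η ζ)) * wt J (twist 2 f s (merge S η ζ))))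
      ∂freeMeasure 3 (Site L₁ L₂)) / zex J S η| ≤ B := by
    intro s
    have hG := hB (fun σ => F (twist 2 f (-s) σ)) (hGn (-s)) (fun σ σ' hσ => by
      refine hdep _ _ fun x hx => ?_
      have hfx : f x = 1 := hA x hx
      simp [twist, hσ x hx]) (fun σ => h1 _)
    rw [hcomp s (nice_of_continuous hw)]
    simp only [mul_neg, integral_neg, neg_div, abs_neg]
    refine le_trans (le_of_eq ?_) hG
    rw [ex_def]
    congr 2
    refine integral_congr_ae (Filter.Eventually.of_forall fun ζ => ?_)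
    ring
  have hmvt := Convex.norm_image_sub_le_of_norm_hasDerivWithin_le (f := ψ) (C := B)
    (s := Set.univ) (fun s _ => (hder s).hasDerivWithinAt) (fun s _ => hbound s) convex_univ
    (Set.mem_univ (-Real.pi)) (Set.mem_univ (0 : ℝ))
  have e0 : ψ 0 = ex J S η F := by
    simp only [hψ, twist_zero, ex_def]
    congr 1
    refine integral_congr_ae (Filter.Eventually.of_forall fun ζ => ?_)
    ring
  have e1 : ψ (-Real.pi) = ex J S η (fun σ => F fun x => turn (σ x)) := by
    simp only [hψ]
    rw [hcomp (-Real.pi) (nice_of_continuous (continuous_wt J)), ex_def, neg_neg]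
    congr 1
    refine integral_congr_ae (Filter.Eventually.of_forall fun ζ => ?_)
    dsimp only
    rw [mul_comm, hdep (twist 2 f Real.pi (merge S η ζ))
      (fun x => turn (merge S η ζ x)) fun x hx => ?_]
    have hfx : f x = 1 := hA x hx
    simp [twist, hfx, axRot_pi]
  rw [e0, e1, Real.norm_eq_abs, Real.norm_eq_abs, zero_sub, neg_neg,
    abs_of_pos Real.pi_pos, mul_comm B] at hmvt
  exact hmvt

end Vale.Agent.P163.Gap
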